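import Mathlib

/-!
# P101: continuous functional calculus and intertwining elements
-/

namespace Vale.Agent.P101

open Polynomial

variable {A : Type*} [CStarAlgebra A]

theorem aeval_intertwine {X Z p : A} (h : X * p = p * Z) (q : ℝ[X]) :
    aeval X q * p = p * aeval Z q := by
  induction q using Polynomial.induction_on with
  | C a =>
    rw [aeval_C, aeval_C]
    exact Algebra.commutes a p
  | add f g hf hg =>
    rw [map_add, map_add, add_mul, mul_add, hf, hg]
  | monomial n a ih =>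
    have e : ∀ Y : A, aeval Y (C a * Polynomial.X ^ (n + 1)) = aeval Y (C a * Polynomial.X ^ n) * Y := by
      intro Y
      simp only [map_mul, map_pow, aeval_C, aeval_X, pow_succ, mul_assoc]
    rw [e, e, mul_assoc, h, ← mul_assoc, ih, mul_assoc]

/-- If `X p = p Z` for self-adjoint `X, Z` then `f(X) p = p f(Z)` for every continuous `f`. -/
theorem cfc_intertwine {X Z p : A} (hX : IsSelfAdjoint X) (hZ : IsSelfAdjoint Z)
    (h : X * p = p * Z) (f : ℝ → ℝ) (hf : Continuous f) :
    cfc f X * p = p * cfc f Z := by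
  obtain ⟨R, hR1, hR2⟩ : ∃ R : ℝ, spectrum ℝ X ⊆ Set.Icc (-R) R ∧ spectrum ℝ Z ⊆ Set.Icc (-R) R := by
    refine ⟨max (‖X‖ * ‖(1 : A)‖) (‖Z‖ * ‖(1 : A)‖), ?_, ?_⟩
    · intro x hx
      have := spectrum.norm_le_norm_mul_of_mem hx
      rw [Real.norm_eq_abs, abs_le] at this
      exact ⟨by linarith [le_max_left (‖X‖ * ‖(1 : A)‖) (‖Z‖ * ‖(1 : A)‖)],
        by linarith [le_max_left (‖X‖ * ‖(1 : A)‖) (‖Z‖ * ‖(1 : A)‖)]⟩
    · intro x hx
      have := spectrum.norm_le_norm_mul_of_mem hx
      rw [Real.norm_eq_abs, abs_le] at this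
      exact ⟨by linarith [le_max_right (‖X‖ * ‖(1 : A)‖) (‖Z‖ * ‖(1 : A)‖)],
        by linarith [le_max_right (‖X‖ * ‖(1 : A)‖) (‖Z‖ * ‖(1 : A)‖)]⟩
  have key : ∀ ε > 0, ‖cfc f X * p - p * cfc f Z‖ ≤ ε * (2 * ‖p‖) := by
    intro ε hε
    obtain ⟨q, hq⟩ := exists_polynomial_near_of_continuousOn (-R) R f hf.continuousOn ε hε
    have h1 : ‖cfc f X - aeval X q‖ ≤ ε := by
      rw [← cfc_polynomial q X, ← cfc_sub f q.eval X]
      refine norm_cfc_le hε.le fun x hx => ?_
      have := hq x (hR1 hx)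
      rw [Real.norm_eq_abs, abs_sub_comm]
      exact this.le
    have h2 : ‖cfc f Z - aeval Z q‖ ≤ ε := by
      rw [← cfc_polynomial q Z, ← cfc_sub f q.eval Z]
      refine norm_cfc_le hε.le fun x hx => ?_
      have := hq x (hR2 hx)
      rw [Real.norm_eq_abs, abs_sub_comm]
      exact this.le
    have e : cfc f X * p - p * cfc f Z
        = (cfc f X - aeval X q) * p - p * (cfc f Z - aeval Z q) := by
      rw [sub_mul, mul_sub, aeval_intertwine h q]
      abel
    rw [e]
    refine (norm_sub_le _ _).trans ?_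
    have a1 := norm_mul_le (cfc f X - aeval X q) p
    have a2 := norm_mul_le p (cfc f Z - aeval Z q)
    nlinarith [norm_nonneg p, mul_le_mul_of_nonneg_right h1 (norm_nonneg p),
      mul_le_mul_of_nonneg_left h2 (norm_nonneg p)]
  have h0 : ‖cfc f X * p - p * cfc f Z‖ ≤ 0 := by
    refine le_of_forall_pos_le_add fun ε hε => ?_
    have hp : 0 < 2 * ‖p‖ + 1 := by positivity
    have := key (ε / (2 * ‖p‖ + 1)) (by positivity)
    rw [zero_add]
    refine this.trans ?_
    rw [div_mul_eq_mul_div, div_le_iff₀ hp]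
    nlinarith [norm_nonneg p]
  exact sub_eq_zero.1 (norm_le_zero_iff.1 h0)

end Vale.Agent.P101
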