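import Mathlib

/-!
# P101: definitions used in the statement of the main theorem

The ultrapower `A_ω`, the central sequence algebra `F_ω(A)`, dimension drop algebras, the
Jiang-Su algebra and tensor products of C*-algebras.
-/

open Filter Topology
open scoped Kronecker TensorProduct BoundedContinuousFunction ComplexOrder

namespace Vale.Agent.P101

universe u v w

/-- The `*`-homomorphism `q` on the bounded sequences in `A` exhibits `U` as the norm ultrapower
`A_ω = ℓ^∞(ℕ, A) / {x : lim_ω ‖x n‖ = 0}`: it is surjective, with kernel the sequences which are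
null along `ω`. -/
structure IsUltrapower (ω : Ultrafilter ℕ) {A : Type u} {U : Type v} [CStarAlgebra A]
    [CStarAlgebra U] (q : (ℕ →ᵇ A) →⋆ₐ[ℂ] U) : Prop where
  surjective : Function.Surjective q
  ker : ∀ x : ℕ →ᵇ A, q x = 0 ↔ Tendsto (fun n => ‖x n‖) (ω : Filter ℕ) (𝓝 0)

/-- `F_ω(A) = A_ω ∩ A'`: the commutant in `U = A_ω` of the constant sequences. -/
def centralAlg {A : Type u} {U : Type v} [CStarAlgebra A] [CStarAlgebra U]
    (q : (ℕ →ᵇ A) →⋆ₐ[ℂ] U) : StarSubalgebra ℂ U :=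
  StarSubalgebra.centralizer ℂ
    (Set.range fun a : A => q (BoundedContinuousFunction.const ℕ a))

/-- The dimension drop algebra `Z_{p,q}`, as a set of functions: continuous functions `f` from
`[0,1]` to `M_p ⊗ M_q` with `f 0 ∈ M_p ⊗ 1` and `f 1 ∈ 1 ⊗ M_q`. -/
def dimDropSet (p q : ℕ) :
    Set C(unitInterval, Matrix (Fin p × Fin q) (Fin p × Fin q) ℂ) :=
  {f | (∃ x : Matrix (Fin p) (Fin p) ℂ, f 0 = x ⊗ₖ (1 : Matrix (Fin q) (Fin q) ℂ)) ∧
    ∃ y : Matrix (Fin q) (Fin q) ℂ, f 1 = (1 : Matrix (Fin p) (Fin p) ℂ) ⊗ₖ y}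

/-- The C*-algebra `D` is isomorphic to the dimension drop algebra `Z_{p,q}`. -/
def IsDimDrop (p q : ℕ) (D : Type v) [CStarAlgebra D] : Prop :=
  ∃ e : D →⋆ₐ[ℂ] C(unitInterval, Matrix (Fin p × Fin q) (Fin p × Fin q) ℂ),
    Function.Injective e ∧ Set.range e = dimDropSet p q

/-- `D` is a prime dimension drop algebra. -/
def IsPrimeDimDrop (D : Type v) [CStarAlgebra D] : Prop :=
  ∃ p q : ℕ, 0 < p ∧ 0 < q ∧ Nat.Coprime p q ∧ IsDimDrop p q D

/-- `Z` is an inductive limit (with injective unital connecting maps) of a sequence of prime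
dimension drop algebras. -/
def IsPrimeDimDropLimit (Z : Type u) [CStarAlgebra Z] : Prop :=
  ∃ (D : ℕ → Type) (_ : ∀ k, CStarAlgebra (D k)) (i : ∀ k, D k →⋆ₐ[ℂ] Z),
    (∀ k, IsPrimeDimDrop (D k)) ∧ (∀ k, Function.Injective (i k)) ∧
    (∀ k, Set.range (i k) ⊆ Set.range (i (k + 1))) ∧ Dense (⋃ k, Set.range (i k))

/-- A tracial state. -/
structure IsTrace {Z : Type u} [CStarAlgebra Z] (τ : Z →ₗ[ℂ] ℂ) : Prop where
  map_one : τ 1 = 1
  nonneg : ∀ x, 0 ≤ τ (star x * x)
  trace : ∀ x y, τ (x * y) = τ (y * x)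

/-- The half flip of `Z` is approximately inner: two unital `*`-homomorphisms of `Z` with
commuting ranges are approximately conjugate by unitaries of the C*-algebra they generate. -/
def HasHalfFlip (Z : Type u) [CStarAlgebra Z] : Prop :=
  ∀ (C : Type v) [CStarAlgebra C] (π₁ π₂ : Z →⋆ₐ[ℂ] C),
    (∀ x y, Commute (π₁ x) (π₂ y)) → ∀ (F : Finset Z) (ε : ℝ), 0 < ε →
      ∃ W ∈ unitary C, W ∈ closure (Algebra.adjoin ℂ (Set.range π₁ ∪ Set.range π₂) : Set C) ∧
        ∀ z ∈ F, ‖W * π₁ z * star W - π₂ z‖ < ε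

/-- The Jiang-Su algebra: the infinite-dimensional simple inductive limit of prime dimension drop
algebras with a unique tracial state (whose half flip is approximately inner). -/
structure IsJiangSuAlgebra (Z : Type u) [CStarAlgebra Z] : Prop where
  infinite : ¬ FiniteDimensional ℂ Z
  simple : IsSimpleRing Z
  trace : ∃! τ : Z →ₗ[ℂ] ℂ, IsTrace τ
  limit : IsPrimeDimDropLimit Z
  halfFlip : HasHalfFlip.{u, v} Z

/-- `T`, with the maps `ιA` and `ιZ`, is a C*-algebra completion of the algebraic tensor product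
of `A` and `Z`. -/
structure IsTensor {A : Type u} {Z : Type v} {T : Type w} [CStarAlgebra A] [CStarAlgebra Z]
    [CStarAlgebra T] (ιA : A →⋆ₐ[ℂ] T) (ιZ : Z →⋆ₐ[ℂ] T) : Prop where
  commute : ∀ a z, Commute (ιA a) (ιZ z)
  injective : Function.Injective (Algebra.TensorProduct.lift (ιA : A →ₐ[ℂ] T) (ιZ : Z →ₐ[ℂ] T)
    commute)
  dense : DenseRange (Algebra.TensorProduct.lift (ιA : A →ₐ[ℂ] T) (ιZ : Z →ₐ[ℂ] T) commute)

end Vale.Agent.P101
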