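import Mathlib

/-!
# P101: Kirchberg's ε-test, and extension of approximate homomorphisms from a dense sequence
-/

open Filter Topology

namespace Vale.Agent.P101

/-- Kirchberg's ε-test. -/
theorem eps_test {X : ℕ → Type*} (w : Filter ℕ) (hw : w ≤ cofinite)
    (f : ℕ → (n : ℕ) → X n → ℝ) (hf : ∀ k n x, 0 ≤ f k n x)
    (h : ∀ (m : ℕ) (ε : ℝ), 0 < ε → ∃ x : ∀ n, X n, ∀ k ≤ m, ∀ᶠ n in w, f k n (x n) < ε) :
    ∃ x : ∀ n, X n, ∀ k, Tendsto (fun n => f k n (x n)) w (𝓝 0) := by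
  classical
  choose x hx using fun m : ℕ => h m (1 / ((m : ℝ) + 1)) (by positivity)
  -- the condition number `m` at stage `n`
  let P : ℕ → ℕ → Prop := fun n m => ∀ k ≤ m, f k n (x m n) < 1 / ((m : ℝ) + 1)
  let M : ℕ → ℕ := fun n => Nat.findGreatest (P n) n
  refine ⟨fun n => x (M n) n, fun k => ?_⟩
  have key : ∀ m₀, ∀ᶠ n in w, P n m₀ := by
    intro m₀
    have : ∀ k ∈ Finset.range (m₀ + 1), ∀ᶠ n in w, f k n (x m₀ n) < 1 / ((m₀ : ℝ) + 1) :=
      fun k hk => hx m₀ k (by simpa [Nat.lt_succ_iff] using hk)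
    have h2 := (Filter.eventually_all_finset (Finset.range (m₀ + 1))).2 this
    filter_upwards [h2] with n hn k hk
    exact hn k (by simpa [Nat.lt_succ_iff] using hk)
  rw [Metric.tendsto_nhds]
  intro ε hε
  obtain ⟨m₁, hm₁⟩ := exists_nat_one_div_lt hε
  have hge : ∀ᶠ n in w, max k m₁ ≤ n := hw (Nat.cofinite_eq_atTop ▸ eventually_ge_atTop _)
  filter_upwards [key (max k m₁), hge] with n hn hn2
  have hM : max k m₁ ≤ M n := Nat.le_findGreatest hn2 hn
  have hP : P n (M n) := Nat.findGreatest_spec hn2 hn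
  have h3 := hP k ((le_max_left _ _).trans hM)
  rw [Real.dist_eq, sub_zero, abs_of_nonneg (hf _ _ _)]
  refine h3.trans_le (le_trans ?_ hm₁.le)
  apply one_div_le_one_div_of_le (by positivity)
  have : (m₁ : ℝ) ≤ (M n : ℝ) := by exact_mod_cast (le_max_right _ _).trans hM
  linarith

/-- Approximate unital star homomorphisms, given on a dense sequence, extend. -/
theorem exists_hom_of_dense {D E : Type*} [NormedRing D] [NormedAlgebra ℂ D] [StarRing D]
    [ContinuousStar D] [StarModule ℂ D] [CStarAlgebra E] (d : ℕ → D) (hd : DenseRange d) (ψ : ℕ → E)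
    (h0 : ∀ i j, ‖ψ i - ψ j‖ ≤ ‖d i - d j‖)
    (hadd : ∀ i j k, ‖ψ i + ψ j - ψ k‖ ≤ ‖d i + d j - d k‖)
    (hmul : ∀ i j k, ‖ψ i * ψ j - ψ k‖ ≤ ‖d i * d j - d k‖)
    (hstar : ∀ i k, ‖star (ψ i) - ψ k‖ ≤ ‖star (d i) - d k‖)
    (hI : ∀ i k, ‖Complex.I • ψ i - ψ k‖ ≤ ‖Complex.I • d i - d k‖)
    (hone : ∀ k, ‖1 - ψ k‖ ≤ ‖1 - d k‖) :
    ∃ Φ : D →⋆ₐ[ℂ] E, (∀ i, Φ (d i) = ψ i) ∧ ∀ x, ‖Φ x‖ ≤ ‖x‖ := by
  classical
  -- the map on the range
  have hch : ∀ s : Set.range d, ∃ i, d i = s := fun s => s.2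
  choose idx hidx using hch
  let g : Set.range d → E := fun s => ψ (idx s)
  have hg : LipschitzWith 1 g := by
    apply LipschitzWith.of_dist_le_mul
    intro s t
    rw [NNReal.coe_one, one_mul, dist_eq_norm]
    refine (h0 _ _).trans ?_
    rw [hidx, hidx, ← dist_eq_norm]
    exact le_rfl
  have hui : IsUniformInducing (Subtype.val : Set.range d → D) := isUniformInducing_val _
  have hdr : DenseRange (Subtype.val : Set.range d → D) := hd.denseRange_val
  let Φ : D → E := (hui.isDenseInducing hdr).extend g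
  have hΦc : Continuous Φ := (uniformContinuous_uniformly_extend hui hdr hg.uniformContinuous).continuous
  have hΦg : ∀ s : Set.range d, Φ s = g s := fun s =>
    uniformly_extend_of_ind hui hdr hg.uniformContinuous s
  have hΦd : ∀ i, Φ (d i) = ψ i := by
    intro i
    have h1 := hΦg ⟨d i, i, rfl⟩
    have h2 : ‖ψ (idx ⟨d i, i, rfl⟩) - ψ i‖ ≤ 0 := by
      refine (h0 _ _).trans ?_
      rw [hidx]
      simp
    have h3 : ψ (idx ⟨d i, i, rfl⟩) = ψ i := by
      have := norm_le_zero_iff.1 h2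
      exact sub_eq_zero.1 this
    exact h1.trans h3
  have key : ∀ (c : E) (x : D), (∀ k, ‖c - ψ k‖ ≤ ‖x - d k‖) → Φ x = c := by
    intro c x h
    have hcl : IsClosed {z : D | ‖c - Φ z‖ ≤ ‖x - z‖} := isClosed_le (by fun_prop) (by fun_prop)
    have h1 : x ∈ {z : D | ‖c - Φ z‖ ≤ ‖x - z‖} := by
      have h2 : closure (Set.range d) ⊆ {z : D | ‖c - Φ z‖ ≤ ‖x - z‖} := by
        apply closure_minimal _ hcl
        rintro _ ⟨k, rfl⟩
        simp only [Set.mem_ofPred_eq]
        rw [hΦd]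
        exact h k
      exact h2 (hd x)
    simp only [Set.mem_ofPred_eq, sub_self, norm_zero] at h1
    exact (sub_eq_zero.1 (norm_le_zero_iff.1 h1)).symm
  have hlip : ∀ x y, ‖Φ x - Φ y‖ ≤ ‖x - y‖ := by
    intro x y
    refine hd.induction_on₂ (p := fun x y => ‖Φ x - Φ y‖ ≤ ‖x - y‖) ?_ ?_ x y
    · exact isClosed_le (by fun_prop) (by fun_prop)
    · intro i j
      rw [hΦd, hΦd]
      exact h0 i j
  have hΦadd : ∀ x y, Φ (x + y) = Φ x + Φ y := by
    intro x y
    refine hd.induction_on₂ (p := fun x y => Φ (x + y) = Φ x + Φ y) ?_ ?_ x y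
    · exact isClosed_eq (by fun_prop) (by fun_prop)
    · intro i j
      rw [hΦd, hΦd]
      exact key _ _ (hadd i j)
  have hΦmul : ∀ x y, Φ (x * y) = Φ x * Φ y := by
    intro x y
    refine hd.induction_on₂ (p := fun x y => Φ (x * y) = Φ x * Φ y) ?_ ?_ x y
    · exact isClosed_eq (by fun_prop) (by fun_prop)
    · intro i j
      rw [hΦd, hΦd]
      exact key _ _ (hmul i j)
  have hΦstar : ∀ x, Φ (star x) = star (Φ x) := by
    intro x
    refine hd.induction_on (p := fun x => Φ (star x) = star (Φ x)) x ?_ ?_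
    · exact isClosed_eq (by fun_prop) (by fun_prop)
    · intro i
      rw [hΦd]
      exact key _ _ (hstar i)
  have hΦI : ∀ x, Φ (Complex.I • x) = Complex.I • Φ x := by
    intro x
    refine hd.induction_on (p := fun x => Φ (Complex.I • x) = Complex.I • Φ x) x ?_ ?_
    · exact isClosed_eq (by fun_prop) (by fun_prop)
    · intro i
      rw [hΦd]
      exact key _ _ (hI i)
  have hΦone : Φ 1 = 1 := key _ _ hone
  have hΦzero : Φ 0 = 0 := by
    have := hΦadd 0 0
    simpa using this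
  -- real linearity
  let Φa : D →+ E := ⟨⟨Φ, hΦzero⟩, hΦadd⟩
  have hΦreal : ∀ (r : ℝ) x, Φ (r • x) = r • Φ x := fun r x => map_real_smul Φa hΦc r x
  have hΦsmul : ∀ (c : ℂ) x, Φ (c • x) = c • Φ x := by
    intro c x
    have h1 : c • x = c.re • x + Complex.I • (c.im • x) := by
      conv_lhs => rw [← Complex.re_add_im c]
      rw [add_smul, mul_comm, mul_smul]
      simp only [Complex.coe_smul]
    have h2 : c • Φ x = c.re • Φ x + Complex.I • (c.im • Φ x) := by
      conv_lhs => rw [← Complex.re_add_im c]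
      rw [add_smul, mul_comm, mul_smul]
      simp only [Complex.coe_smul]
    rw [h1, hΦadd, hΦI, hΦreal, hΦreal, h2]
  refine ⟨{ toFun := Φ, map_one' := hΦone, map_mul' := hΦmul, map_zero' := hΦzero,
            map_add' := hΦadd, commutes' := ?_, map_star' := hΦstar }, hΦd, ?_⟩
  · intro c
    rw [Algebra.algebraMap_eq_smul_one, Algebra.algebraMap_eq_smul_one]
    show Φ (c • 1) = c • 1
    rw [hΦsmul, hΦone]
  · intro x
    have := hlip x 0
    rw [hΦzero, sub_zero, sub_zero] at this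
    exact this

end Vale.Agent.P101
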