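import Mathlib

/-!
# P101: the norm ultrapower of a C*-algebra and the central sequence algebra
-/

open Filter Topology
open scoped BoundedContinuousFunction

namespace Vale.Agent.P101

universe u

/-- Bounded sequences in `A` (a type synonym, to carry the seminorm `lim_ω ‖x n‖`). -/
def PreUltra (_ω : Ultrafilter ℕ) (A : Type u) [CStarAlgebra A] : Type u := ℕ →ᵇ A

namespace PreUltra

variable (ω : Ultrafilter ℕ) (A : Type u) [CStarAlgebra A]

noncomputable instance instRing : Ring (PreUltra ω A) := inferInstanceAs (Ring (ℕ →ᵇ A))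

noncomputable instance instAlgebra : Algebra ℂ (PreUltra ω A) :=
  inferInstanceAs (Algebra ℂ (ℕ →ᵇ A))

noncomputable instance instStarRing : StarRing (PreUltra ω A) :=
  inferInstanceAs (StarRing (ℕ →ᵇ A))

instance instStarModule : StarModule ℂ (PreUltra ω A) :=
  inferInstanceAs (StarModule ℂ (ℕ →ᵇ A))

variable {A}

/-- A bounded sequence as an element of `PreUltra ω A`. -/
noncomputable def of : (ℕ →ᵇ A) →⋆ₐ[ℂ] PreUltra ω A := StarAlgHom.id ℂ (ℕ →ᵇ A)

variable {ω}

/-- The underlying bounded sequence. -/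
noncomputable def seq : PreUltra ω A →⋆ₐ[ℂ] (ℕ →ᵇ A) := StarAlgHom.id ℂ (ℕ →ᵇ A)

theorem seq_of (x : ℕ →ᵇ A) : seq (of ω x) = x := rfl

theorem of_seq (x : PreUltra ω A) : of ω (seq x) = x := rfl

theorem exists_tendsto (x : ℕ →ᵇ A) : ∃ c, Tendsto (fun n => ‖x n‖) ω (𝓝 c) := by
  have hK : IsCompact (Set.Icc (0 : ℝ) ‖x‖) := isCompact_Icc
  obtain ⟨c, -, hc⟩ := hK.ultrafilter_le_nhds (ω.map fun n => ‖x n‖) (by
    rw [le_principal_iff]
    exact mem_map.2 (Eventually.of_forall fun n => ⟨norm_nonneg _, x.norm_coe_le_norm n⟩))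
  exact ⟨c, hc⟩

noncomputable instance instNorm : Norm (PreUltra ω A) where
  norm x := limUnder (ω : Filter ℕ) fun n => ‖seq x n‖

theorem norm_def (x : PreUltra ω A) : ‖x‖ = limUnder (ω : Filter ℕ) fun n => ‖seq x n‖ := rfl

theorem tendsto_norm (x : PreUltra ω A) : Tendsto (fun n => ‖seq x n‖) ω (𝓝 ‖x‖) :=
  tendsto_nhds_limUnder (exists_tendsto (seq x))

noncomputable instance instSeminormedRing : SeminormedRing (PreUltra ω A) where
  __ := instRing ω A
  __ := instNorm
  dist x y := ‖-x + y‖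
  dist_self x := by
    refine tendsto_nhds_unique (tendsto_norm _) ?_
    simp
  dist_comm x y := by
    refine tendsto_nhds_unique (tendsto_norm _) ?_
    refine (tendsto_norm (-y + x)).congr fun n => ?_
    simp only [map_add, map_neg, BoundedContinuousFunction.coe_add,
      BoundedContinuousFunction.coe_neg, Pi.add_apply, Pi.neg_apply]
    rw [← norm_neg, neg_add, neg_neg, add_comm]
  dist_triangle x y z := by
    refine le_of_tendsto_of_tendsto (tendsto_norm _)
      ((tendsto_norm (-x + y)).add (tendsto_norm (-y + z))) (Eventually.of_forall fun n => ?_)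
    simp only [map_add, map_neg, BoundedContinuousFunction.coe_add,
      BoundedContinuousFunction.coe_neg, Pi.add_apply, Pi.neg_apply]
    have : -(seq x) n + (seq z) n = (-(seq x) n + (seq y) n) + (-(seq y) n + (seq z) n) := by abel
    rw [this]
    exact norm_add_le _ _
  dist_eq x y := rfl
  norm_mul_le x y := by
    refine le_of_tendsto_of_tendsto (tendsto_norm _)
      ((tendsto_norm x).mul (tendsto_norm y)) (Eventually.of_forall fun n => ?_)
    simp only [map_mul, BoundedContinuousFunction.coe_mul, Pi.mul_apply]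
    exact norm_mul_le _ _

noncomputable instance instNormedAlgebra : NormedAlgebra ℂ (PreUltra ω A) where
  __ := instAlgebra ω A
  norm_smul_le c x := by
    refine le_of_tendsto_of_tendsto (tendsto_norm _)
      (tendsto_const_nhds.mul (tendsto_norm x)) (Eventually.of_forall fun n => ?_)
    simp only [map_smul, BoundedContinuousFunction.coe_smul]
    exact norm_smul_le _ _

instance instNormedStarGroup : NormedStarGroup (PreUltra ω A) where
  norm_star_le x := by
    refine le_of_tendsto_of_tendsto (tendsto_norm _) (tendsto_norm x)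
      (Eventually.of_forall fun n => ?_)
    simp only [map_star, BoundedContinuousFunction.star_apply, norm_star, le_refl]

theorem norm_star_mul_self' (x : PreUltra ω A) : ‖star x * x‖ = ‖x‖ * ‖x‖ := by
  refine tendsto_nhds_unique (tendsto_norm _) (((tendsto_norm x).mul (tendsto_norm x)).congr ?_)
  intro n
  simp only [map_mul, map_star, BoundedContinuousFunction.coe_mul, Pi.mul_apply,
    BoundedContinuousFunction.star_apply]
  exact CStarRing.norm_star_mul_self.symm

theorem norm_of_le (x : ℕ →ᵇ A) : ‖of ω x‖ ≤ ‖x‖ :=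
  le_of_tendsto (tendsto_norm (of ω x)) (Eventually.of_forall fun n => x.norm_coe_le_norm n)

theorem norm_eq_zero_iff (x : PreUltra ω A) : ‖x‖ = 0 ↔ Tendsto (fun n => ‖seq x n‖) ω (𝓝 0) :=
  ⟨fun h => h ▸ tendsto_norm x, fun h => tendsto_nhds_unique (tendsto_norm x) h⟩

/-- Cut down of a sequence to the ball of radius `C`. -/
noncomputable def cut (x : ℕ →ᵇ A) (C : ℝ) (hC : 0 ≤ C) : ℕ →ᵇ A :=
  BoundedContinuousFunction.ofNormedAddCommGroupDiscrete
    (fun n => ((min 1 (C / ‖x n‖) : ℝ) : ℂ) • x n) C (by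
      intro n
      rw [norm_smul]
      rcases eq_or_ne (x n) 0 with h | h
      · simp [h, hC]
      · have h' : 0 < ‖x n‖ := norm_pos_iff.2 h
        rw [Complex.norm_real, Real.norm_eq_abs,
          abs_of_nonneg (le_min zero_le_one (by positivity))]
        calc min 1 (C / ‖x n‖) * ‖x n‖ ≤ C / ‖x n‖ * ‖x n‖ :=
              mul_le_mul_of_nonneg_right (min_le_right _ _) h'.le
          _ = C := div_mul_cancel₀ _ h'.ne')

theorem cut_apply (x : ℕ →ᵇ A) (C : ℝ) (hC : 0 ≤ C) (n : ℕ) :
    cut x C hC n = ((min 1 (C / ‖x n‖) : ℝ) : ℂ) • x n := rfl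

theorem norm_cut_apply_le (x : ℕ →ᵇ A) (C : ℝ) (hC : 0 ≤ C) (n : ℕ) : ‖cut x C hC n‖ ≤ C := by
  rw [cut_apply, norm_smul]
  rcases eq_or_ne (x n) 0 with h | h
  · simp [h, hC]
  · have h' : 0 < ‖x n‖ := norm_pos_iff.2 h
    rw [Complex.norm_real, Real.norm_eq_abs,
      abs_of_nonneg (le_min zero_le_one (by positivity))]
    calc min 1 (C / ‖x n‖) * ‖x n‖ ≤ C / ‖x n‖ * ‖x n‖ :=
          mul_le_mul_of_nonneg_right (min_le_right _ _) h'.le
      _ = C := div_mul_cancel₀ _ h'.ne'

theorem norm_cut_sub_apply (x : ℕ →ᵇ A) (C : ℝ) (hC : 0 ≤ C) (n : ℕ) :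
    ‖cut x C hC n - x n‖ = max 0 (‖x n‖ - C) := by
  rw [cut_apply]
  rcases eq_or_ne (x n) 0 with h | h
  · simp [h, hC]
  · have h' : 0 < ‖x n‖ := norm_pos_iff.2 h
    have e : ((min 1 (C / ‖x n‖) : ℝ) : ℂ) • x n - x n
        = (((min 1 (C / ‖x n‖) - 1 : ℝ)) : ℂ) • x n := by
      push_cast
      rw [sub_smul, one_smul]
    rw [e, norm_smul, Complex.norm_real, Real.norm_eq_abs]
    rcases le_total (C / ‖x n‖) 1 with h1 | h1
    · rw [min_eq_right h1, abs_of_nonpos (by linarith), max_eq_right]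
      · field_simp
        ring
      · rw [div_le_one h'] at h1
        linarith
    · rw [min_eq_left h1, sub_self, abs_zero, zero_mul, max_eq_left]
      rw [one_le_div h'] at h1
      linarith

/-- Every element of the seminormed algebra is represented, up to seminorm zero, by a sequence
whose entries are bounded by its seminorm. -/
theorem exists_rep (x : PreUltra ω A) :
    ∃ y : ℕ →ᵇ A, ‖of ω y - x‖ = 0 ∧ ∀ n, ‖y n‖ ≤ ‖x‖ := by
  have hx : 0 ≤ ‖x‖ := norm_nonneg x
  refine ⟨cut (seq x) ‖x‖ hx, ?_, norm_cut_apply_le _ _ _⟩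
  rw [norm_eq_zero_iff]
  have h1 : Tendsto (fun n => max 0 (‖seq x n‖ - ‖x‖)) ω (𝓝 (max 0 (‖x‖ - ‖x‖))) :=
    tendsto_const_nhds.max ((tendsto_norm x).sub tendsto_const_nhds)
  rw [sub_self, max_self] at h1
  refine h1.congr fun n => ?_
  rw [map_sub, seq_of, BoundedContinuousFunction.sub_apply, norm_cut_sub_apply]

instance instCompleteSpace : CompleteSpace (PreUltra ω A) := by
  apply Metric.complete_of_cauchySeq_tendsto
  intro u hu
  obtain ⟨f, hf₁, hf₂⟩ := Metric.exists_subseq_summable_dist_of_cauchySeq u hu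
  have hd : ∀ x y : PreUltra ω A, dist x y = ‖x - y‖ := by
    intro x y
    rw [dist_comm]
    change ‖-y + x‖ = _
    rw [neg_add_eq_sub]
  simp only [hd] at hf₂
  choose y hy hyn using fun n => exists_rep (u (f (n + 1)) - u (f n))
  have hyn' : ∀ n, ‖y n‖ ≤ ‖u (f (n + 1)) - u (f n)‖ := fun n =>
    (BoundedContinuousFunction.norm_le (norm_nonneg _)).2 (hyn n)
  have hsum : Summable fun n => ‖y n‖ := Summable.of_nonneg_of_le (fun _ => norm_nonneg _) hyn' hf₂
  obtain ⟨a, ha⟩ := NormedAddCommGroup.summable_imp_tendsto_of_complete y hsum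
  have hdiff : ∀ n, ‖of ω (∑ i ∈ Finset.range n, y i) - (u (f n) - u (f 0))‖ = 0 := by
    intro n
    induction n with
    | zero =>
      have : of ω (∑ i ∈ Finset.range 0, y i) - (u (f 0) - u (f 0)) = 0 := by simp
      rw [this]
      exact norm_zero
    | succ n ih =>
      have e : of ω (∑ i ∈ Finset.range (n + 1), y i) - (u (f (n + 1)) - u (f 0))
          = (of ω (∑ i ∈ Finset.range n, y i) - (u (f n) - u (f 0)))
            + (of ω (y n) - (u (f (n + 1)) - u (f n))) := by
        rw [Finset.sum_range_succ, map_add]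
        abel
      refine le_antisymm ?_ (norm_nonneg _)
      calc _ ≤ ‖of ω (∑ i ∈ Finset.range n, y i) - (u (f n) - u (f 0))‖
            + ‖of ω (y n) - (u (f (n + 1)) - u (f n))‖ := by
              rw [e]
              exact norm_add_le _ _
        _ = 0 := by rw [ih, hy, add_zero]
  refine ⟨of ω a + u (f 0), ?_⟩
  refine tendsto_nhds_of_cauchySeq_of_subseq hu hf₁.tendsto_atTop ?_
  rw [tendsto_iff_norm_sub_tendsto_zero]
  have h0 : Tendsto (fun n => ‖∑ i ∈ Finset.range n, y i - a‖) atTop (𝓝 0) :=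
    tendsto_iff_norm_sub_tendsto_zero.1 ha
  refine squeeze_zero (fun _ => norm_nonneg _) (fun n => ?_) h0
  have e : (u ∘ f) n - (of ω a + u (f 0))
      = -(of ω (∑ i ∈ Finset.range n, y i) - (u (f n) - u (f 0)))
        + of ω (∑ i ∈ Finset.range n, y i - a) := by
    rw [map_sub, Function.comp_apply]
    abel
  rw [e]
  refine (norm_add_le _ _).trans ?_
  rw [norm_neg, hdiff, zero_add]
  exact norm_of_le _

end PreUltra

/-- The norm ultrapower `A_ω = ℓ^∞(ℕ, A) / {x : lim_ω ‖x n‖ = 0}`. -/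
abbrev Ultra (ω : Ultrafilter ℕ) (A : Type u) [CStarAlgebra A] : Type u :=
  SeparationQuotient (PreUltra ω A)

namespace Ultra

variable {ω : Ultrafilter ℕ} {A : Type u} [CStarAlgebra A]

noncomputable instance instStarRing : StarRing (Ultra ω A) where
  star := SeparationQuotient.lift (fun x => SeparationQuotient.mk (star x)) (by
    intro x y h
    rw [SeparationQuotient.mk_eq_mk]
    exact h.map continuous_star)
  star_involutive := by
    intro x
    obtain ⟨x, rfl⟩ := SeparationQuotient.surjective_mk x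
    change SeparationQuotient.mk (star (star x)) = _
    rw [star_star]
  star_mul := by
    intro x y
    obtain ⟨x, rfl⟩ := SeparationQuotient.surjective_mk x
    obtain ⟨y, rfl⟩ := SeparationQuotient.surjective_mk y
    change SeparationQuotient.mk (star (x * y)) = SeparationQuotient.mk (star y * star x)
    rw [star_mul]
  star_add := by
    intro x y
    obtain ⟨x, rfl⟩ := SeparationQuotient.surjective_mk x
    obtain ⟨y, rfl⟩ := SeparationQuotient.surjective_mk y
    change SeparationQuotient.mk (star (x + y)) = SeparationQuotient.mk (star x + star y)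
    rw [star_add]

theorem mk_star (x : PreUltra ω A) :
    (SeparationQuotient.mk (star x) : Ultra ω A) = star (SeparationQuotient.mk x) := rfl

noncomputable instance instCStarAlgebra : CStarAlgebra (Ultra ω A) where
  norm_mul_self_le := by
    intro x
    obtain ⟨x, rfl⟩ := SeparationQuotient.surjective_mk x
    rw [← mk_star, ← SeparationQuotient.mk_mul, SeparationQuotient.norm_mk,
      SeparationQuotient.norm_mk]
    exact (PreUltra.norm_star_mul_self' x).ge
  star_smul := by
    intro c x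
    obtain ⟨x, rfl⟩ := SeparationQuotient.surjective_mk x
    rw [← SeparationQuotient.mk_smul, ← mk_star, ← mk_star, ← SeparationQuotient.mk_smul,
      star_smul]

variable (ω) in
/-- The class of a bounded sequence. -/
noncomputable def mk : (ℕ →ᵇ A) →⋆ₐ[ℂ] Ultra ω A where
  toFun x := SeparationQuotient.mk (PreUltra.of ω x)
  map_one' := rfl
  map_mul' _ _ := rfl
  map_zero' := rfl
  map_add' _ _ := rfl
  commutes' _ := rfl
  map_star' _ := rfl

theorem mk_surjective : Function.Surjective (mk ω : (ℕ →ᵇ A) → Ultra ω A) := by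
  intro x
  obtain ⟨x, rfl⟩ := SeparationQuotient.surjective_mk x
  exact ⟨PreUltra.seq x, rfl⟩

theorem tendsto_norm_mk (x : ℕ →ᵇ A) : Tendsto (fun n => ‖x n‖) ω (𝓝 ‖mk ω x‖) :=
  PreUltra.tendsto_norm (PreUltra.of ω x)

theorem mk_eq_zero_iff (x : ℕ →ᵇ A) : mk ω x = 0 ↔ Tendsto (fun n => ‖x n‖) ω (𝓝 0) := by
  constructor
  · intro h
    have := tendsto_norm_mk (ω := ω) x
    rwa [h, norm_zero] at this
  · intro h
    rw [← norm_eq_zero]
    exact tendsto_nhds_unique (tendsto_norm_mk x) h

theorem mk_eq_mk_iff (x y : ℕ →ᵇ A) :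
    mk ω x = mk ω y ↔ Tendsto (fun n => ‖x n - y n‖) ω (𝓝 0) := by
  rw [← sub_eq_zero, ← map_sub, mk_eq_zero_iff]
  rfl

theorem norm_mk_le (x : ℕ →ᵇ A) : ‖mk ω x‖ ≤ ‖x‖ := PreUltra.norm_of_le x

theorem norm_mk_le_of_eventually {x : ℕ →ᵇ A} {C : ℝ} (h : ∀ᶠ n in (ω : Filter ℕ), ‖x n‖ ≤ C) :
    ‖mk ω x‖ ≤ C :=
  le_of_tendsto (tendsto_norm_mk x) h

theorem exists_rep (x : Ultra ω A) : ∃ y : ℕ →ᵇ A, mk ω y = x ∧ ∀ n, ‖y n‖ ≤ ‖x‖ := by
  obtain ⟨x, rfl⟩ := SeparationQuotient.surjective_mk x
  obtain ⟨y, hy, hyn⟩ := PreUltra.exists_rep x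
  refine ⟨y, ?_, hyn⟩
  rw [← sub_eq_zero, ← norm_eq_zero]
  exact hy

/-- The constant sequences. -/
noncomputable def const : A →⋆ₐ[ℂ] (ℕ →ᵇ A) where
  toFun a := BoundedContinuousFunction.const ℕ a
  map_one' := rfl
  map_mul' _ _ := rfl
  map_zero' := rfl
  map_add' _ _ := rfl
  commutes' _ := rfl
  map_star' _ := rfl

theorem const_apply (a : A) (n : ℕ) : const a n = a := rfl

variable (ω) in
/-- The diagonal embedding of `A` into its ultrapower. -/
noncomputable def diag : A →⋆ₐ[ℂ] Ultra ω A := (mk ω).comp const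

theorem diag_apply (a : A) : diag ω a = mk ω (const a) := rfl

theorem norm_diag (a : A) : ‖diag ω a‖ = ‖a‖ :=
  tendsto_nhds_unique (tendsto_norm_mk (const a)) tendsto_const_nhds

end Ultra

/-- The central sequence algebra `F_ω(A) = A_ω ∩ A'`. -/
noncomputable def centralSeq (ω : Ultrafilter ℕ) (A : Type u) [CStarAlgebra A] :
    StarSubalgebra ℂ (Ultra ω A) :=
  StarSubalgebra.centralizer ℂ (Set.range (Ultra.diag ω))

section centralSeq

variable {ω : Ultrafilter ℕ} {A : Type u} [CStarAlgebra A]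

theorem mem_centralSeq_iff {x : Ultra ω A} :
    x ∈ centralSeq ω A ↔ ∀ a, Commute (Ultra.diag ω a) x := by
  rw [centralSeq, StarSubalgebra.mem_centralizer_iff]
  constructor
  · intro h a
    exact (h _ ⟨a, rfl⟩).1
  · rintro h _ ⟨a, rfl⟩
    refine ⟨h a, ?_⟩
    rw [← map_star]
    exact h (star a)

theorem mk_mem_centralSeq_iff {x : ℕ →ᵇ A} :
    Ultra.mk ω x ∈ centralSeq ω A ↔
      ∀ a, Tendsto (fun n => ‖a * x n - x n * a‖) ω (𝓝 0) := by
  rw [mem_centralSeq_iff]
  refine forall_congr' fun a => ?_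
  rw [commute_iff_eq, Ultra.diag_apply, ← map_mul, ← map_mul, Ultra.mk_eq_mk_iff]
  rfl

theorem isClosed_centralSeq : IsClosed (centralSeq ω A : Set (Ultra ω A)) := by
  rw [centralSeq, StarSubalgebra.coe_centralizer]
  exact Set.isClosed_centralizer _

instance instIsClosedCentralSeq : IsClosed (centralSeq ω A : Set (Ultra ω A)) :=
  isClosed_centralSeq

noncomputable example : CStarAlgebra (centralSeq ω A) := inferInstance

end centralSeq

end Vale.Agent.P101
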