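import Vale.Agent.P101.Defs
import Vale.Agent.P101.Ultra
import Vale.Agent.P101.EpsTest

/-!
# P101: the central sequence algebra of a separable C*-algebra has commuting copies
-/

open Filter Topology
open scoped BoundedContinuousFunction

namespace Vale.Agent.P101

universe u

/-- ε-test for a countable set of conditions. -/
theorem eps_test_countable {K : Type*} [Countable K] {X : ℕ → Type*} [∀ n, Nonempty (X n)]
    (w : Filter ℕ) (hw : w ≤ cofinite)
    (f : K → (n : ℕ) → X n → ℝ) (hf : ∀ k n x, 0 ≤ f k n x)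
    (h : ∀ (F : Finset K) (ε : ℝ), 0 < ε → ∃ x : ∀ n, X n, ∀ k ∈ F, ∀ᶠ n in w, f k n (x n) < ε) :
    ∃ x : ∀ n, X n, ∀ k, Tendsto (fun n => f k n (x n)) w (𝓝 0) := by
  classical
  rcases isEmpty_or_nonempty K with hK | hK
  · exact ⟨fun n => Classical.arbitrary _, fun k => (hK.false k).elim⟩
  obtain ⟨e, he⟩ := exists_surjective_nat K
  obtain ⟨x, hx⟩ := eps_test w hw (fun k => f (e k)) (fun k n x => hf _ _ _) (by
    intro m ε hε
    obtain ⟨x, hx⟩ := h ((Finset.range (m + 1)).image e) ε hε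
    refine ⟨x, fun k hk => hx _ ?_⟩
    rw [Finset.mem_image]
    exact ⟨k, by simpa [Nat.lt_succ_iff] using hk, rfl⟩)
  refine ⟨x, fun k => ?_⟩
  obtain ⟨i, rfl⟩ := he k
  exact hx i

variable {A : Type u} [CStarAlgebra A]

/-- Reindexing of bounded sequences. -/
noncomputable def reindex (σ : ℕ → ℕ) (z : ℕ →ᵇ A) : ℕ →ᵇ A :=
  z.compContinuous ⟨σ, continuous_of_discreteTopology⟩

@[simp] theorem reindex_apply (σ : ℕ → ℕ) (z : ℕ →ᵇ A) (n : ℕ) : reindex σ z n = z (σ n) := rfl

variable {ω : Ultrafilter ℕ}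

/-- Reindexing: one can reindex countably many bounded sequences so that the norms do not
increase in the ultrapower and the reindexed sequences commute with countably many given central
sequences. -/
theorem exists_reindex (hω : (ω : Filter ℕ) ≤ cofinite) (Z : Set (ℕ →ᵇ A)) (hZ : Z.Countable)
    (Y : Set (ℕ →ᵇ A)) (hY : Y.Countable) (hYc : ∀ y ∈ Y, Ultra.mk ω y ∈ centralSeq ω A) :
    ∃ σ : ℕ → ℕ, (∀ z ∈ Z, ‖Ultra.mk ω (reindex σ z)‖ ≤ ‖Ultra.mk ω z‖) ∧
      ∀ z ∈ Z, ∀ y ∈ Y, Commute (Ultra.mk ω (reindex σ z)) (Ultra.mk ω y) := by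
  classical
  have := hZ.to_subtype
  have := hY.to_subtype
  let f : Z ⊕ (Z × Y) → (n : ℕ) → ℕ → ℝ := fun k n m =>
    match k with
    | Sum.inl z => max 0 (‖(z : ℕ →ᵇ A) m‖ - ‖Ultra.mk ω (z : ℕ →ᵇ A)‖)
    | Sum.inr (z, y) => ‖(z : ℕ →ᵇ A) m * (y : ℕ →ᵇ A) n - (y : ℕ →ᵇ A) n * (z : ℕ →ᵇ A) m‖
  obtain ⟨σ, hσ⟩ := eps_test_countable (X := fun _ => ℕ) (ω : Filter ℕ) hω f (by
    rintro (z | ⟨z, y⟩) n m
    · exact le_max_left _ _
    · exact norm_nonneg _) (by
    intro F ε hε
    -- choose a good index `m`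
    have h1 : ∀ z : Z, ∀ᶠ m in (ω : Filter ℕ),
        max 0 (‖(z : ℕ →ᵇ A) m‖ - ‖Ultra.mk ω (z : ℕ →ᵇ A)‖) < ε := by
      intro z
      have h2 : Tendsto (fun m => max 0 (‖(z : ℕ →ᵇ A) m‖ - ‖Ultra.mk ω (z : ℕ →ᵇ A)‖)) ω
          (𝓝 (max 0 (‖Ultra.mk ω (z : ℕ →ᵇ A)‖ - ‖Ultra.mk ω (z : ℕ →ᵇ A)‖))) :=
        tendsto_const_nhds.max ((Ultra.tendsto_norm_mk _).sub tendsto_const_nhds)
      rw [sub_self, max_self] at h2
      exact h2.eventually (gt_mem_nhds hε)
    have h3 : ∀ᶠ m in (ω : Filter ℕ), ∀ k ∈ F, ∀ z : Z, k = Sum.inl z →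
        max 0 (‖(z : ℕ →ᵇ A) m‖ - ‖Ultra.mk ω (z : ℕ →ᵇ A)‖) < ε := by
      rw [Filter.eventually_all_finset]
      rintro (z | zy) _
      · filter_upwards [h1 z] with m hm z' hz'
        obtain rfl := Sum.inl_injective hz'
        exact hm
      · exact Eventually.of_forall (fun m z' hz' => by cases hz')
    obtain ⟨m, hm⟩ := h3.exists
    refine ⟨fun _ => m, ?_⟩
    rintro (z | ⟨z, y⟩) hk
    · exact Eventually.of_forall (fun n => hm _ hk z rfl)
    · have h4 := (mk_mem_centralSeq_iff.1 (hYc y y.2)) ((z : ℕ →ᵇ A) m)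
      exact h4.eventually (gt_mem_nhds hε))
  refine ⟨σ, ?_, ?_⟩
  · intro z hz
    have h1 := hσ (Sum.inl ⟨z, hz⟩)
    have h2 : Tendsto (fun n => max 0 (‖z (σ n)‖ - ‖Ultra.mk ω z‖) + ‖Ultra.mk ω z‖) ω
        (𝓝 (0 + ‖Ultra.mk ω z‖)) := h1.add tendsto_const_nhds
    rw [zero_add] at h2
    refine le_of_tendsto_of_tendsto (Ultra.tendsto_norm_mk (reindex σ z)) h2
      (Eventually.of_forall fun n => ?_)
    simp only [reindex_apply]
    linarith [le_max_right 0 (‖z (σ n)‖ - ‖Ultra.mk ω z‖)]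
  · intro z hz y hy
    have h1 := hσ (Sum.inr (⟨z, hz⟩, ⟨y, hy⟩))
    rw [commute_iff_eq, ← map_mul, ← map_mul, Ultra.mk_eq_mk_iff]
    exact h1

/-- The central sequence algebra has commuting copies of its separable subalgebras. -/
theorem hasCommutingCopies_centralSeq [TopologicalSpace.SeparableSpace A]
    (hω : (ω : Filter ℕ) ≤ cofinite) : HasCommutingCopies (centralSeq ω A) := by
  classical
  intro S hS hsep
  have : TopologicalSpace.SeparableSpace S := hsep.separableSpace
  obtain ⟨d, hd⟩ := TopologicalSpace.exists_dense_seq S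
  obtain ⟨a, ha⟩ := TopologicalSpace.exists_dense_seq A
  -- lifts
  have hlift : ∀ i, ∃ y : ℕ →ᵇ A, Ultra.mk ω y = ((d i : centralSeq ω A) : Ultra ω A) := fun i => by
    obtain ⟨y, hy, -⟩ := Ultra.exists_rep ((d i : centralSeq ω A) : Ultra ω A)
    exact ⟨y, hy⟩
  choose y hy using hlift
  let Z : Set (ℕ →ᵇ A) :=
    Set.range y ∪ (Set.range (fun p : ℕ × ℕ => y p.1 - y p.2) ∪
    (Set.range (fun p : ℕ × ℕ × ℕ => y p.1 + y p.2.1 - y p.2.2) ∪
    (Set.range (fun p : ℕ × ℕ × ℕ => y p.1 * y p.2.1 - y p.2.2) ∪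
    (Set.range (fun p : ℕ × ℕ => star (y p.1) - y p.2) ∪
    (Set.range (fun p : ℕ × ℕ => Complex.I • y p.1 - y p.2) ∪
    (Set.range (fun k : ℕ => 1 - y k) ∪
    Set.range (fun p : ℕ × ℕ => Ultra.const (a p.1) * y p.2 - y p.2 * Ultra.const (a p.1))))))))
  have hZ : Z.Countable :=
    (Set.countable_range _).union ((Set.countable_range _).union ((Set.countable_range _).union
    ((Set.countable_range _).union ((Set.countable_range _).union ((Set.countable_range _).union
    ((Set.countable_range _).union (Set.countable_range _)))))))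
  obtain ⟨σ, hσ1, hσ2⟩ := exists_reindex hω Z hZ (Set.range y) (Set.countable_range y) (by
    rintro _ ⟨i, rfl⟩
    rw [hy]
    exact (d i : centralSeq ω A).2)
  -- the images
  have hcentral : ∀ i, Ultra.mk ω (reindex σ (y i)) ∈ centralSeq ω A := by
    intro i
    rw [mem_centralSeq_iff]
    have hcl : IsClosed {b : A | Commute (Ultra.diag ω b) (Ultra.mk ω (reindex σ (y i)))} := by
      have hc : Continuous (Ultra.diag ω : A → Ultra ω A) :=
        AddMonoidHomClass.continuous_of_bound (Ultra.diag ω) 1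
          (fun b => by rw [one_mul, Ultra.norm_diag])
      exact isClosed_eq (hc.mul continuous_const) (continuous_const.mul hc)
    intro b
    have h1 : closure (Set.range a) ⊆
        {b : A | Commute (Ultra.diag ω b) (Ultra.mk ω (reindex σ (y i)))} := by
      apply closure_minimal _ hcl
      rintro _ ⟨j, rfl⟩
      have h2 := hσ1 (Ultra.const (a j) * y i - y i * Ultra.const (a j)) (by
        simp only [Z, Set.mem_union, Set.mem_range]
        exact Or.inr (Or.inr (Or.inr (Or.inr (Or.inr (Or.inr (Or.inr ⟨(j, i), rfl⟩)))))))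
      have h3 : Ultra.mk ω (Ultra.const (a j) * y i - y i * Ultra.const (a j)) = 0 := by
        rw [map_sub, map_mul, map_mul, hy, sub_eq_zero]
        exact (mem_centralSeq_iff.1 (d i : centralSeq ω A).2 (a j))
      rw [h3, norm_zero] at h2
      have h4 := norm_le_zero_iff.1 h2
      have h5 : reindex σ (Ultra.const (a j) * y i - y i * Ultra.const (a j)) =
          Ultra.const (a j) * reindex σ (y i) - reindex σ (y i) * Ultra.const (a j) := by
        ext n
        rfl
      rw [h5, map_sub, map_mul, map_mul, sub_eq_zero] at h4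
      exact h4
    exact h1 (ha b)
  let ψ : ℕ → centralSeq ω A := fun i => ⟨Ultra.mk ω (reindex σ (y i)), hcentral i⟩
  have hn : ∀ x : centralSeq ω A, ‖x‖ = ‖(x : Ultra ω A)‖ := fun x => rfl
  have hnS : ∀ x : S, ‖x‖ = ‖((x : centralSeq ω A) : Ultra ω A)‖ := fun x => rfl
  have hcs : ContinuousStar S :=
    ⟨Continuous.subtype_mk (continuous_star.comp continuous_subtype_val) _⟩
  obtain ⟨Φ, hΦ, hΦn⟩ := exists_hom_of_dense d hd ψ
    (by
      intro i j
      have h1 := hσ1 (y i - y j) (by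
        simp only [Z, Set.mem_union, Set.mem_range]
        exact Or.inr (Or.inl ⟨(i, j), rfl⟩))
      rw [map_sub, hy, hy] at h1
      exact h1)
    (by
      intro i j k
      have h1 := hσ1 (y i + y j - y k) (by
        simp only [Z, Set.mem_union, Set.mem_range]
        exact Or.inr (Or.inr (Or.inl ⟨(i, j, k), rfl⟩)))
      rw [map_sub, map_add, hy, hy, hy] at h1
      exact h1)
    (by
      intro i j k
      have h1 := hσ1 (y i * y j - y k) (by
        simp only [Z, Set.mem_union, Set.mem_range]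
        exact Or.inr (Or.inr (Or.inr (Or.inl ⟨(i, j, k), rfl⟩))))
      rw [map_sub, map_mul, hy, hy, hy] at h1
      exact h1)
    (by
      intro i k
      have h1 := hσ1 (star (y i) - y k) (by
        simp only [Z, Set.mem_union, Set.mem_range]
        exact Or.inr (Or.inr (Or.inr (Or.inr (Or.inl ⟨(i, k), rfl⟩)))))
      rw [map_sub, map_star, hy, hy] at h1
      exact h1)
    (by
      intro i k
      have h1 := hσ1 (Complex.I • y i - y k) (by
        simp only [Z, Set.mem_union, Set.mem_range]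
        exact Or.inr (Or.inr (Or.inr (Or.inr (Or.inr (Or.inl ⟨(i, k), rfl⟩))))))
      rw [map_sub, map_smul, hy, hy] at h1
      exact h1)
    (by
      intro k
      have h1 := hσ1 (1 - y k) (by
        simp only [Z, Set.mem_union, Set.mem_range]
        exact Or.inr (Or.inr (Or.inr (Or.inr (Or.inr (Or.inr (Or.inl ⟨k, rfl⟩)))))))
      rw [map_sub, map_one, hy] at h1
      exact h1)
  refine ⟨Φ, ?_⟩
  have hΦc : Continuous Φ := AddMonoidHomClass.continuous_of_bound Φ 1
    (fun b => by rw [one_mul]; exact hΦn b)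
  intro x z
  refine hd.induction_on₂ (p := fun x z : S => Commute (Φ x) (z : centralSeq ω A)) ?_ ?_ x z
  · exact isClosed_eq (by fun_prop) (by fun_prop)
  · intro i j
    rw [hΦ, commute_iff_eq, Subtype.ext_iff]
    have h1 := hσ2 (y i) (by
      simp only [Z, Set.mem_union, Set.mem_range]
      exact Or.inl ⟨i, rfl⟩) (y j) ⟨j, rfl⟩
    rw [hy j] at h1
    exact h1

end Vale.Agent.P101
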