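import Mathlib

/-!
# P101: full elements and maximal two-sided ideals
-/

namespace Vale.Agent.P101

open scoped Pointwise

section Ring

variable {E : Type*} [Ring E]

/-- A family of elements generates the whole ring as a two-sided ideal. -/
def FullFam {κ : Type*} (x : κ → E) : Prop :=
  ∃ (n : ℕ) (j : Fin n → κ) (a b : Fin n → E), ∑ i, a i * x (j i) * b i = 1

/-- An element generates the whole ring as a two-sided ideal. -/
def IsFull (x : E) : Prop :=
  ∃ (n : ℕ) (a b : Fin n → E), ∑ i, a i * x * b i = 1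

theorem isFull_iff_fullFam (x : E) : IsFull x ↔ FullFam (fun _ : Unit => x) := by
  constructor
  · rintro ⟨n, a, b, h⟩
    exact ⟨n, fun _ => (), a, b, h⟩
  · rintro ⟨n, j, a, b, h⟩
    exact ⟨n, a, b, h⟩

theorem exists_isCoatom_ge {I : TwoSidedIdeal E} (hI : I ≠ ⊤) :
    ∃ M : TwoSidedIdeal E, IsCoatom M ∧ I ≤ M := by
  have hI1 : (1 : E) ∉ I := fun h => hI (I.one_mem_iff.1 h)
  obtain ⟨M, hIM, hM⟩ := zorn_le_nonempty₀ {J : TwoSidedIdeal E | (1 : E) ∉ J} (by
    intro c hc hchain y hy
    refine ⟨TwoSidedIdeal.mk' (⋃ J ∈ c, (J : Set E)) ?_ ?_ ?_ ?_ ?_, ?_, ?_⟩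
    · simp only [Set.mem_iUnion]
      exact ⟨y, hy, y.zero_mem⟩
    · intro a b ha hb
      simp only [Set.mem_iUnion] at ha hb ⊢
      obtain ⟨J, hJ, haJ⟩ := ha
      obtain ⟨K, hK, hbK⟩ := hb
      rcases hchain.total hJ hK with h | h
      · exact ⟨K, hK, K.add_mem (h haJ) hbK⟩
      · exact ⟨J, hJ, J.add_mem haJ (h hbK)⟩
    · intro a ha
      simp only [Set.mem_iUnion] at ha ⊢
      obtain ⟨J, hJ, haJ⟩ := ha
      exact ⟨J, hJ, J.neg_mem haJ⟩
    · intro a b hb
      simp only [Set.mem_iUnion] at hb ⊢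
      obtain ⟨J, hJ, hbJ⟩ := hb
      exact ⟨J, hJ, J.mul_mem_left _ _ hbJ⟩
    · intro a b ha
      simp only [Set.mem_iUnion] at ha ⊢
      obtain ⟨J, hJ, haJ⟩ := ha
      exact ⟨J, hJ, J.mul_mem_right _ _ haJ⟩
    · simp only [Set.mem_ofPred_eq, TwoSidedIdeal.mem_mk', Set.mem_iUnion, not_exists]
      intro J hJ h1
      exact hc hJ h1
    · intro z hz a ha
      rw [TwoSidedIdeal.mem_mk']
      simp only [Set.mem_iUnion]
      exact ⟨z, hz, ha⟩) I hI1
  refine ⟨M, ⟨?_, ?_⟩, hIM⟩
  · intro h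
    exact hM.1 (M.one_mem_iff.2 h)
  · intro J hJ
    by_contra hcon
    have h1 : (1 : E) ∉ J := fun h => hcon (J.one_mem_iff.1 h)
    exact absurd (hM.2 h1 hJ.le) hJ.not_ge

theorem one_notMem_of_isCoatom {M : TwoSidedIdeal E} (hM : IsCoatom M) : (1 : E) ∉ M :=
  fun h => hM.1 (M.one_mem_iff.1 h)

theorem fullFam_iff {κ : Type*} (x : κ → E) :
    FullFam x ↔ ∀ M : TwoSidedIdeal E, IsCoatom M → ∃ j, x j ∉ M := by
  constructor
  · rintro ⟨n, j, a, b, h⟩ M hM
    by_contra hcon
    push Not at hcon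
    apply one_notMem_of_isCoatom hM
    rw [← h]
    refine sum_mem fun i _ => ?_
    exact M.mul_mem_right _ _ (M.mul_mem_left _ _ (hcon _))
  · intro h
    have htop : TwoSidedIdeal.span (Set.range x) = ⊤ := by
      by_contra hcon
      obtain ⟨M, hM, hle⟩ := exists_isCoatom_ge hcon
      obtain ⟨j, hj⟩ := h M hM
      exact hj (hle (TwoSidedIdeal.subset_span ⟨j, rfl⟩))
    have h1 : (1 : E) ∈ TwoSidedIdeal.span (Set.range x) := by
      rw [htop]
      exact TwoSidedIdeal.mem_top _
    rw [TwoSidedIdeal.mem_span_iff_mem_addSubgroup_closure] at h1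
    have key : ∀ z : E, z ∈ AddSubgroup.closure ((Set.univ : Set E) * Set.range x * Set.univ) →
        ∃ (n : ℕ) (j : Fin n → κ) (a b : Fin n → E), ∑ i, a i * x (j i) * b i = z := by
      intro z hz
      induction hz using AddSubgroup.closure_induction with
      | mem z hz =>
        obtain ⟨_, ⟨a, -, _, ⟨j, rfl⟩, rfl⟩, b, -, rfl⟩ := hz
        exact ⟨1, fun _ => j, fun _ => a, fun _ => b, by simp⟩
      | zero => exact ⟨0, Fin.elim0, Fin.elim0, Fin.elim0, by simp⟩
      | add z w _ _ hz hw =>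
        obtain ⟨n, j, a, b, rfl⟩ := hz
        obtain ⟨n', j', a', b', rfl⟩ := hw
        refine ⟨n + n', Fin.append j j', Fin.append a a', Fin.append b b', ?_⟩
        simp [Fin.sum_univ_add]
      | neg z _ hz =>
        obtain ⟨n, j, a, b, rfl⟩ := hz
        exact ⟨n, j, fun i => -a i, b, by simp⟩
    exact key 1 h1

theorem isFull_iff (x : E) : IsFull x ↔ ∀ M : TwoSidedIdeal E, IsCoatom M → x ∉ M := by
  rw [isFull_iff_fullFam, fullFam_iff]
  simp

/-- Maximal two-sided ideals are prime. -/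
theorem mem_or_mem_of_isCoatom {M : TwoSidedIdeal E} (hM : IsCoatom M) {x y : E}
    (h : ∀ b, x * b * y ∈ M) : x ∈ M ∨ y ∈ M := by
  by_contra hcon
  push Not at hcon
  obtain ⟨hx, hy⟩ := hcon
  have hlt : M < M ⊔ TwoSidedIdeal.span {x} := by
    refine lt_of_le_of_ne le_sup_left ?_
    intro he
    apply hx
    rw [he]
    exact TwoSidedIdeal.mem_sup_right (TwoSidedIdeal.subset_span rfl)
  have htop := hM.2 _ hlt
  have h1 : (1 : E) ∈ M ⊔ TwoSidedIdeal.span {x} := by
    rw [htop]
    exact TwoSidedIdeal.mem_top _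
  rw [TwoSidedIdeal.mem_sup] at h1
  obtain ⟨m, hm, z, hz, hmz⟩ := h1
  apply hy
  have key : ∀ z ∈ AddSubgroup.closure ((Set.univ : Set E) * {x} * Set.univ), z * y ∈ M := by
    intro z hz
    induction hz using AddSubgroup.closure_induction with
    | mem z hz =>
      obtain ⟨_, ⟨a, -, _, hs, rfl⟩, b, -, rfl⟩ := hz
      rw [Set.mem_singleton_iff] at hs
      subst hs
      have := M.mul_mem_left a _ (h b)
      simpa [mul_assoc] using this
    | zero => simp [M.zero_mem]
    | add z w _ _ hz hw =>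
      rw [add_mul]
      exact M.add_mem hz hw
    | neg z _ hz =>
      rw [neg_mul]
      exact M.neg_mem hz
  have hzy : z * y ∈ M := by
    rw [TwoSidedIdeal.mem_span_iff_mem_addSubgroup_closure] at hz
    exact key z hz
  have : (1 : E) * y = m * y + z * y := by rw [← hmz, add_mul]
  rw [one_mul] at this
  rw [this]
  exact M.add_mem (M.mul_mem_right _ _ hm) hzy

theorem isUnit_notMem {M : TwoSidedIdeal E} (hM : IsCoatom M) {u : E} (hu : IsUnit u) :
    u ∉ M := by
  obtain ⟨u, rfl⟩ := hu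
  intro h
  apply one_notMem_of_isCoatom hM
  have := M.mul_mem_left ((u⁻¹ : Eˣ) : E) _ h
  simpa using this

end Ring

section Normed

variable {E : Type*} [NormedRing E] [CompleteSpace E]

theorem one_sub_notMem {M : TwoSidedIdeal E} (hM : IsCoatom M) {y : E} (hy : ‖y‖ < 1) :
    1 - y ∉ M :=
  isUnit_notMem hM (isUnit_one_sub_of_norm_lt_one hy)

theorem isClosed_of_isCoatom {M : TwoSidedIdeal E} (hM : IsCoatom M) :
    IsClosed (M : Set E) := by
  let C : TwoSidedIdeal E := TwoSidedIdeal.mk' (closure (M : Set E))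
    (subset_closure M.zero_mem)
    (fun {x y} hx hy => map_mem_closure₂ continuous_add hx hy
      (fun a ha b hb => M.add_mem ha hb))
    (fun {x} hx => map_mem_closure continuous_neg hx (fun a ha => M.neg_mem ha))
    (fun {x y} hy => map_mem_closure (f := fun z => x * z) (by fun_prop) hy
      (fun a ha => M.mul_mem_left x a ha))
    (fun {x y} hx => map_mem_closure (f := fun z => z * y) (by fun_prop) hx
      (fun a ha => M.mul_mem_right a y ha))
  have hC : (C : Set E) = closure (M : Set E) := TwoSidedIdeal.coe_mk' ..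
  have h1 : (1 : E) ∉ C := by
    intro h
    have h' : (1 : E) ∈ closure (M : Set E) := by
      rw [← hC]
      exact h
    obtain ⟨m, hm, hd⟩ := Metric.mem_closure_iff.1 h' 1 one_pos
    rw [dist_eq_norm] at hd
    have := one_sub_notMem hM hd
    apply this
    simpa using hm
  have hMC : M ≤ C := by
    intro x hx
    have : x ∈ (C : Set E) := by
      rw [hC]
      exact subset_closure hx
    exact this
  have : M = C := by
    by_contra hne
    exact h1 (C.one_mem_iff.2 (hM.2 C (lt_of_le_of_ne hMC hne)))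
  rw [this, hC]
  exact isClosed_closure

end Normed

end Vale.Agent.P101
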