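import Mathlib

/-!
# P101: dimension drop algebras, the Jiang-Su algebra, tensor products

Definitions used in the statement of the main theorem.
-/

open scoped Kronecker TensorProduct ComplexOrder

namespace Vale.Agent.P101

universe u v w

/-- The dimension drop algebra: continuous functions `f` from `[0,1]` to `M_p ⊗ M_q` with
`f 0 ∈ M_p ⊗ 1` and `f 1 ∈ 1 ⊗ M_q`. -/
def DimDrop (p q : ℕ) :
    StarSubalgebra ℂ C(unitInterval, Matrix (Fin p × Fin q) (Fin p × Fin q) ℂ) where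
  carrier := {f | (∃ x : Matrix (Fin p) (Fin p) ℂ, f 0 = x ⊗ₖ (1 : Matrix (Fin q) (Fin q) ℂ)) ∧
    ∃ y : Matrix (Fin q) (Fin q) ℂ, f 1 = (1 : Matrix (Fin p) (Fin p) ℂ) ⊗ₖ y}
  mul_mem' := by
    rintro f g ⟨⟨x, hx⟩, ⟨y, hy⟩⟩ ⟨⟨x', hx'⟩, ⟨y', hy'⟩⟩
    refine ⟨⟨x * x', ?_⟩, ⟨y * y', ?_⟩⟩
    · rw [ContinuousMap.mul_apply, hx, hx', ← Matrix.mul_kronecker_mul, one_mul]
    · rw [ContinuousMap.mul_apply, hy, hy', ← Matrix.mul_kronecker_mul, one_mul]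
  add_mem' := by
    rintro f g ⟨⟨x, hx⟩, ⟨y, hy⟩⟩ ⟨⟨x', hx'⟩, ⟨y', hy'⟩⟩
    refine ⟨⟨x + x', ?_⟩, ⟨y + y', ?_⟩⟩
    · rw [ContinuousMap.add_apply, hx, hx', Matrix.add_kronecker]
    · rw [ContinuousMap.add_apply, hy, hy', Matrix.kronecker_add]
  algebraMap_mem' := by
    intro c
    refine ⟨⟨algebraMap ℂ _ c, ?_⟩, ⟨algebraMap ℂ _ c, ?_⟩⟩
    · rw [Algebra.algebraMap_eq_smul_one, Algebra.algebraMap_eq_smul_one, ContinuousMap.smul_apply,
        ContinuousMap.one_apply, Matrix.smul_kronecker, Matrix.one_kronecker_one]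
    · rw [Algebra.algebraMap_eq_smul_one, Algebra.algebraMap_eq_smul_one, ContinuousMap.smul_apply,
        ContinuousMap.one_apply, Matrix.kronecker_smul, Matrix.one_kronecker_one]
  star_mem' := by
    rintro f ⟨⟨x, hx⟩, ⟨y, hy⟩⟩
    refine ⟨⟨star x, ?_⟩, ⟨star y, ?_⟩⟩
    · rw [ContinuousMap.star_apply, hx, Matrix.star_eq_conjTranspose,
        Matrix.conjTranspose_kronecker, Matrix.conjTranspose_one, Matrix.star_eq_conjTranspose]
    · rw [ContinuousMap.star_apply, hy, Matrix.star_eq_conjTranspose,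
        Matrix.conjTranspose_kronecker, Matrix.conjTranspose_one, Matrix.star_eq_conjTranspose]

theorem mem_dimDrop_iff {p q : ℕ}
    {f : C(unitInterval, Matrix (Fin p × Fin q) (Fin p × Fin q) ℂ)} :
    f ∈ DimDrop p q ↔
      (∃ x : Matrix (Fin p) (Fin p) ℂ, f 0 = x ⊗ₖ (1 : Matrix (Fin q) (Fin q) ℂ)) ∧
      ∃ y : Matrix (Fin q) (Fin q) ℂ, f 1 = (1 : Matrix (Fin p) (Fin p) ℂ) ⊗ₖ y :=
  Iff.rfl

/-- `Z` is an inductive limit of prime dimension drop algebras: the closure of an increasing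
sequence of unital star subalgebras each isomorphic to a prime dimension drop algebra. -/
def IsDimDropLimit (Z : Type u) [CStarAlgebra Z] : Prop :=
  ∃ S : ℕ → StarSubalgebra ℂ Z, Monotone S ∧
    (∀ k, ∃ p q : ℕ, 0 < p ∧ 0 < q ∧ Nat.Coprime p q ∧ Nonempty (S k ≃⋆ₐ[ℂ] DimDrop p q)) ∧
    Dense (⋃ k, (S k : Set Z))

/-- A tracial state. -/
structure IsTracialState (Z : Type u) [CStarAlgebra Z] (τ : Z →ₗ[ℂ] ℂ) : Prop where
  map_one : τ 1 = 1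
  nonneg : ∀ x, 0 ≤ τ (star x * x)
  trace : ∀ x y, τ (x * y) = τ (y * x)

/-- The half flip of `Z` is approximately inner. -/
def HasInnerHalfFlip (Z : Type u) [CStarAlgebra Z] : Prop :=
  ∀ (C : Type v) [CStarAlgebra C] (π₁ π₂ : Z →⋆ₐ[ℂ] C),
    (∀ x y, Commute (π₁ x) (π₂ y)) → ∀ (F : Finset Z) (ε : ℝ), 0 < ε →
      ∃ U ∈ (Algebra.adjoin ℂ (Set.range π₁ ∪ Set.range π₂)).topologicalClosure,
        U ∈ unitary C ∧ ∀ z ∈ F, ‖U * π₁ z * star U - π₂ z‖ < ε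

/-- The Jiang-Su algebra. -/
structure IsJiangSu (Z : Type u) [CStarAlgebra Z] : Prop where
  infinite : ¬ FiniteDimensional ℂ Z
  simple : IsSimpleRing Z
  trace : ∃! τ : Z →ₗ[ℂ] ℂ, IsTracialState Z τ
  limit : IsDimDropLimit Z
  halfFlip : HasInnerHalfFlip.{u, v} Z

/-- `T`, with the maps `ιA` and `ιZ`, is a `C⋆`-algebra completion of the algebraic tensor
product of `A` and `Z`. -/
structure IsCStarTensor (A : Type u) (Z : Type v) (T : Type w) [CStarAlgebra A] [CStarAlgebra Z]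
    [CStarAlgebra T] (ιA : A →⋆ₐ[ℂ] T) (ιZ : Z →⋆ₐ[ℂ] T) : Prop where
  commute : ∀ a z, Commute (ιA a) (ιZ z)
  injective : Function.Injective (Algebra.TensorProduct.lift (ιA : A →ₐ[ℂ] T) (ιZ : Z →ₐ[ℂ] T)
    commute : A ⊗[ℂ] Z →ₐ[ℂ] T)
  dense : DenseRange (Algebra.TensorProduct.lift (ιA : A →ₐ[ℂ] T) (ιZ : Z →ₐ[ℂ] T)
    commute : A ⊗[ℂ] Z →ₐ[ℂ] T)

end Vale.Agent.P101
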