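import Mathlib
import Vale.Agent.P101.Ideals
import Vale.Agent.P101.JiangSu

/-!
# P101: basic definitions shared by all the files
-/

open scoped Kronecker TensorProduct ComplexOrder

namespace Vale.Agent.P101

universe u v w

section Abstract

variable {B : Type*} [CStarAlgebra B]

/-- Every separable closed star subalgebra `S` of `B` has a unital `*`-homomorphic copy in `B`
which commutes with `S`. -/
def HasCommutingCopies (B : Type*) [CStarAlgebra B] : Prop :=
  ∀ S : StarSubalgebra ℂ B, IsClosed (S : Set B) → TopologicalSpace.IsSeparable (S : Set B) →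
    ∃ Φ : S →⋆ₐ[ℂ] B, ∀ x y : S, Commute (Φ x) (y : B)

/-- `φ i j` (`i j : Fin n`) are the images of the matrix units under a completely positive
contractive order zero map of weight `t = ∑ i, φ i i`. -/
structure IsOZ [PartialOrder B] {n : ℕ} (φ : Fin n → Fin n → B) : Prop where
  star_apply : ∀ i j, star (φ i j) = φ j i
  mul_apply : ∀ i j k l, φ i j * φ k l = if j = k then (∑ a, φ a a) * φ i l else 0
  nonneg : 0 ≤ ∑ a, φ a a
  le_one : ∑ a, φ a a ≤ 1

/-- The data produced by Step 4: `n` elements `z i` with orthogonal ranges and a common source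
`w`, an element `v` (the square root of `u = v * v`) under `w`, and coefficients `y j` showing
that `u` is full. -/
structure IsTuple [PartialOrder B] {n m : ℕ} (w v : B) (z : Fin n → B) (y : Fin m → B) :
    Prop where
  w_nonneg : 0 ≤ w
  w_le_one : w ≤ 1
  v_nonneg : 0 ≤ v
  v_le_one : v ≤ 1
  w_mul_v : w * v = v
  star_mul : ∀ i j, star (z i) * z j = if i = j then w else 0
  sum_eq : ∑ j, star (y j) * (v * v) * y j = 1

end Abstract

end Vale.Agent.P101
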