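import Mathlib
import Vale.Agent.P101.Defs

/-!
# P101: separability of generated star subalgebras, and pairwise commuting copies
-/

open TopologicalSpace

namespace Vale.Agent.P101

section Separable

variable {B : Type*} [CStarAlgebra B]

theorem countable_closure {M : Type*} [Monoid M] {c : Set M} (hc : c.Countable) :
    (Submonoid.closure c : Set M).Countable := by
  have : Countable c := hc.to_subtype
  rw [Submonoid.closure_eq_mrange]
  exact Set.countable_range _

theorem isSeparable_adjoin_of_countable {c : Set B} (hc : c.Countable) :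
    IsSeparable (StarAlgebra.adjoin ℂ c : Set B) := by
  have h : (c ∪ star c).Countable := by
    refine hc.union ?_
    rw [← Set.image_star]
    exact hc.image _
  have h1 : IsSeparable ((Submodule.span ℂ (Submonoid.closure (c ∪ star c) : Set B) :
      Submodule ℂ B) : Set B) :=
    (countable_closure h).isSeparable.span
  rw [← StarAlgebra.adjoin_eq_span] at h1
  exact h1

/-- The closed star subalgebra generated by a separable set is separable. -/
theorem isSeparable_topologicalClosure_adjoin {s : Set B} (hs : IsSeparable s) :
    IsSeparable ((StarAlgebra.adjoin ℂ s).topologicalClosure : Set B) := by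
  obtain ⟨c, hc, hsc⟩ := hs
  have h1 : (StarAlgebra.adjoin ℂ s) ≤ (StarAlgebra.adjoin ℂ c).topologicalClosure := by
    apply StarAlgebra.adjoin_le
    refine hsc.trans ?_
    rw [StarSubalgebra.topologicalClosure_coe]
    exact closure_mono (StarAlgebra.subset_adjoin ℂ c)
  have h2 := StarSubalgebra.topologicalClosure_minimal h1
    (StarSubalgebra.isClosed_topologicalClosure _)
  refine IsSeparable.mono ?_ h2
  rw [StarSubalgebra.topologicalClosure_coe, isSeparable_closure]
  exact isSeparable_adjoin_of_countable hc

theorem isSeparable_topologicalClosure_adjoin_finite {s : Set B} (hs : s.Finite) :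
    IsSeparable ((StarAlgebra.adjoin ℂ s).topologicalClosure : Set B) :=
  isSeparable_topologicalClosure_adjoin hs.countable.isSeparable

end Separable

section Copies

variable {B : Type*} [CStarAlgebra B]

/-- A `*`-homomorphism from a closed star subalgebra is continuous. -/
theorem continuous_of_isClosed {C : Type*} [CStarAlgebra C] {S : StarSubalgebra ℂ B}
    (hS : IsClosed (S : Set B)) (Φ : S →⋆ₐ[ℂ] C) : Continuous Φ := by
  have : IsClosed (S : Set B) := hS
  exact AddMonoidHomClass.continuous_of_bound Φ 1 fun x => by
    rw [one_mul]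
    exact NonUnitalStarAlgHom.norm_apply_le Φ x

theorem norm_apply_le_of_isClosed {C : Type*} [CStarAlgebra C] {S : StarSubalgebra ℂ B}
    (hS : IsClosed (S : Set B)) (Φ : S →⋆ₐ[ℂ] C) (x : S) : ‖Φ x‖ ≤ ‖(x : B)‖ := by
  have : IsClosed (S : Set B) := hS
  exact NonUnitalStarAlgHom.norm_apply_le Φ x

theorem exists_commuting_copies (hcc : HasCommutingCopies B) (S : StarSubalgebra ℂ B)
    (hS : IsClosed (S : Set B)) (hsep : IsSeparable (S : Set B)) (N : ℕ) :
    ∃ Φ : Fin N → (S →⋆ₐ[ℂ] B),
      (∀ s t, s ≠ t → ∀ x y, Commute (Φ s x) (Φ t y)) ∧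
      ∀ s x (y : S), Commute (Φ s x) (y : B) := by
  induction N with
  | zero => exact ⟨Fin.elim0, fun s => s.elim0, fun s => s.elim0⟩
  | succ N ih =>
    obtain ⟨Φ, h1, h2⟩ := ih
    have hsepS : SeparableSpace S := hsep.separableSpace
    let G : Set B := (S : Set B) ∪ ⋃ k, Set.range (Φ k)
    have hG : IsSeparable G := by
      refine hsep.union (IsSeparable.iUnion fun k => ?_)
      rw [← Set.image_univ]
      exact (IsSeparable.of_separableSpace Set.univ).image (continuous_of_isClosed hS (Φ k))
    let S' := (StarAlgebra.adjoin ℂ G).topologicalClosure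
    have hGS' : G ⊆ S' := (StarAlgebra.subset_adjoin ℂ G).trans
      (StarSubalgebra.le_topologicalClosure _)
    obtain ⟨Ψ, hΨ⟩ := hcc S' (StarSubalgebra.isClosed_topologicalClosure _)
      (isSeparable_topologicalClosure_adjoin hG)
    have hSS' : S ≤ S' := fun x hx => hGS' (Or.inl hx)
    let Θ : S →⋆ₐ[ℂ] B := Ψ.comp (StarSubalgebra.inclusion hSS')
    have hΘ : ∀ x : S, ∀ y ∈ G, Commute (Θ x) y := fun x y hy =>
      hΨ (StarSubalgebra.inclusion hSS' x) ⟨y, hGS' hy⟩
    refine ⟨Fin.snoc Φ Θ, ?_, ?_⟩
    · intro s t hst x y
      induction s using Fin.lastCases with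
      | last =>
        induction t using Fin.lastCases with
        | last => exact absurd rfl hst
        | cast t =>
          simp only [Fin.snoc_last, Fin.snoc_castSucc]
          exact hΘ x _ (Or.inr (Set.mem_iUnion.2 ⟨t, y, rfl⟩))
      | cast s =>
        induction t using Fin.lastCases with
        | last =>
          simp only [Fin.snoc_last, Fin.snoc_castSucc]
          exact (hΘ y _ (Or.inr (Set.mem_iUnion.2 ⟨s, x, rfl⟩))).symm
        | cast t =>
          simp only [Fin.snoc_castSucc]
          exact h1 s t (fun h => hst (by rw [h])) x y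
    · intro s x y
      induction s using Fin.lastCases with
      | last =>
        simp only [Fin.snoc_last]
        exact hΘ x _ (Or.inl y.2)
      | cast s =>
        simp only [Fin.snoc_castSucc]
        exact h2 s x y

end Copies

end Vale.Agent.P101
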