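import Vale.Agent.P101.NonScalar

/-!
# P101: if there are no characters then finitely many commutators generate the whole algebra
-/

namespace Vale.Agent.P101

open Finset

variable {G : Type*} [CStarAlgebra G]

/-- A maximal ideal containing all commutators contains one of two factors of any product in it. -/
theorem mem_or_mem_of_comm {M : TwoSidedIdeal G} (hM : IsCoatom M)
    (hc : ∀ x y : G, x * y - y * x ∈ M) {x y : G} (h : x * y ∈ M) : x ∈ M ∨ y ∈ M := by
  apply mem_or_mem_of_isCoatom hM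
  intro b
  have h1 : x * b * y = x * (b * y - y * b) + (x * y) * b := by noncomm_ring
  rw [h1]
  exact M.add_mem (M.mul_mem_left _ _ (hc b y)) (M.mul_mem_right _ _ h)

theorem tent_mul_eq_zero {m i j : ℕ} (h : i + 2 ≤ j) (x : ℝ) : tent m i x * tent m j x = 0 := by
  by_cases h1 : 1 ≤ |m * x - i|
  · rw [tent_eq_zero m i x h1, zero_mul]
  · by_cases h2 : 1 ≤ |m * x - j|
    · rw [tent_eq_zero m j x h2, mul_zero]
    · exfalso
      push Not at h1 h2
      rw [abs_lt] at h1 h2
      have : (i : ℝ) + 2 ≤ j := by exact_mod_cast h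
      linarith [h1.2, h2.1]

theorem exists_real_sub_mem_of_Icc {M : TwoSidedIdeal G} (hM : IsCoatom M)
    (hc : ∀ x y : G, x * y - y * x ∈ M) {a : G} (ha : IsSelfAdjoint a)
    (hsp : spectrum ℝ a ⊆ Set.Icc (0 : ℝ) 1) : ∃ r : ℝ, a - (r : ℂ) • (1 : G) ∈ M := by
  have hcont : Continuous (fun r : ℝ => qn M (a - (r : ℂ) • (1 : G))) := by
    have h1 : Continuous (fun z : G => Metric.infDist z (M : Set G)) :=
      Metric.continuous_infDist_pt _
    have h2 : Continuous (fun r : ℝ => a - (r : ℂ) • (1 : G)) := by fun_prop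
    exact h1.comp h2
  obtain ⟨r₀, hr₀, hmin⟩ := isCompact_Icc.exists_isMinOn (s := Set.Icc (0 : ℝ) 1)
    ⟨0, by simp⟩ hcont.continuousOn
  refine ⟨r₀, ?_⟩
  by_cases h0 : qn M (a - (r₀ : ℂ) • (1 : G)) = 0
  · exact mem_of_qn_eq_zero (isClosed_of_isCoatom hM) h0
  exfalso
  have hpos : 0 < qn M (a - (r₀ : ℂ) • (1 : G)) := lt_of_le_of_ne (qn_nonneg M _) (Ne.symm h0)
  obtain ⟨m, hm⟩ := exists_nat_gt (2 / qn M (a - (r₀ : ℂ) • (1 : G)))
  have hmr : (0 : ℝ) < m := lt_of_le_of_lt (by positivity) hm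
  have hm0 : 0 < m := by exact_mod_cast hmr
  have hmδ : 2 ≤ m * qn M (a - (r₀ : ℂ) • (1 : G)) := by
    rw [div_lt_iff₀ hpos] at hm
    exact hm.le
  obtain ⟨i₀, i₁, h01, -, hgap, h₀, h₁⟩ := exists_two_tents ha hsp hm0 hmδ hM
    (fun r hr => hmin hr)
  have h2 : (i₀ : ℝ) + 2 ≤ i₁ := by linarith
  have h2' : i₀ + 2 ≤ i₁ := by exact_mod_cast h2
  have hprod : cfc (tent m i₀) a * cfc (tent m i₁) a = 0 := by
    rw [← cfc_mul (tent m i₀) (tent m i₁) a (continuous_tent m _).continuousOn
      (continuous_tent m _).continuousOn, ← cfc_const_zero ℝ a]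
    exact cfc_congr fun x _ => tent_mul_eq_zero h2' x
  have hmem : cfc (tent m i₀) a * cfc (tent m i₁) a ∈ M := by
    rw [hprod]
    exact M.zero_mem
  rcases mem_or_mem_of_comm hM hc hmem with h | h
  · exact h₀ h
  · exact h₁ h

theorem spectrum_subset_Icc (h : G) : spectrum ℝ h ⊆ Set.Icc (-(‖h‖ * ‖(1 : G)‖)) (‖h‖ * ‖(1 : G)‖) := by
  intro x hx
  have := spectrum.norm_le_norm_mul_of_mem hx
  rw [Real.norm_eq_abs, abs_le] at this
  exact this

/-- The affine rescaling of a self-adjoint element to an element with spectrum in `[0, 1]`. -/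
theorem exists_rescale {h : G} (hh : IsSelfAdjoint h) : ∃ (a : G) (c : ℝ), 0 < c ∧
    IsSelfAdjoint a ∧ spectrum ℝ a ⊆ Set.Icc (0 : ℝ) 1 ∧
    h = ((2 * c : ℝ) : ℂ) • a - (c : ℂ) • (1 : G) := by
  set c : ℝ := ‖h‖ * ‖(1 : G)‖ + 1 with hc
  have hc0 : 0 < c := by positivity
  have hcne : c ≠ 0 := hc0.ne'
  refine ⟨cfc (fun x : ℝ => (x + c) / (2 * c)) h, c, hc0, cfc_predicate _ _, ?_, ?_⟩
  · rw [cfc_map_spectrum (fun x : ℝ => (x + c) / (2 * c)) h hh (by fun_prop)]
    rintro _ ⟨x, hx, rfl⟩
    have := spectrum_subset_Icc h hx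
    simp only [Set.mem_Icc] at this ⊢
    constructor
    · apply div_nonneg <;> linarith
    · rw [div_le_one (by positivity)]
      linarith
  · have e : cfc (fun x : ℝ => (x + c) / (2 * c)) h
        = ((2 * c : ℝ) : ℂ)⁻¹ • (h + (c : ℂ) • (1 : G)) := by
      have e1 : (fun x : ℝ => (x + c) / (2 * c)) = fun x : ℝ => (2 * c)⁻¹ * (x + c) := by
        funext x
        rw [div_eq_inv_mul]
      rw [e1, cfc_const_mul ((2 * c)⁻¹ : ℝ) (fun x : ℝ => x + c) h (by fun_prop),
        cfc_add_const c (fun x : ℝ => x) h (by fun_prop), cfc_id' ℝ h,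
        Algebra.algebraMap_eq_smul_one, ← Complex.ofReal_inv, Complex.coe_smul, Complex.coe_smul]
    rw [e, smul_smul, mul_inv_cancel₀, one_smul]
    · abel
    · exact_mod_cast (by positivity : (2 * c : ℝ) ≠ 0)

theorem exists_real_sub_mem {M : TwoSidedIdeal G} (hM : IsCoatom M)
    (hc : ∀ x y : G, x * y - y * x ∈ M) {h : G} (hh : IsSelfAdjoint h) :
    ∃ r : ℝ, h - (r : ℂ) • (1 : G) ∈ M := by
  obtain ⟨a, c, hc0, ha, hsp, e⟩ := exists_rescale hh
  obtain ⟨r, hr⟩ := exists_real_sub_mem_of_Icc hM hc ha hsp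
  refine ⟨2 * c * r - c, ?_⟩
  have := smul_mem_ideal M ((2 * c : ℝ) : ℂ) hr
  have e2 : h - ((2 * c * r - c : ℝ) : ℂ) • (1 : G)
      = ((2 * c : ℝ) : ℂ) • (a - (r : ℂ) • (1 : G)) := by
    rw [e, smul_sub, smul_smul]
    push_cast
    rw [sub_smul]
    abel
  rwa [e2]

/-- If all commutators are in the maximal ideal `M` then the quotient is the field of complex
numbers, and there is a character. -/
theorem exists_character {M : TwoSidedIdeal G} (hM : IsCoatom M)
    (hc : ∀ x y : G, x * y - y * x ∈ M) : Nonempty (G →⋆ₐ[ℂ] ℂ) := by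
  have hex : ∀ b : G, ∃ c : ℂ, b - c • (1 : G) ∈ M := by
    intro b
    obtain ⟨r, hr⟩ := exists_real_sub_mem hM hc (realPart b).2
    obtain ⟨t, ht⟩ := exists_real_sub_mem hM hc (imaginaryPart b).2
    refine ⟨(r : ℂ) + Complex.I * t, ?_⟩
    have h1 := smul_mem_ideal M Complex.I ht
    have h2 := M.add_mem hr h1
    have e : b - ((r : ℂ) + Complex.I * t) • (1 : G)
        = ((realPart b : G) - (r : ℂ) • (1 : G))
          + Complex.I • ((imaginaryPart b : G) - (t : ℂ) • (1 : G)) := by
      nth_rewrite 1 [← realPart_add_I_smul_imaginaryPart b]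
      rw [add_smul, mul_smul, smul_sub]
      abel
    rwa [e]
  have huniq : ∀ c : ℂ, c • (1 : G) ∈ M → c = 0 := by
    intro c hcM
    by_contra hne
    apply one_notMem_of_isCoatom hM
    have := smul_mem_ideal M c⁻¹ hcM
    rwa [smul_smul, inv_mul_cancel₀ hne, one_smul] at this
  choose χ hχ using hex
  have hdet : ∀ (b : G) (c : ℂ), b - c • (1 : G) ∈ M → χ b = c := by
    intro b c hb
    have h1 := M.sub_mem hb (hχ b)
    have e : b - c • (1 : G) - (b - χ b • (1 : G)) = (χ b - c) • (1 : G) := by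
      rw [sub_smul]
      abel
    rw [e] at h1
    exact sub_eq_zero.1 (huniq _ h1)
  let f : G →ₐ[ℂ] ℂ :=
    { toFun := χ
      map_one' := hdet _ _ (by simp [M.zero_mem])
      map_zero' := hdet _ _ (by simp [M.zero_mem])
      map_add' := by
        intro x y
        apply hdet
        have e : x + y - (χ x + χ y) • (1 : G) = (x - χ x • 1) + (y - χ y • 1) := by
          rw [add_smul]
          abel
        rw [e]
        exact M.add_mem (hχ x) (hχ y)
      map_mul' := by
        intro x y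
        apply hdet
        have e : x * y - (χ x * χ y) • (1 : G)
            = (x - χ x • 1) * y + χ x • (y - χ y • (1 : G)) := by
          rw [mul_smul, sub_mul, smul_mul_assoc, one_mul, smul_sub]
          abel
        rw [e]
        exact M.add_mem (M.mul_mem_right _ _ (hχ x)) (smul_mem_ideal M _ (hχ y))
      commutes' := by
        intro r
        apply hdet
        have e : algebraMap ℂ G r - (algebraMap ℂ ℂ r) • (1 : G) = 0 := by
          rw [Algebra.algebraMap_eq_smul_one]
          simp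
        rw [e]
        exact M.zero_mem }
  have hstar : StarHomClass (G →ₐ[ℂ] ℂ) G ℂ := AlgHomClass.instStarHomClass
  exact ⟨{ f with map_star' := fun x => map_star f x }⟩

/-- No characters: the commutators of self-adjoint elements generate the algebra. -/
theorem fullFam_commutators (hchar : IsEmpty (G →⋆ₐ[ℂ] ℂ)) :
    FullFam (fun p : {x : G // IsSelfAdjoint x} × {x : G // IsSelfAdjoint x} =>
      (Complex.I • (p.1 : G)) * (p.2 : G) - (p.2 : G) * (Complex.I • (p.1 : G))) := by
  rw [fullFam_iff]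
  intro M hM
  by_contra hcon
  push Not at hcon
  have h1 : ∀ x y : G, IsSelfAdjoint x → IsSelfAdjoint y → x * y - y * x ∈ M := by
    intro x y hx hy
    have := smul_mem_ideal M (-Complex.I) (hcon (⟨x, hx⟩, ⟨y, hy⟩))
    have e : -Complex.I • ((Complex.I • x) * y - y * (Complex.I • x)) = x * y - y * x := by
      rw [smul_sub, smul_mul_assoc, mul_smul_comm, smul_smul, smul_smul]
      simp
    rwa [e] at this
  have h2 : ∀ x y : G, x * y - y * x ∈ M := by
    intro x y
    have hx := realPart_add_I_smul_imaginaryPart x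
    have hy := realPart_add_I_smul_imaginaryPart y
    set x1 : G := ((realPart x : selfAdjoint G) : G)
    set x2 : G := ((imaginaryPart x : selfAdjoint G) : G)
    set y1 : G := ((realPart y : selfAdjoint G) : G)
    set y2 : G := ((imaginaryPart y : selfAdjoint G) : G)
    have hx1 : IsSelfAdjoint x1 := (realPart x).2
    have hx2 : IsSelfAdjoint x2 := (imaginaryPart x).2
    have hy1 : IsSelfAdjoint y1 := (realPart y).2
    have hy2 : IsSelfAdjoint y2 := (imaginaryPart y).2
    have a1 := h1 x1 y1 hx1 hy1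
    have a2 := smul_mem_ideal M Complex.I (h1 x1 y2 hx1 hy2)
    have a3 := smul_mem_ideal M Complex.I (h1 x2 y1 hx2 hy1)
    have a4 := smul_mem_ideal M (-1 : ℂ) (h1 x2 y2 hx2 hy2)
    have := M.add_mem (M.add_mem a1 a2) (M.add_mem a3 a4)
    have e : x * y - y * x = x1 * y1 - y1 * x1 + Complex.I • (x1 * y2 - y2 * x1)
        + (Complex.I • (x2 * y1 - y1 * x2) + (-1 : ℂ) • (x2 * y2 - y2 * x2)) := by
      rw [← hx, ← hy]
      simp only [add_mul, mul_add, smul_mul_assoc, mul_smul_comm, smul_smul, Complex.I_mul_I,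
        smul_sub, neg_smul, one_smul, smul_add]
      abel
    rwa [e]
  exact hchar.false (exists_character hM h2).some

end Vale.Agent.P101
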