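import Vale.Agent.P101.CC

/-!
# P101: homomorphisms from a limit of dimension drop algebras into the central sequence algebra
-/

open Filter Topology
open scoped BoundedContinuousFunction

namespace Vale.Agent.P101

universe u v w

/-- The six basic `*`-polynomial expressions in a sequence of elements. -/
noncomputable def basicPoly {R : Type*} [Ring R] [Star R] [SMul ℂ R] (c : ℕ × ℕ × ℕ × ℕ)
    (x : ℕ → R) : R :=
  match c.1 with
  | 0 => x c.2.1 - x c.2.2.1
  | 1 => x c.2.1 + x c.2.2.1 - x c.2.2.2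
  | 2 => x c.2.1 * x c.2.2.1 - x c.2.2.2
  | 3 => star (x c.2.1) - x c.2.2.1
  | 4 => Complex.I • x c.2.1 - x c.2.2.1
  | _ => 1 - x c.2.1

theorem map_basicPoly {R R' : Type*} [Ring R] [StarRing R] [Algebra ℂ R] [Ring R'] [StarRing R']
    [Algebra ℂ R'] (φ : R →⋆ₐ[ℂ] R') (c : ℕ × ℕ × ℕ × ℕ) (x : ℕ → R) :
    φ (basicPoly c x) = basicPoly c (fun i => φ (x i)) := by
  obtain ⟨t, i, j, k⟩ := c
  unfold basicPoly
  match t with
  | 0 => simp
  | 1 => simp
  | 2 => simp
  | 3 => simp [map_star]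
  | 4 => simp
  | (n + 5) => simp

variable {A : Type u} [CStarAlgebra A] {ω : Ultrafilter ℕ}

/-- Approximate homomorphisms of a separable algebra into the central sequence algebra give a
homomorphism. -/
theorem exists_hom_centralSeq [TopologicalSpace.SeparableSpace A]
    (hω : (ω : Filter ℕ) ≤ cofinite) {D : Type*} [NormedRing D] [NormedAlgebra ℂ D] [StarRing D]
    [ContinuousStar D] [StarModule ℂ D] (d : ℕ → D) (hd : DenseRange d)
    (ψ : ℕ → ℕ → centralSeq ω A) (hb : ∀ i, ∃ C, ∀ M, ‖ψ M i‖ ≤ C)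
    (h : ∀ c, ∀ ε : ℝ, 0 < ε → ∀ᶠ M in atTop, ‖basicPoly c (ψ M)‖ < ‖basicPoly c d‖ + ε) :
    Nonempty (D →⋆ₐ[ℂ] centralSeq ω A) := by
  classical
  obtain ⟨a, ha⟩ := TopologicalSpace.exists_dense_seq A
  have hlift : ∀ M i, ∃ y : ℕ →ᵇ A, Ultra.mk ω y = (ψ M i : Ultra ω A) ∧ ∀ n, ‖y n‖ ≤ ‖ψ M i‖ :=
    fun M i => Ultra.exists_rep (ψ M i : Ultra ω A)
  choose z hz hzn using hlift
  choose C hC using hb
  let f : (ℕ × ℕ × ℕ × ℕ) ⊕ (ℕ × ℕ) → (n : ℕ) → ℕ → ℝ := fun k n M =>
    match k with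
    | Sum.inl c => max 0 (‖basicPoly c (fun i => z M i n)‖ - ‖basicPoly c d‖)
    | Sum.inr (j, i) => ‖a j * z M i n - z M i n * a j‖
  have hpt : ∀ (y : ℕ → (ℕ →ᵇ A)) (c : ℕ × ℕ × ℕ × ℕ) (n : ℕ),
      basicPoly c y n = basicPoly c (fun i => y i n) := by
    intro y c n
    obtain ⟨t, i, j, k⟩ := c
    unfold basicPoly
    match t with
    | 0 => rfl
    | 1 => rfl
    | 2 => rfl
    | 3 => rfl
    | 4 => rfl
    | (n + 5) => rfl
  obtain ⟨κ, hκ⟩ := eps_test_countable (X := fun _ => ℕ) (ω : Filter ℕ) hω f (by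
    rintro (c | ⟨j, i⟩) n m
    · exact le_max_left _ _
    · exact norm_nonneg _) (by
    intro F ε hε
    have h3 : ∀ᶠ M in atTop, ∀ k ∈ F, ∀ c, k = Sum.inl c →
        ‖basicPoly c (ψ M)‖ < ‖basicPoly c d‖ + ε / 2 := by
      rw [Filter.eventually_all_finset]
      rintro (c | ji) _
      · filter_upwards [h c (ε / 2) (by positivity)] with M hM c' hc'
        obtain rfl := Sum.inl_injective hc'
        exact hM
      · exact Eventually.of_forall (fun m z' hz' => by cases hz')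
    obtain ⟨M, hM⟩ := h3.exists
    refine ⟨fun _ => M, ?_⟩
    rintro (c | ⟨j, i⟩) hk
    · have h4 := hM _ hk c rfl
      have h5 : Ultra.mk ω (basicPoly c (z M)) = (basicPoly c (ψ M) : centralSeq ω A) := by
        rw [map_basicPoly]
        have := map_basicPoly (centralSeq ω A).subtype c (ψ M)
        simp only [StarSubalgebra.subtype_apply] at this
        rw [this]
        congr 1
        funext i
        exact hz M i
      have h6 := Ultra.tendsto_norm_mk (ω := ω) (basicPoly c (z M))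
      rw [h5] at h6
      have h7 : ‖((basicPoly c (ψ M) : centralSeq ω A) : Ultra ω A)‖ < ‖basicPoly c d‖ + ε :=
        lt_trans h4 (by linarith)
      filter_upwards [h6.eventually (gt_mem_nhds h7)] with n hn
      show max 0 (‖basicPoly c (fun i => z M i n)‖ - ‖basicPoly c d‖) < ε
      rw [max_lt_iff]
      refine ⟨hε, ?_⟩
      rw [← hpt]
      linarith
    · have h4 := (mk_mem_centralSeq_iff.1 (by rw [hz]; exact (ψ M i).2 : Ultra.mk ω (z M i) ∈ _)) (a j)
      exact h4.eventually (gt_mem_nhds hε))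
  let y : ℕ → (ℕ →ᵇ A) := fun i =>
    BoundedContinuousFunction.ofNormedAddCommGroupDiscrete (fun n => z (κ n) i n) (C i)
      (fun n => (hzn _ _ _).trans (hC i _))
  have hyn : ∀ i n, y i n = z (κ n) i n := fun i n => rfl
  have hcentral : ∀ i, Ultra.mk ω (y i) ∈ centralSeq ω A := by
    intro i
    rw [mem_centralSeq_iff]
    have hcl : IsClosed {b : A | Commute (Ultra.diag ω b) (Ultra.mk ω (y i))} := by
      have hc : Continuous (Ultra.diag ω : A → Ultra ω A) :=
        AddMonoidHomClass.continuous_of_bound (Ultra.diag ω) 1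
          (fun b => by rw [one_mul, Ultra.norm_diag])
      exact isClosed_eq (hc.mul continuous_const) (continuous_const.mul hc)
    intro b
    have h1 : closure (Set.range a) ⊆ {b : A | Commute (Ultra.diag ω b) (Ultra.mk ω (y i))} := by
      apply closure_minimal _ hcl
      rintro _ ⟨j, rfl⟩
      show Commute _ _
      rw [commute_iff_eq, Ultra.diag_apply, ← map_mul, ← map_mul, Ultra.mk_eq_mk_iff]
      exact hκ (Sum.inr (j, i))
    exact h1 (ha b)
  let Ψ : ℕ → centralSeq ω A := fun i => ⟨Ultra.mk ω (y i), hcentral i⟩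
  have hbound : ∀ c, ‖basicPoly c Ψ‖ ≤ ‖basicPoly c d‖ := by
    intro c
    have h1 := hκ (Sum.inl c)
    have h2 : Tendsto (fun n => max 0 (‖basicPoly c (fun i => z (κ n) i n)‖ - ‖basicPoly c d‖) +
        ‖basicPoly c d‖) ω (𝓝 (0 + ‖basicPoly c d‖)) := h1.add tendsto_const_nhds
    rw [zero_add] at h2
    have h5 : Ultra.mk ω (basicPoly c y) = (basicPoly c Ψ : centralSeq ω A) := by
      rw [map_basicPoly]
      have := map_basicPoly (centralSeq ω A).subtype c Ψ
      simp only [StarSubalgebra.subtype_apply] at this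
      rw [this]
    have h6 := Ultra.tendsto_norm_mk (ω := ω) (basicPoly c y)
    rw [h5] at h6
    refine le_of_tendsto_of_tendsto h6 h2 (Eventually.of_forall fun n => ?_)
    have h8 : ‖(basicPoly c y) n‖ = ‖basicPoly c (fun i => z (κ n) i n)‖ :=
      congrArg norm (hpt y c n)
    have h9 := le_max_right 0 (‖basicPoly c (fun i => z (κ n) i n)‖ - ‖basicPoly c d‖)
    have h10 : ‖(basicPoly c y) n‖ ≤
        max 0 (‖basicPoly c (fun i => z (κ n) i n)‖ - ‖basicPoly c d‖) + ‖basicPoly c d‖ := by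
      rw [h8]
      linarith
    exact h10
  obtain ⟨Φ, -, -⟩ := exists_hom_of_dense d hd Ψ
    (fun i j => hbound (0, i, j, 0))
    (fun i j k => hbound (1, i, j, k))
    (fun i j k => hbound (2, i, j, k))
    (fun i k => hbound (3, i, k, 0))
    (fun i k => hbound (4, i, k, 0))
    (fun k => hbound (5, k, 0, 0))
  exact ⟨Φ⟩


section dimDrop

open scoped Matrix.Norms.L2Operator

theorem isClosed_dimDrop (p q : ℕ) :
    IsClosed (DimDrop p q : Set C(unitInterval, Matrix (Fin p × Fin q) (Fin p × Fin q) ℂ)) := by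
  let κ₀ : Matrix (Fin p) (Fin p) ℂ →ₗ[ℂ] Matrix (Fin p × Fin q) (Fin p × Fin q) ℂ :=
    { toFun := fun x => Matrix.kronecker x (1 : Matrix (Fin q) (Fin q) ℂ)
      map_add' := fun x y => Matrix.add_kronecker x y 1
      map_smul' := fun c x => Matrix.smul_kronecker c x 1 }
  let κ₁ : Matrix (Fin q) (Fin q) ℂ →ₗ[ℂ] Matrix (Fin p × Fin q) (Fin p × Fin q) ℂ :=
    { toFun := fun y => Matrix.kronecker (1 : Matrix (Fin p) (Fin p) ℂ) y
      map_add' := fun x y => Matrix.kronecker_add 1 x y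
      map_smul' := fun c x => Matrix.kronecker_smul c 1 x }
  have h0 : IsClosed (LinearMap.range κ₀ : Set (Matrix (Fin p × Fin q) (Fin p × Fin q) ℂ)) :=
    Submodule.closed_of_finiteDimensional _
  have h1 : IsClosed (LinearMap.range κ₁ : Set (Matrix (Fin p × Fin q) (Fin p × Fin q) ℂ)) :=
    Submodule.closed_of_finiteDimensional _
  have e0 : Continuous (fun f : C(unitInterval, Matrix (Fin p × Fin q) (Fin p × Fin q) ℂ) => f 0) :=
    continuous_eval_const 0
  have e1 : Continuous (fun f : C(unitInterval, Matrix (Fin p × Fin q) (Fin p × Fin q) ℂ) => f 1) :=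
    continuous_eval_const 1
  have h2 : (DimDrop p q : Set C(unitInterval, Matrix (Fin p × Fin q) (Fin p × Fin q) ℂ)) =
      {f | f 0 ∈ (LinearMap.range κ₀ : Set _)} ∩ {f | f 1 ∈ (LinearMap.range κ₁ : Set _)} := by
    ext f
    constructor
    · rintro ⟨⟨x, hx⟩, ⟨y, hy⟩⟩
      exact ⟨⟨x, hx.symm⟩, ⟨y, hy.symm⟩⟩
    · rintro ⟨⟨x, hx⟩, ⟨y, hy⟩⟩
      exact ⟨⟨x, hx.symm⟩, ⟨y, hy.symm⟩⟩
  rw [h2]
  exact (h0.preimage e0).inter (h1.preimage e1)

/-- A unital star homomorphism from a star subalgebra isomorphic to a dimension drop algebra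
to a C*-algebra is contractive. -/
theorem norm_map_le_of_dimDrop {Z : Type v} [CStarAlgebra Z] {B : Type w} [CStarAlgebra B]
    {p q : ℕ} (S : StarSubalgebra ℂ Z) (e : S ≃⋆ₐ[ℂ] DimDrop p q) (θ : DimDrop p q →⋆ₐ[ℂ] B)
    (x : S) : ‖θ (e x)‖ ≤ ‖x‖ := by
  have : IsClosed (DimDrop p q : Set C(unitInterval, Matrix (Fin p × Fin q) (Fin p × Fin q) ℂ)) :=
    isClosed_dimDrop p q
  have h1 : ‖θ (e x)‖ ≤ ‖e x‖ := NonUnitalStarAlgHom.norm_apply_le θ (e x)
  let ι : DimDrop p q →⋆ₐ[ℂ] Z := S.subtype.comp (e.symm : DimDrop p q →⋆ₐ[ℂ] S)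
  have h2 : Function.Injective ι := by
    intro a b hab
    exact e.symm.injective (Subtype.ext hab)
  have h3 : ‖ι (e x)‖ = ‖e x‖ := NonUnitalStarAlgHom.norm_map ι h2 (e x)
  have h4 : ι (e x) = (x : Z) := by
    show ((e.symm (e x) : S) : Z) = x
    rw [StarAlgEquiv.symm_apply_apply]
  rw [h4] at h3
  exact h1.trans h3.symm.le

theorem isSeparable_of_dimDrop {Z : Type v} [CStarAlgebra Z] {p q : ℕ} (S : StarSubalgebra ℂ Z)
    (e : S ≃⋆ₐ[ℂ] DimDrop p q) : TopologicalSpace.IsSeparable (S : Set Z) := by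
  have : IsClosed (DimDrop p q : Set C(unitInterval, Matrix (Fin p × Fin q) (Fin p × Fin q) ℂ)) :=
    isClosed_dimDrop p q
  let ι : DimDrop p q →⋆ₐ[ℂ] Z := S.subtype.comp (e.symm : DimDrop p q →⋆ₐ[ℂ] S)
  have h2 : Continuous ι := AddMonoidHomClass.continuous_of_bound ι 1
    (fun b => by rw [one_mul]; exact NonUnitalStarAlgHom.norm_apply_le ι b)
  have h3 : (S : Set Z) = Set.range ι := by
    ext z
    constructor
    · intro hz
      refine ⟨e ⟨z, hz⟩, ?_⟩
      show ((e.symm (e ⟨z, hz⟩) : S) : Z) = z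
      rw [StarAlgEquiv.symm_apply_apply]
    · rintro ⟨y, rfl⟩
      exact (e.symm y).2
  rw [h3]
  have : SecondCountableTopology C(unitInterval, Matrix (Fin p × Fin q) (Fin p × Fin q) ℂ) :=
    inferInstance
  exact TopologicalSpace.isSeparable_range h2

end dimDrop

theorem basicPoly_congr {R : Type*} [Ring R] [Star R] [SMul ℂ R] (c : ℕ × ℕ × ℕ × ℕ)
    (x y : ℕ → R) (h1 : x c.2.1 = y c.2.1) (h2 : x c.2.2.1 = y c.2.2.1)
    (h3 : x c.2.2.2 = y c.2.2.2) : basicPoly c x = basicPoly c y := by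
  obtain ⟨t, i, j, k⟩ := c
  simp only at h1 h2 h3
  unfold basicPoly
  simp only [h1, h2, h3]

/-- If all prime dimension drop algebras map to the central sequence algebra, then so does every
limit of prime dimension drop algebras. -/
theorem exists_hom_of_isDimDropLimit {Z : Type v} [CStarAlgebra Z] (hZ : IsDimDropLimit Z)
    [TopologicalSpace.SeparableSpace A] (hω : (ω : Filter ℕ) ≤ cofinite)
    (h : ∀ p q : ℕ, 0 < p → 0 < q → Nat.Coprime p q →
      Nonempty (DimDrop p q →⋆ₐ[ℂ] centralSeq ω A)) :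
    Nonempty (Z →⋆ₐ[ℂ] centralSeq ω A) := by
  classical
  obtain ⟨S, hmono, hiso, hdense⟩ := hZ
  choose p q hp hq hpq he using hiso
  let e : ∀ k, S k ≃⋆ₐ[ℂ] DimDrop (p k) (q k) := fun k => (he k).some
  let θ : ∀ k, DimDrop (p k) (q k) →⋆ₐ[ℂ] centralSeq ω A :=
    fun k => (h (p k) (q k) (hp k) (hq k) (hpq k)).some
  let π : ∀ k, S k →⋆ₐ[ℂ] centralSeq ω A := fun k => (θ k).comp (e k : S k →⋆ₐ[ℂ] _)
  have hπ : ∀ k (x : S k), ‖π k x‖ ≤ ‖x‖ := fun k x => norm_map_le_of_dimDrop (S k) (e k) (θ k) x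
  have hsep : TopologicalSpace.IsSeparable (⋃ k, (S k : Set Z)) :=
    TopologicalSpace.isSeparable_iUnion.2 (fun k => isSeparable_of_dimDrop (S k) (e k))
  have := hsep.separableSpace
  obtain ⟨t, htS, htc, htd⟩ := hdense.exists_countable_dense_subset
  have htne : t.Nonempty := htd.nonempty
  obtain ⟨d, rfl⟩ := htc.exists_eq_range htne
  have hd : ∀ i, ∃ k, d i ∈ S k := fun i => by
    have := htS (Set.mem_range_self i)
    simpa using this
  choose K hK using hd
  let d' : ∀ M, ℕ → S M := fun M i => if hM : d i ∈ S M then ⟨d i, hM⟩ else 0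
  have hd' : ∀ M i, K i ≤ M → ((d' M i : S M) : Z) = d i := by
    intro M i hM
    have h1 : d i ∈ S M := hmono hM (hK i)
    simp only [d', dif_pos h1]
  have hd'n : ∀ M i, ‖d' M i‖ ≤ ‖d i‖ := by
    intro M i
    by_cases h1 : d i ∈ S M
    · simp only [d', dif_pos h1]
      exact le_rfl
    · simp only [d', dif_neg h1, norm_zero]
      exact norm_nonneg _
  refine exists_hom_centralSeq hω d htd (fun M i => π M (d' M i))
    (fun i => ⟨‖d i‖, fun M => (hπ _ _).trans (hd'n M i)⟩) ?_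
  intro c ε hε
  filter_upwards [eventually_ge_atTop (max (K c.2.1) (max (K c.2.2.1) (K c.2.2.2)))] with M hM
  have h1 : basicPoly c (fun i => π M (d' M i)) = π M (basicPoly c (d' M)) :=
    (map_basicPoly (π M) c (d' M)).symm
  have h2 : ((basicPoly c (d' M) : S M) : Z) = basicPoly c d := by
    have h3 := map_basicPoly (S M).subtype c (d' M)
    simp only [StarSubalgebra.subtype_apply] at h3
    rw [h3]
    apply basicPoly_congr
    · exact hd' M _ ((le_max_left _ _).trans hM)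
    · exact hd' M _ ((le_max_left _ _).trans ((le_max_right _ _).trans hM))
    · exact hd' M _ ((le_max_right _ _).trans ((le_max_right _ _).trans hM))
  rw [h1]
  calc ‖π M (basicPoly c (d' M))‖ ≤ ‖basicPoly c (d' M)‖ := hπ _ _
    _ = ‖basicPoly c d‖ := by rw [← h2]; rfl
    _ < ‖basicPoly c d‖ + ε := by linarith

end Vale.Agent.P101
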