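import Mathlib

/-!
# P101: a one-sided approximate intertwining argument
-/

open Filter Topology

namespace Vale.Agent.P101

universe u v

namespace ApproxEquiv

variable {A : Type u} {T : Type v} [CStarAlgebra A] [CStarAlgebra T]

/-- conjugation of `ι` by a unitary. -/
def conj (ι : A →⋆ₐ[ℂ] T) (V : unitary T) (a : A) : T := (V : T) * ι a * star (V : T)

theorem norm_conj_aux (V : unitary T) (x : T) : ‖(V : T) * x * star (V : T)‖ = ‖x‖ := by
  have h1 : star (V : T) = ((star V : unitary T) : T) := rfl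
  rw [h1, CStarRing.norm_mul_coe_unitary, CStarRing.norm_coe_unitary_mul]

theorem conj_sub (ι : A →⋆ₐ[ℂ] T) (V : unitary T) (a b : A) :
    conj ι V a - conj ι V b = conj ι V (a - b) := by
  unfold conj
  rw [map_sub, mul_sub, sub_mul]

theorem norm_conj (ι : A →⋆ₐ[ℂ] T) (hι : Function.Injective ι) (V : unitary T) (a : A) :
    ‖conj ι V a‖ = ‖a‖ := by
  unfold conj
  rw [norm_conj_aux, NonUnitalStarAlgHom.norm_map ι hι]

theorem conj_one (ι : A →⋆ₐ[ℂ] T) (V : unitary T) : conj ι V 1 = 1 := by
  unfold conj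
  rw [map_one, mul_one]
  exact Unitary.coe_mul_star_self V

theorem conj_mul (ι : A →⋆ₐ[ℂ] T) (V : unitary T) (a b : A) :
    conj ι V (a * b) = conj ι V a * conj ι V b := by
  unfold conj
  have h : star (V : T) * (V : T) = 1 := Unitary.coe_star_mul_self V
  rw [map_mul]
  calc (V : T) * (ι a * ι b) * star (V : T)
      = (V : T) * ι a * 1 * ι b * star (V : T) := by noncomm_ring
    _ = (V : T) * ι a * (star (V : T) * (V : T)) * ι b * star (V : T) := by rw [h]
    _ = _ := by noncomm_ring

theorem conj_add (ι : A →⋆ₐ[ℂ] T) (V : unitary T) (a b : A) :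
    conj ι V (a + b) = conj ι V a + conj ι V b := by
  unfold conj
  rw [map_add, mul_add, add_mul]

theorem conj_star (ι : A →⋆ₐ[ℂ] T) (V : unitary T) (a : A) :
    conj ι V (star a) = star (conj ι V a) := by
  unfold conj
  rw [map_star, star_mul, star_mul, star_star, mul_assoc]

theorem conj_algebraMap (ι : A →⋆ₐ[ℂ] T) (V : unitary T) (c : ℂ) :
    conj ι V (algebraMap ℂ A c) = algebraMap ℂ T c := by
  unfold conj
  have h : (V : T) * star (V : T) = 1 := Unitary.coe_mul_star_self V
  rw [AlgHomClass.commutes, ← Algebra.commutes, mul_assoc, h, mul_one]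

variable (ι : A →⋆ₐ[ℂ] T)
    (h : ∀ (F : Finset A) (G : Finset T) (ε : ℝ), 0 < ε → ∃ U ∈ unitary T,
      (∀ a ∈ F, ‖U * ι a - ι a * U‖ < ε) ∧ ∀ b ∈ G, ∃ a : A, ‖star U * b * U - ι a‖ < ε)

include h in
theorem step (V : unitary T) (F : Finset A) (a₀ : A) (G : Finset T) {ε : ℝ} (hε : 0 < ε) :
    ∃ (V' : unitary T) (F' : Finset A), F ⊆ F' ∧ a₀ ∈ F' ∧
      (∀ a ∈ F, ‖conj ι V' a - conj ι V a‖ < ε) ∧
      ∀ b ∈ G, ∃ a ∈ F', ‖conj ι V' a - b‖ < ε := by
  classical
  obtain ⟨U, hU, h1, h2⟩ := h F (G.image fun b => star (V : T) * b * (V : T)) ε hε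
  choose! g hg using h2
  refine ⟨V * ⟨U, hU⟩, insert a₀ F ∪ G.image (fun b => g (star (V : T) * b * (V : T))),
    ?_, ?_, ?_, ?_⟩
  · intro x hx
    simp [hx]
  · simp
  · intro a ha
    have hU' : U * star U = 1 := (Unitary.mem_iff.mp hU).2
    have h3 : conj ι (V * ⟨U, hU⟩) a - conj ι V a =
        (V : T) * ((U * ι a - ι a * U) * star U) * star (V : T) := by
      unfold conj
      have : ((V * ⟨U, hU⟩ : unitary T) : T) = (V : T) * U := rfl
      rw [this, star_mul]
      have h4 : (V : T) * ι a * star (V : T) = (V : T) * (ι a * (U * star U)) * star (V : T) := by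
        rw [hU', mul_one]
      rw [h4]
      noncomm_ring
    rw [h3, norm_conj_aux]
    have h5 : star U = ((star ⟨U, hU⟩ : unitary T) : T) := rfl
    rw [h5, CStarRing.norm_mul_coe_unitary]
    exact h1 a ha
  · intro b hb
    have hmem : star (V : T) * b * (V : T) ∈ G.image fun b => star (V : T) * b * (V : T) :=
      Finset.mem_image_of_mem _ hb
    have h3 := hg _ hmem
    refine ⟨g (star (V : T) * b * (V : T)), ?_, ?_⟩
    · apply Finset.mem_union_right
      exact Finset.mem_image_of_mem (fun b => g (star (V : T) * b * (V : T))) hb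
    · set a := g (star (V : T) * b * (V : T)) with ha
      have hU' : U * star U = 1 := (Unitary.mem_iff.mp hU).2
      have hV' : (V : T) * star (V : T) = 1 := Unitary.coe_mul_star_self V
      have h4 : conj ι (V * ⟨U, hU⟩) a - b =
          (V : T) * (U * (-(star U * (star (V : T) * b * (V : T)) * U - ι a)) * star U) *
            star (V : T) := by
        unfold conj
        have : ((V * ⟨U, hU⟩ : unitary T) : T) = (V : T) * U := rfl
        rw [this, star_mul]
        have h5 : b = ((V : T) * (U * star U) * star (V : T)) * b *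
            ((V : T) * (U * star U) * star (V : T)) := by
          rw [hU', mul_one, hV', one_mul, mul_one]
        conv_lhs => rw [h5]
        noncomm_ring
      rw [h4, norm_conj_aux]
      have h6 := norm_conj_aux (⟨U, hU⟩ : unitary T)
        (-(star U * (star (V : T) * b * (V : T)) * U - ι a))
      have h7 : ‖U * -(star U * (star (V : T) * b * (V : T)) * U - ι a) * star U‖ =
          ‖-(star U * (star (V : T) * b * (V : T)) * U - ι a)‖ := h6
      rw [h7, norm_neg]
      exact h3

end ApproxEquiv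

open ApproxEquiv

theorem exists_starAlgEquiv_of_approx {A : Type u} {T : Type v} [CStarAlgebra A] [CStarAlgebra T]
    [TopologicalSpace.SeparableSpace A] [TopologicalSpace.SeparableSpace T]
    (ι : A →⋆ₐ[ℂ] T) (hι : Function.Injective ι)
    (h : ∀ (F : Finset A) (G : Finset T) (ε : ℝ), 0 < ε → ∃ U ∈ unitary T,
      (∀ a ∈ F, ‖U * ι a - ι a * U‖ < ε) ∧ ∀ b ∈ G, ∃ a : A, ‖star U * b * U - ι a‖ < ε) :
    Nonempty (A ≃⋆ₐ[ℂ] T) := by
  classical
  set α : ℕ → A := TopologicalSpace.denseSeq A with hα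
  set β : ℕ → T := TopologicalSpace.denseSeq T with hβ
  have hstep : ∀ (p : unitary T × Finset A) (n : ℕ), ∃ q : unitary T × Finset A,
      p.2 ⊆ q.2 ∧ α n ∈ q.2 ∧
      (∀ a ∈ p.2, ‖conj ι q.1 a - conj ι p.1 a‖ < (1 / 2 : ℝ) ^ n) ∧
      ∀ b ∈ (Finset.range (n + 1)).image β, ∃ a ∈ q.2, ‖conj ι q.1 a - b‖ < (1 / 2 : ℝ) ^ n := by
    intro p n
    obtain ⟨V', F', h1, h2, h3, h4⟩ := step ι h p.1 p.2 (α n)
      ((Finset.range (n + 1)).image β) (ε := (1 / 2 : ℝ) ^ n) (by positivity)
    exact ⟨(V', F'), h1, h2, h3, h4⟩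
  choose nxt hn1 hn2 hn3 hn4 using hstep
  let s : ℕ → unitary T × Finset A := fun n => Nat.rec (1, ∅) (fun n p => nxt p n) n
  have hs : ∀ n, s (n + 1) = nxt (s n) n := fun n => rfl
  have hmono : Monotone fun n => (s n).2 := by
    refine monotone_nat_of_le_succ fun n => ?_
    show (s n).2 ⊆ (s (n + 1)).2
    rw [hs]
    exact hn1 _ _
  have hdist : ∀ N, ∀ a ∈ (s N).2, ∀ n, N ≤ n →
      ‖conj ι (s (n + 1)).1 a - conj ι (s n).1 a‖ < (1 / 2 : ℝ) ^ n := by
    intro N a ha n hn
    rw [hs]
    exact hn3 (s n) n a (hmono hn ha)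
  -- limit on the finite stages
  have hgeo : ∀ N, ∀ a ∈ (s N).2, ∀ n, N ≤ n → ∀ k,
      ‖conj ι (s (n + k)).1 a - conj ι (s n).1 a‖ ≤ 2 * (1 / 2 : ℝ) ^ n := by
    intro N a ha n hn k
    have key : ∀ k, ‖conj ι (s (n + k)).1 a - conj ι (s n).1 a‖ ≤
        2 * (1 / 2 : ℝ) ^ n - 2 * (1 / 2 : ℝ) ^ (n + k) := by
      intro k
      induction k with
      | zero => simp
      | succ k ih =>
        have h1 := hdist N a ha (n + k) (by omega)
        have h2 : ‖conj ι (s (n + (k + 1))).1 a - conj ι (s n).1 a‖ ≤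
            ‖conj ι (s (n + k + 1)).1 a - conj ι (s (n + k)).1 a‖ +
              ‖conj ι (s (n + k)).1 a - conj ι (s n).1 a‖ := by
          refine le_trans (le_of_eq ?_) (norm_add_le _ _)
          rw [show n + (k + 1) = n + k + 1 by ring]
          congr 1
          abel
        have h3 : (1 / 2 : ℝ) ^ (n + (k + 1)) = (1 / 2 : ℝ) ^ (n + k) / 2 := by
          rw [show n + (k + 1) = n + k + 1 by ring, pow_succ]
          ring
        rw [h3]
        linarith
    have h1 := key k
    have h2 : (0 : ℝ) ≤ 2 * (1 / 2 : ℝ) ^ (n + k) := by positivity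
    linarith
  have hhalf : Tendsto (fun n : ℕ => 2 * (1 / 2 : ℝ) ^ n) atTop (𝓝 0) := by
    have := (tendsto_pow_atTop_nhds_zero_of_lt_one (r := (1 / 2 : ℝ)) (by norm_num)
      (by norm_num)).const_mul 2
    simpa using this
  have hdense : ∀ (a : A) (ε : ℝ), 0 < ε → ∃ N, ∃ a' ∈ (s N).2, ‖a - a'‖ < ε := by
    intro a ε hε
    obtain ⟨n, hn⟩ := (TopologicalSpace.denseRange_denseSeq A).exists_dist_lt a hε
    refine ⟨n + 1, α n, ?_, ?_⟩
    · rw [hs]
      exact hn2 _ _
    · rw [dist_eq_norm] at hn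
      exact hn
  have hcauchy : ∀ a, CauchySeq fun n => conj ι (s n).1 a := by
    intro a
    rw [Metric.cauchySeq_iff']
    intro ε hε
    obtain ⟨N, a', ha', haa'⟩ := hdense a (ε / 4) (by linarith)
    obtain ⟨M, hM⟩ := ((tendsto_order.1 hhalf).2 (ε / 4) (by linarith)).exists_forall_of_atTop
    refine ⟨max N M, fun n hn => ?_⟩
    obtain ⟨k, rfl⟩ := Nat.exists_eq_add_of_le hn
    rw [dist_eq_norm]
    have h1 := hgeo N a' ha' (max N M) (le_max_left _ _) k
    have h2 := hM (max N M) (le_max_right _ _)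
    have h3 : ‖conj ι (s (max N M + k)).1 a - conj ι (s (max N M + k)).1 a'‖ < ε / 4 := by
      rw [conj_sub, norm_conj ι hι]
      exact haa'
    have h4 : ‖conj ι (s (max N M)).1 a' - conj ι (s (max N M)).1 a‖ < ε / 4 := by
      rw [conj_sub, norm_conj ι hι, norm_sub_rev]
      exact haa'
    calc ‖conj ι (s (max N M + k)).1 a - conj ι (s (max N M)).1 a‖
        = ‖(conj ι (s (max N M + k)).1 a - conj ι (s (max N M + k)).1 a') +
            ((conj ι (s (max N M + k)).1 a' - conj ι (s (max N M)).1 a') +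
            (conj ι (s (max N M)).1 a' - conj ι (s (max N M)).1 a))‖ := by
          congr 1; abel
      _ ≤ ‖conj ι (s (max N M + k)).1 a - conj ι (s (max N M + k)).1 a'‖ +
            (‖conj ι (s (max N M + k)).1 a' - conj ι (s (max N M)).1 a'‖ +
            ‖conj ι (s (max N M)).1 a' - conj ι (s (max N M)).1 a‖) :=
          (norm_add_le _ _).trans (add_le_add le_rfl (norm_add_le _ _))
      _ < ε := by linarith
  have hlim : ∀ a, ∃ t, Tendsto (fun n => conj ι (s n).1 a) atTop (𝓝 t) := fun a =>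
    cauchySeq_tendsto_of_complete (hcauchy a)
  choose ψ hψ using hlim
  let Ψ : A →⋆ₐ[ℂ] T :=
    { toFun := ψ
      map_one' := by
        refine tendsto_nhds_unique (hψ 1) ?_
        simp_rw [conj_one]
        exact tendsto_const_nhds
      map_mul' := by
        intro a b
        refine tendsto_nhds_unique (hψ (a * b)) ?_
        simp_rw [ApproxEquiv.conj_mul]
        exact (hψ a).mul (hψ b)
      map_zero' := by
        refine tendsto_nhds_unique (hψ 0) ?_
        have : ∀ n, conj ι (s n).1 (0 : A) = 0 := by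
          intro n
          unfold conj
          rw [map_zero, mul_zero, zero_mul]
        simp_rw [this]
        exact tendsto_const_nhds
      map_add' := by
        intro a b
        refine tendsto_nhds_unique (hψ (a + b)) ?_
        simp_rw [conj_add]
        exact (hψ a).add (hψ b)
      commutes' := by
        intro c
        refine tendsto_nhds_unique (hψ (algebraMap ℂ A c)) ?_
        simp_rw [conj_algebraMap]
        exact tendsto_const_nhds
      map_star' := by
        intro a
        refine tendsto_nhds_unique (hψ (star a)) ?_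
        simp_rw [conj_star]
        exact (hψ a).star }
  have hΨ : ∀ a, Ψ a = ψ a := fun a => rfl
  have hnorm : ∀ a, ‖Ψ a‖ = ‖a‖ := by
    intro a
    have h1 := (hψ a).norm
    simp_rw [norm_conj ι hι] at h1
    exact tendsto_nhds_unique h1 tendsto_const_nhds
  have hiso : Isometry Ψ := AddMonoidHomClass.isometry_of_norm Ψ hnorm
  have hclosed : IsClosed (Set.range Ψ) := hiso.isClosedEmbedding.isClosed_range
  have hψ_close : ∀ N, ∀ a ∈ (s N).2, ‖ψ a - conj ι (s N).1 a‖ ≤ 2 * (1 / 2 : ℝ) ^ N := by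
    intro N a ha
    have h1 : Tendsto (fun k => ‖conj ι (s (N + k)).1 a - conj ι (s N).1 a‖) atTop
        (𝓝 ‖ψ a - conj ι (s N).1 a‖) := by
      have h2 : Tendsto (fun k => conj ι (s (N + k)).1 a) atTop (𝓝 (ψ a)) := by
        have := (hψ a).comp (tendsto_add_atTop_nat N)
        refine this.congr fun k => ?_
        show conj ι (s (k + N)).1 a = _
        rw [add_comm]
      exact (h2.sub_const _).norm
    exact le_of_tendsto' h1 fun k => hgeo N a ha N le_rfl k
  have hsurj : Function.Surjective Ψ := by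
    intro t
    have : t ∈ closure (Set.range Ψ) := by
      rw [Metric.mem_closure_iff]
      intro ε hε
      obtain ⟨j, hj⟩ := (TopologicalSpace.denseRange_denseSeq T).exists_dist_lt t
        (show (0 : ℝ) < ε / 4 by linarith)
      obtain ⟨M, hM⟩ := ((tendsto_order.1 hhalf).2 (ε / 4) (by linarith)).exists_forall_of_atTop
      set n := max j M with hn
      have hβmem : β j ∈ (Finset.range (n + 1)).image β := by
        apply Finset.mem_image_of_mem
        rw [Finset.mem_range]
        have := le_max_left j M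
        omega
      obtain ⟨a, ha, hab⟩ := hn4 (s n) n (β j) hβmem
      rw [← hs] at ha hab
      have h1 := hψ_close (n + 1) a ha
      have h2 := hM (n + 1) (by have := le_max_right j M; omega)
      have h3 := hM n (le_max_right j M)
      have h4 : (1 / 2 : ℝ) ^ n ≤ 2 * (1 / 2 : ℝ) ^ n := by
        have : (0 : ℝ) ≤ (1 / 2 : ℝ) ^ n := by positivity
        linarith
      refine ⟨Ψ a, ⟨a, rfl⟩, ?_⟩
      rw [dist_comm, dist_eq_norm, hΨ]
      rw [dist_comm, dist_eq_norm] at hj
      calc ‖ψ a - t‖ = ‖(ψ a - conj ι (s (n + 1)).1 a) +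
            ((conj ι (s (n + 1)).1 a - β j) + (β j - t))‖ := by
            congr 1; abel
        _ ≤ ‖ψ a - conj ι (s (n + 1)).1 a‖ +
            (‖conj ι (s (n + 1)).1 a - β j‖ + ‖β j - t‖) :=
            (norm_add_le _ _).trans (add_le_add le_rfl (norm_add_le _ _))
        _ < ε := by linarith
    rw [hclosed.closure_eq] at this
    exact this
  exact ⟨StarAlgEquiv.ofBijective Ψ ⟨hiso.injective, hsurj⟩⟩

end Vale.Agent.P101
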