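import Vale.Agent.P101.Join

/-!
# P101: iterated join of commuting order zero maps
-/

open scoped BigOperators

namespace Vale.Agent.P101

variable {B : Type*} [CStarAlgebra B] [PartialOrder B] [StarOrderedRing B]

theorem exists_iterate_aux {n : ℕ} (N : ℕ) (φ : Fin N → Fin n → Fin n → B)
    (hφ : ∀ k, IsOZ (φ k))
    (hc : ∀ k l, k ≠ l → ∀ i j i' j', Commute (φ k i j) (φ l i' j')) :
    ∃ (ψ : Fin n → Fin n → B) (W : Fin N → B), IsOZ ψ ∧
      (∀ x, (∀ l i j, Commute x (φ l i j)) → ∀ i j, Commute x (ψ i j)) ∧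
      (∀ k x, (∀ l ≤ k, ∀ i j, Commute x (φ l i j)) → Commute x (W k)) ∧
      (∀ k x, (∑ a, φ k a a) * x = x → star (W k) * (W k * x) = x ∧
        ∀ i j, ψ i j * (W k * x) = W k * (φ k i j * x)) ∧
      (∀ k, (∑ a, ψ a a) * cfc g0 (∑ a, φ k a a) = cfc g0 (∑ a, φ k a a)) := by
  induction N with
  | zero =>
    refine ⟨fun _ _ => 0, fun _ => 0, ?_, ?_, fun k => k.elim0, fun k => k.elim0,
      fun k => k.elim0⟩
    · constructor
      · intro i j
        exact star_zero B
      · intro i j k l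
        simp
      · simp
      · simp
    · intro x _ i j
      exact Commute.zero_right x
  | succ N ih =>
    obtain ⟨ψ', W', h0, h1, h2, h3, h4⟩ := ih (fun k => φ k.castSucc) (fun k => hφ _)
      (fun k l hkl i j i' j' => hc _ _ (fun h => hkl (Fin.castSucc_injective N h)) i j i' j')
    have hcomm : ∀ i j k l, Commute (ψ' i j) (φ (Fin.last N) k l) := by
      intro i j k l
      refine (h1 (φ (Fin.last N) k l) (fun m i' j' => ?_) i j).symm
      exact hc _ _ (Fin.castSucc_lt_last m).ne' _ _ _ _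
    obtain ⟨ψ, WN, g0', g1, g2, g3, g4⟩ := h0.join (hφ (Fin.last N)) hcomm
    have hsum : ∀ y, (∑ a, ψ' a a) * y = y → (∑ a, ψ a a) * y = y := by
      intro y hy
      have := g2 y hy
      rw [Finset.sum_mul, Finset.sum_congr rfl fun a _ => this a a, ← Finset.sum_mul, hy]
    obtain ⟨W, hWl, hWc⟩ : ∃ W : Fin (N + 1) → B, W (Fin.last N) = WN ∧
        ∀ k : Fin N, W k.castSucc = W' k :=
      ⟨Fin.snoc (α := fun _ => B) W' WN, Fin.snoc_last _ _, fun k => Fin.snoc_castSucc _ _ _⟩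
    refine ⟨ψ, W, g0', ?_, ?_, ?_, ?_⟩
    · intro x hx i j
      exact (g1 x fun i j => ⟨h1 x (fun l i j => hx _ i j) i j, hx _ i j⟩).1 i j
    · intro k
      refine Fin.lastCases ?_ (fun k => ?_) k
      · intro x hx
        rw [hWl]
        exact (g1 x fun i j => ⟨h1 x (fun l i j => hx _ (Fin.le_last _) i j) i j,
          hx _ le_rfl i j⟩).2
      · intro x hx
        rw [hWc]
        exact h2 k x fun l hl i j => hx _ (by simpa using hl) i j
    · intro k
      refine Fin.lastCases ?_ (fun k => ?_) k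
      · intro x hx
        rw [hWl]
        exact g3 x hx
      · intro x hx
        rw [hWc]
        obtain ⟨e1, e2⟩ := h3 k x hx
        refine ⟨e1, fun i j => ?_⟩
        have e3 : (∑ a, ψ' a a) * (W' k * x) = W' k * x := by
          rw [Finset.sum_mul, Finset.sum_congr rfl fun a _ => e2 a a, ← Finset.mul_sum,
            ← Finset.sum_mul, hx]
        rw [g2 _ e3 i j, e2]
    · intro k
      refine Fin.lastCases ?_ (fun k => ?_) k
      · exact g4
      · exact hsum _ (h4 k)

theorem exists_iterate {n : ℕ} (N : ℕ) (φ : Fin N → Fin n → Fin n → B) (hφ : ∀ k, IsOZ (φ k))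
    (hc : ∀ k l, k ≠ l → ∀ i j i' j', Commute (φ k i j) (φ l i' j')) :
    ∃ (ψ : Fin n → Fin n → B) (W : Fin N → B), IsOZ ψ ∧
      (∀ k x, (∀ l ≤ k, ∀ i j, Commute x (φ l i j)) → Commute x (W k)) ∧
      (∀ k x, (∑ a, φ k a a) * x = x → star (W k) * (W k * x) = x ∧
        ∀ i j, ψ i j * (W k * x) = W k * (φ k i j * x)) ∧
      (∀ k, (∑ a, ψ a a) * cfc g0 (∑ a, φ k a a) = cfc g0 (∑ a, φ k a a)) := by
  obtain ⟨ψ, W, h0, -, h⟩ := exists_iterate_aux N φ hφ hc
  exact ⟨ψ, W, h0, h⟩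

end Vale.Agent.P101
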