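import Mathlib

/-!
# P101: ordered products of elements of pairwise commuting star subalgebras
-/

namespace Vale.Agent.P101

variable {ι : Type*} {B : Type*} [CStarAlgebra B]

/-- The members of the family commute elementwise. -/
def CommFam (D : ι → StarSubalgebra ℂ B) : Prop :=
  ∀ k l, k ≠ l → ∀ a ∈ D k, ∀ b ∈ D l, Commute a b

/-- The product of `v` along the list `l`. -/
def pl (l : List ι) (v : ι → B) : B := (l.map v).prod

theorem CommFam.commute_pl {D : ι → StarSubalgebra ℂ B} (hD : CommFam D) {v : ι → B}
    (hv : ∀ s, v s ∈ D s) {s : ι} {d : B} (hd : d ∈ D s) (l : List ι) (hl : s ∉ l) :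
    Commute d (pl l v) := by
  refine Commute.list_prod_right _ _ ?_
  intro y hy
  obtain ⟨t, ht, rfl⟩ := List.mem_map.1 hy
  have hst : s ≠ t := by
    rintro rfl
    exact hl ht
  exact hD s t hst d hd _ (hv t)

theorem commute_pl_of_forall {x : B} {v : ι → B} (h : ∀ s, Commute x (v s)) (l : List ι) :
    Commute x (pl l v) := by
  refine Commute.list_prod_right _ _ ?_
  intro y hy
  obtain ⟨t, -, rfl⟩ := List.mem_map.1 hy
  exact h t

theorem CommFam.pl_mul {D : ι → StarSubalgebra ℂ B} (hD : CommFam D) {u v : ι → B}
    (hu : ∀ s, u s ∈ D s) (hv : ∀ s, v s ∈ D s) (l : List ι) (hl : l.Nodup) :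
    pl l u * pl l v = pl l (fun k => u k * v k) := by
  induction l with
  | nil => simp [pl]
  | cons t l ih =>
    rw [List.nodup_cons] at hl
    have h1 : v t * pl l u = pl l u * v t := hD.commute_pl hu (hv t) l hl.1
    have ih' := ih hl.2
    simp only [pl, List.map_cons, List.prod_cons] at *
    rw [← ih']
    calc u t * (List.map u l).prod * (v t * (List.map v l).prod)
        = u t * ((List.map u l).prod * v t) * (List.map v l).prod := by noncomm_ring
      _ = u t * (v t * (List.map u l).prod) * (List.map v l).prod := by rw [h1]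
      _ = u t * v t * ((List.map u l).prod * (List.map v l).prod) := by noncomm_ring

theorem CommFam.star_pl {D : ι → StarSubalgebra ℂ B} (hD : CommFam D) {v : ι → B}
    (hv : ∀ s, v s ∈ D s) (l : List ι) (hl : l.Nodup) :
    star (pl l v) = pl l (fun k => star (v k)) := by
  induction l with
  | nil => simp [pl]
  | cons t l ih =>
    rw [List.nodup_cons] at hl
    have hv' : ∀ s, star (v s) ∈ D s := fun s => star_mem (hv s)
    have h1 : star (v t) * pl l (fun k => star (v k)) = pl l (fun k => star (v k)) * star (v t) :=
      hD.commute_pl hv' (hv' t) l hl.1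
    have ih' := ih hl.2
    simp only [pl, List.map_cons, List.prod_cons] at *
    rw [star_mul, ih', h1]

theorem CommFam.mul_pl [DecidableEq ι] {D : ι → StarSubalgebra ℂ B} (hD : CommFam D) {v : ι → B}
    (hv : ∀ s, v s ∈ D s) {s : ι} {d : B} (hd : d ∈ D s) (l : List ι) (hl : l.Nodup)
    (hs : s ∈ l) : d * pl l v = pl l (Function.update v s (d * v s)) := by
  induction l with
  | nil => simp at hs
  | cons t l ih =>
    rw [List.nodup_cons] at hl
    by_cases hts : t = s
    · subst hts
      have h2 : l.map (Function.update v t (d * v t)) = l.map v := by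
        apply List.map_congr_left
        intro a ha
        apply Function.update_of_ne
        rintro rfl
        exact hl.1 ha
      simp only [pl, List.map_cons, List.prod_cons]
      rw [h2, Function.update_self, mul_assoc]
    · have hs' : s ∈ l := by
        rcases List.mem_cons.1 hs with h | h
        · exact absurd h.symm hts
        · exact h
      have ih' := ih hl.2 hs'
      have h3 : d * v t = v t * d := hD s t (Ne.symm hts) d hd _ (hv t)
      simp only [pl, List.map_cons, List.prod_cons] at *
      rw [Function.update_of_ne hts, ← ih', ← mul_assoc, h3, mul_assoc]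

theorem pl_eq_zero {v : ι → B} (l : List ι) {s : ι} (hs : s ∈ l) (h : v s = 0) :
    pl l v = 0 :=
  List.prod_eq_zero (List.mem_map.2 ⟨s, hs, h⟩)

theorem pl_congr {u v : ι → B} (l : List ι) (h : ∀ s ∈ l, u s = v s) : pl l u = pl l v := by
  unfold pl
  rw [List.map_congr_left h]

theorem pl_one (l : List ι) : pl l (fun _ => (1 : B)) = 1 := by
  unfold pl
  simp

variable [PartialOrder B] [StarOrderedRing B]

theorem CommFam.pl_nonneg {D : ι → StarSubalgebra ℂ B} (hD : CommFam D) {v : ι → B}
    (hv : ∀ s, v s ∈ D s) (h0 : ∀ s, 0 ≤ v s) (l : List ι) (hl : l.Nodup) : 0 ≤ pl l v := by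
  induction l with
  | nil => simp [pl]
  | cons t l ih =>
    rw [List.nodup_cons] at hl
    have h1 : Commute (v t) (pl l v) := hD.commute_pl hv (hv t) l hl.1
    have ih' := ih hl.2
    have : pl (t :: l) v = v t * pl l v := by
      simp [pl]
    rw [this]
    exact Commute.mul_nonneg (h0 t) ih' h1

end Vale.Agent.P101
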