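import Mathlib
import Vale.Agent.P101.Copies

/-!
# P101, Step 4: orthogonal full elements give tuples
-/

open TopologicalSpace

namespace Vale.Agent.P101

section Basic

variable {B : Type*} [CStarAlgebra B] [PartialOrder B] [StarOrderedRing B]

/-- Positivity is preserved by `*`-homomorphisms out of closed star subalgebras. -/
theorem map_nonneg_of_isClosed {C : Type*} [CStarAlgebra C] [PartialOrder C] [StarOrderedRing C]
    {S : StarSubalgebra ℂ B} (hS : IsClosed (S : Set B)) (Φ : S →⋆ₐ[ℂ] C) (x : S)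
    (hx : 0 ≤ (x : B)) : 0 ≤ Φ x := by
  have : IsClosed (S : Set B) := hS
  have hmem : CFC.sqrt (x : B) ∈ S := by
    rw [CFC.sqrt_eq_real_sqrt _ hx, cfcₙ_eq_cfc]
    exact cfc_mem _ x.2
  have h1 : (x : B) = star (CFC.sqrt (x : B)) * CFC.sqrt (x : B) := by
    rw [(CFC.sqrt_nonneg (x : B)).isSelfAdjoint.star_eq, CFC.sqrt_mul_sqrt_self _ hx]
  have h2 : x = star (⟨_, hmem⟩ : S) * ⟨_, hmem⟩ := Subtype.ext h1
  rw [h2, map_mul, map_star]
  exact star_mul_self_nonneg _

theorem map_le_one_of_isClosed {C : Type*} [CStarAlgebra C] [PartialOrder C] [StarOrderedRing C]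
    {S : StarSubalgebra ℂ B} (hS : IsClosed (S : Set B)) (Φ : S →⋆ₐ[ℂ] C) (x : S)
    (hx : (x : B) ≤ 1) : Φ x ≤ 1 := by
  have := map_nonneg_of_isClosed hS Φ (1 - x) (by simpa using hx)
  rw [map_sub, map_one] at this
  simpa using this

/-- Normalisation of a lower bound. -/
theorem exists_normalise {m : ℕ} {h : B} (c : Fin m → B) {ε : ℝ} (hε : 0 < ε)
    (hR : algebraMap ℝ B ε ≤ ∑ j, star (c j) * h * c j) :
    ∃ y : Fin m → B, ∑ j, star (y j) * h * y j = 1 := by
  set R := ∑ j, star (c j) * h * c j with hRdef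
  have hpos : IsStrictlyPositive R := (isStrictlyPositive_algebraMap hε).of_le hR
  have hsa : IsSelfAdjoint (R ^ (-(1 / 2) : ℝ)) := (CFC.rpow_nonneg).isSelfAdjoint
  obtain ⟨Q, hQ, hQR⟩ : ∃ Q : B, IsSelfAdjoint Q ∧ Q * R * Q = 1 :=
    ⟨_, hsa, CFC.conjugate_rpow_neg_one_half R hpos⟩
  refine ⟨fun j => c j * Q, ?_⟩
  rw [← hQR, hRdef, Finset.mul_sum, Finset.sum_mul]
  refine Finset.sum_congr rfl fun j _ => ?_
  rw [star_mul, hQ.star_eq]
  simp only [mul_assoc]

/-- A positive full element is full in the symmetric sense. -/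
theorem exists_sum_eq_one_of_isFull {h : B} (hh : 0 ≤ h) (hf : IsFull h) :
    ∃ (m : ℕ) (y : Fin m → B), ∑ j, star (y j) * h * y j = 1 := by
  obtain ⟨n, a, b, hab⟩ := hf
  refine ⟨n + n, exists_normalise (Fin.append (fun i => star (a i)) b) (ε := 1) one_pos ?_⟩
  have key : ∀ i, a i * h * b i + star (a i * h * b i)
      ≤ a i * h * star (a i) + star (b i) * h * b i := by
    intro i
    have h0 := star_left_conjugate_nonneg hh (star (a i) - b i)
    have e : star (star (a i) - b i) * h * (star (a i) - b i)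
        = (a i * h * star (a i) + star (b i) * h * b i)
          - (a i * h * b i + star (a i * h * b i)) := by
      rw [star_sub, star_star, star_mul, star_mul, hh.isSelfAdjoint.star_eq]
      noncomm_ring
    rw [e] at h0
    exact sub_nonneg.1 h0
  have h2 : ∑ i, (a i * h * b i + star (a i * h * b i))
      ≤ ∑ i, (a i * h * star (a i) + star (b i) * h * b i) := Finset.sum_le_sum fun i _ => key i
  rw [Finset.sum_add_distrib, ← star_sum, hab, star_one] at h2
  rw [Fin.sum_univ_add]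
  simp only [Fin.append_left, Fin.append_right, star_star]
  rw [← Finset.sum_add_distrib, map_one]
  exact (le_add_of_nonneg_left zero_le_one).trans h2

/-- A square zero full element, and its square norm. -/
theorem isFull_star_mul_self {x : B} (hx : IsFull x) : IsFull (star x * x) := by
  rw [isFull_iff] at hx ⊢
  intro M hM hmem
  apply hx M hM
  have hcl := isClosed_of_isCoatom hM
  -- `x` is the limit of `x * f_n(h)`, `f_n(h) ∈ M`
  have hh : 0 ≤ star x * x := star_mul_self_nonneg x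
  set h := star x * x with hdef
  have hsa : IsSelfAdjoint h := hh.isSelfAdjoint
  have hspec : ∀ t ∈ spectrum ℝ h, 0 ≤ t := fun t ht => spectrum_nonneg_of_nonneg hh ht
  have key : ∀ ε : ℝ, 0 < ε → ∃ y ∈ M, ‖x - y‖ * ‖x - y‖ ≤ ε := by
    intro ε hε
    have hc : ContinuousOn (fun t : ℝ => (t + ε)⁻¹) (spectrum ℝ h) := by
      refine ContinuousOn.inv₀ (by fun_prop) fun t ht => ?_
      have := hspec t ht
      positivity
    have hgsa : IsSelfAdjoint (cfc (fun t : ℝ => (t + ε)⁻¹) h) := cfc_predicate _ _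
    set g := cfc (fun t : ℝ => (t + ε)⁻¹) h with hg
    refine ⟨x * (h * g), M.mul_mem_left _ _ (M.mul_mem_right _ _ hmem), ?_⟩
    have hid : cfc (fun t : ℝ => t) h = h := cfc_id' ℝ h
    have hgh : h * g = cfc (fun t : ℝ => t * (t + ε)⁻¹) h := by
      rw [cfc_mul (fun t : ℝ => t) (fun t : ℝ => (t + ε)⁻¹) h continuousOn_id hc, hid]
    have e1 : 1 - h * g = cfc (fun t : ℝ => ε * (t + ε)⁻¹) h := by
      rw [hgh, ← cfc_one ℝ h, ← cfc_sub (1 : ℝ → ℝ) (fun t : ℝ => t * (t + ε)⁻¹) h
        continuousOn_const (continuousOn_id.mul hc)]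
      refine cfc_congr fun t ht => ?_
      have := hspec t ht
      have h0 : t + ε ≠ 0 := by positivity
      simp only [Pi.one_apply]
      field_simp
      ring
    have e2 : star (x - x * (h * g)) * (x - x * (h * g))
        = cfc (fun t : ℝ => (ε * (t + ε)⁻¹) * t * (ε * (t + ε)⁻¹)) h := by
      have e3 : x - x * (h * g) = x * (1 - h * g) := by rw [mul_sub, mul_one]
      have e4 : IsSelfAdjoint (1 - h * g) := by
        rw [e1]
        exact cfc_predicate _ _
      rw [e3, star_mul, e4.star_eq]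
      have hc' : ContinuousOn (fun t : ℝ => ε * (t + ε)⁻¹) (spectrum ℝ h) :=
        continuousOn_const.mul hc
      calc (1 - h * g) * star x * (x * (1 - h * g)) = (1 - h * g) * h * (1 - h * g) := by
            rw [hdef]
            simp only [mul_assoc]
        _ = cfc (fun t : ℝ => ε * (t + ε)⁻¹) h * cfc (fun t : ℝ => t) h
            * cfc (fun t : ℝ => ε * (t + ε)⁻¹) h := by rw [e1, hid]
        _ = _ := by
            rw [← cfc_mul (fun t : ℝ => ε * (t + ε)⁻¹) (fun t : ℝ => t) h hc' continuousOn_id,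
              ← cfc_mul (fun t : ℝ => ε * (t + ε)⁻¹ * t) (fun t : ℝ => ε * (t + ε)⁻¹) h
                (hc'.mul continuousOn_id) hc']
    rw [← CStarRing.norm_star_mul_self, e2]
    refine norm_cfc_le hε.le fun t ht => ?_
    have h0 := hspec t ht
    have h1 : 0 < t + ε := by positivity
    rw [Real.norm_eq_abs, abs_of_nonneg (by positivity)]
    have h2 : ε * (t + ε)⁻¹ ≤ 1 := by
      rw [← div_eq_mul_inv, div_le_one h1]
      linarith
    have h3 : t * (t + ε)⁻¹ ≤ 1 := by
      rw [← div_eq_mul_inv, div_le_one h1]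
      linarith
    calc ε * (t + ε)⁻¹ * t * (ε * (t + ε)⁻¹)
        = (t * (t + ε)⁻¹) * (ε * (ε * (t + ε)⁻¹)) := by ring
      _ ≤ 1 * (ε * 1) := by gcongr
      _ = ε := by ring
  have : x ∈ closure (M : Set B) := by
    rw [Metric.mem_closure_iff]
    intro ε hε
    obtain ⟨y, hy, hxy⟩ := key (ε * ε / 4) (by positivity)
    refine ⟨y, hy, ?_⟩
    rw [dist_eq_norm]
    nlinarith [norm_nonneg (x - y)]
  rwa [hcl.closure_eq] at this

/-- The square of a positive full element is full. -/
theorem isFull_mul_self {e : B} (he : 0 ≤ e) (hf : IsFull e) : IsFull (e * e) := by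
  have := isFull_star_mul_self hf
  rwa [he.isSelfAdjoint.star_eq] at this

end Basic

section ClosedAlg

variable {B : Type*} [CStarAlgebra B]

/-- The closed star subalgebra generated by a set. -/
noncomputable def closedAlg (s : Set B) : StarSubalgebra ℂ B :=
  (StarAlgebra.adjoin ℂ s).topologicalClosure

theorem isClosed_closedAlg (s : Set B) : IsClosed (closedAlg s : Set B) :=
  StarSubalgebra.isClosed_topologicalClosure _

theorem subset_closedAlg (s : Set B) : s ⊆ closedAlg s :=
  (StarAlgebra.subset_adjoin ℂ s).trans (StarSubalgebra.le_topologicalClosure _)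

theorem isSeparable_closedAlg {s : Set B} (hs : s.Finite) : IsSeparable (closedAlg s : Set B) :=
  isSeparable_topologicalClosure_adjoin_finite hs

/-- Two commuting copies of the algebra generated by a finite set. -/
theorem exists_two_copies (hcc : HasCommutingCopies B) {s : Set B} (hs : s.Finite) :
    ∃ Φ Ψ : closedAlg s →⋆ₐ[ℂ] B, ∀ x y, Commute (Φ x) (Ψ y) := by
  obtain ⟨Φ, hΦ, -⟩ := exists_commuting_copies hcc (closedAlg s) (isClosed_closedAlg s)
    (isSeparable_closedAlg hs) 2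
  exact ⟨Φ 0, Φ 1, fun x y => hΦ 0 1 (by decide) x y⟩

end ClosedAlg

section Pre

variable {B : Type*} [CStarAlgebra B] [PartialOrder B] [StarOrderedRing B]

/-- Orthogonal full positive elements in abundance give a full element of square zero. -/
theorem exists_square_zero (hcc : HasCommutingCopies B)
    (horth : ∀ L : ℕ, ∃ e : Fin L → B, (∀ i, 0 ≤ e i ∧ ‖e i‖ ≤ 1) ∧
      (∀ i j, i ≠ j → e i * e j = 0) ∧ ∀ i, IsFull (e i)) :
    ∃ x : B, x * x = 0 ∧ IsFull x := by
  obtain ⟨pq, -, hpq, hpqf⟩ := horth 2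
  set p := pq 0
  set q := pq 1
  have hpq0 : p * q = 0 := hpq 0 1 (by decide)
  obtain ⟨k, a, b, hab⟩ := hpqf 0
  obtain ⟨l, c, d, hcd⟩ := hpqf 1
  obtain ⟨e, he, heo, hef⟩ := horth k
  have hef2 : ∀ i, IsFull (e i * e i) := fun i => isFull_mul_self (he i).1 (hef i)
  choose r f g hfg using hef2
  let s : Set B := {p, q} ∪ Set.range a ∪ Set.range b ∪ Set.range c ∪ Set.range d
    ∪ Set.range e ∪ (⋃ i, Set.range (f i)) ∪ (⋃ i, Set.range (g i))
  have hs : s.Finite := by
    refine Set.Finite.union (Set.Finite.union (Set.Finite.union (Set.Finite.union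
      (Set.Finite.union (Set.Finite.union (Set.Finite.union ?_ ?_) ?_) ?_) ?_) ?_) ?_) ?_
    · exact Set.toFinite _
    all_goals first
      | exact Set.finite_range _
      | exact Set.finite_iUnion fun i => Set.finite_range _
  obtain ⟨Φ, Ψ, hc⟩ := exists_two_copies hcc hs
  have hsub := subset_closedAlg s
  have hp : p ∈ closedAlg s := hsub (by simp [s])
  have hq : q ∈ closedAlg s := hsub (by simp [s])
  have ha : ∀ i, a i ∈ closedAlg s := fun i => hsub (by simp [s])
  have hb : ∀ i, b i ∈ closedAlg s := fun i => hsub (by simp [s])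
  have hcm : ∀ i, c i ∈ closedAlg s := fun i => hsub (by simp [s])
  have hd : ∀ i, d i ∈ closedAlg s := fun i => hsub (by simp [s])
  have hem : ∀ i, e i ∈ closedAlg s := fun i => hsub (by simp [s])
  have hf : ∀ i j, f i j ∈ closedAlg s := fun i j =>
    hsub (Or.inl (Or.inr (Set.mem_iUnion.2 ⟨i, j, rfl⟩)))
  have hg : ∀ i j, g i j ∈ closedAlg s := fun i j =>
    hsub (Or.inr (Set.mem_iUnion.2 ⟨i, j, rfl⟩))
  -- elements of the generated algebra
  let P : closedAlg s := ⟨p, hp⟩
  let Q : closedAlg s := ⟨q, hq⟩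
  let a' : Fin k → closedAlg s := fun i => ⟨a i, ha i⟩
  let b' : Fin k → closedAlg s := fun i => ⟨b i, hb i⟩
  let c' : Fin l → closedAlg s := fun i => ⟨c i, hcm i⟩
  let d' : Fin l → closedAlg s := fun i => ⟨d i, hd i⟩
  let e' : Fin k → closedAlg s := fun i => ⟨e i, hem i⟩
  obtain ⟨D, hD⟩ : ∃ D : Fin k → closedAlg s, ∀ i, D i = Q * a' i * P := ⟨_, fun _ => rfl⟩
  have hPQ : P * Q = 0 := Subtype.ext hpq0
  have hDD : ∀ i, D i * D i = 0 := by
    intro i
    calc D i * D i = Q * a' i * (P * Q) * a' i * P := by simp only [hD, mul_assoc]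
      _ = 0 := by rw [hPQ]; simp
  have hee : ∀ i j, i ≠ j → e' i * e' j = 0 := fun i j hij => Subtype.ext (heo i j hij)
  have hab' : ∑ i, a' i * P * b' i = 1 := by
    apply Subtype.ext
    simpa using hab
  have hcd' : ∑ i, c' i * Q * d' i = 1 := by
    apply Subtype.ext
    simpa using hcd
  have hfg' : ∀ i, ∑ j, (⟨f i j, hf i j⟩ : closedAlg s) * (e' i * e' i) * ⟨g i j, hg i j⟩ = 1 := by
    intro i
    apply Subtype.ext
    simpa using hfg i
  refine ⟨∑ i, Φ (D i) * Ψ (e' i), ?_, ?_⟩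
  · rw [Finset.sum_mul]
    refine Finset.sum_eq_zero fun i _ => ?_
    rw [Finset.mul_sum]
    refine Finset.sum_eq_zero fun j _ => ?_
    calc Φ (D i) * Ψ (e' i) * (Φ (D j) * Ψ (e' j))
        = Φ (D i) * Φ (D j) * (Ψ (e' i) * Ψ (e' j)) := by
          rw [mul_assoc, ← mul_assoc (Ψ (e' i)), ← (hc (D j) (e' i)).eq]
          simp only [mul_assoc]
      _ = Φ (D i * D j) * Ψ (e' i * e' j) := by rw [map_mul, map_mul]
      _ = 0 := by
          rcases eq_or_ne i j with rfl | hij
          · rw [hDD, map_zero, zero_mul]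
          · rw [hee i j hij, map_zero, mul_zero]
  · rw [isFull_iff]
    intro M hM hmem
    have h1 : ∀ i, Φ (D i) * Ψ (e' i * e' i) ∈ M := by
      intro i
      have h2 := M.mul_mem_right _ (Ψ (e' i)) hmem
      rw [Finset.sum_mul, Finset.sum_eq_single i] at h2
      · rwa [mul_assoc, ← map_mul] at h2
      · intro j _ hji
        rw [mul_assoc, ← map_mul, hee j i hji, map_zero, mul_zero]
      · simp
    have h2 : ∀ i, Φ (D i) ∈ M := by
      intro i
      have h3 : Φ (D i) = ∑ j, Ψ ⟨f i j, hf i j⟩ * (Φ (D i) * Ψ (e' i * e' i))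
          * Ψ ⟨g i j, hg i j⟩ := by
        calc Φ (D i) = Φ (D i) * Ψ (∑ j, (⟨f i j, hf i j⟩ : closedAlg s) * (e' i * e' i)
              * ⟨g i j, hg i j⟩) := by rw [hfg', map_one, mul_one]
          _ = _ := by
            rw [map_sum, Finset.mul_sum]
            refine Finset.sum_congr rfl fun j _ => ?_
            rw [map_mul, map_mul, ← mul_assoc (Ψ ⟨f i j, hf i j⟩) (Φ (D i)),
              ← (hc (D i) ⟨f i j, hf i j⟩).eq]
            simp only [mul_assoc]
      rw [h3]
      exact sum_mem fun j _ => M.mul_mem_right _ _ (M.mul_mem_left _ _ (h1 i))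
    have h3 : Φ Q ∈ M := by
      have : Q = ∑ i, D i * b' i := by
        calc Q = Q * ∑ i, a' i * P * b' i := by rw [hab', mul_one]
          _ = _ := by
            rw [Finset.mul_sum]
            refine Finset.sum_congr rfl fun i _ => ?_
            simp only [hD, mul_assoc]
      rw [this, map_sum]
      exact sum_mem fun i _ => by
        rw [map_mul]
        exact M.mul_mem_right _ _ (h2 i)
    apply one_notMem_of_isCoatom hM
    have : (1 : B) = ∑ i, Φ (c' i) * Φ Q * Φ (d' i) := by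
      rw [← map_one Φ, ← hcd', map_sum]
      simp only [map_mul]
    rw [this]
    exact sum_mem fun i _ => M.mul_mem_right _ _ (M.mul_mem_left _ _ h3)

/-- Pre-tuples indexed by `ι`. -/
def HasPre (B : Type*) [CStarAlgebra B] (ι : Type) : Prop :=
  ∃ (m : ℕ) (w : B) (z : ι → B) (y : Fin m → B),
    (∀ i, star (z i) * z i = w) ∧ (∀ i j, i ≠ j → star (z i) * z j = 0) ∧
      ∑ j, star (y j) * w * y j = 1

omit [PartialOrder B] [StarOrderedRing B] in
theorem HasPre.comap {ι κ : Type} (h : HasPre B κ) (f : ι → κ) (hf : Function.Injective f) :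
    HasPre B ι := by
  obtain ⟨m, w, z, y, h1, h2, h3⟩ := h
  exact ⟨m, w, z ∘ f, y, fun i => h1 _, fun i j hij => h2 _ _ (hf.ne hij), h3⟩

theorem hasPre_two (hcc : HasCommutingCopies B)
    (horth : ∀ L : ℕ, ∃ e : Fin L → B, (∀ i, 0 ≤ e i ∧ ‖e i‖ ≤ 1) ∧
      (∀ i j, i ≠ j → e i * e j = 0) ∧ ∀ i, IsFull (e i)) : HasPre B (Fin 2) := by
  obtain ⟨x, hx0, hxf⟩ := exists_square_zero hcc horth
  have hh : 0 ≤ star x * x := star_mul_self_nonneg x
  obtain ⟨m, y, hy⟩ := exists_sum_eq_one_of_isFull hh (isFull_star_mul_self hxf)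
  have hr : 0 ≤ CFC.sqrt (star x * x) := CFC.sqrt_nonneg _
  have hrr : CFC.sqrt (star x * x) * CFC.sqrt (star x * x) = star x * x :=
    CFC.sqrt_mul_sqrt_self _ hh
  set r := CFC.sqrt (star x * x) with hrdef
  have hrx : r * x = 0 := by
    rw [← norm_eq_zero, ← mul_self_eq_zero, ← CStarRing.norm_star_mul_self, norm_eq_zero, star_mul,
      hr.isSelfAdjoint.star_eq]
    calc star x * r * (r * x) = star x * (r * r) * x := by simp only [mul_assoc]
      _ = star x * star x * (x * x) := by rw [hrr]; simp only [mul_assoc]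
      _ = 0 := by rw [hx0, mul_zero]
  refine ⟨m, star x * x, ![r, x], y, ?_, ?_, hy⟩
  · intro i
    fin_cases i
    · simpa [hr.isSelfAdjoint.star_eq] using hrr
    · simp
  · intro i j hij
    fin_cases i <;> fin_cases j
    · exact absurd rfl hij
    · simpa [hr.isSelfAdjoint.star_eq] using hrx
    · have : star (r * x) = 0 := by rw [hrx, star_zero]
      rw [star_mul, hr.isSelfAdjoint.star_eq] at this
      simpa using this
    · exact absurd rfl hij

omit [PartialOrder B] [StarOrderedRing B] in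
theorem HasPre.prod (hcc : HasCommutingCopies B) {ι κ : Type} [Finite ι] [Finite κ]
    (h : HasPre B ι) (h' : HasPre B κ) : HasPre B (ι × κ) := by
  obtain ⟨m, w, z, y, h1, h2, h3⟩ := h
  obtain ⟨m', w', z', y', h1', h2', h3'⟩ := h'
  let s : Set B := {w, w'} ∪ Set.range z ∪ Set.range z' ∪ Set.range y ∪ Set.range y'
  have hs : s.Finite := by
    refine Set.Finite.union (Set.Finite.union (Set.Finite.union (Set.Finite.union ?_ ?_) ?_) ?_) ?_
    · exact Set.toFinite _
    all_goals exact Set.finite_range _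
  obtain ⟨Φ, Ψ, hc⟩ := exists_two_copies hcc hs
  have hsub := subset_closedAlg s
  have hw : w ∈ closedAlg s := hsub (by simp [s])
  have hw' : w' ∈ closedAlg s := hsub (by simp [s])
  have hz : ∀ i, z i ∈ closedAlg s := fun i => hsub (by simp [s])
  have hz' : ∀ i, z' i ∈ closedAlg s := fun i => hsub (by simp [s])
  have hy : ∀ i, y i ∈ closedAlg s := fun i => hsub (by simp [s])
  have hy' : ∀ i, y' i ∈ closedAlg s := fun i => hsub (by simp [s])
  obtain ⟨W, hW⟩ : ∃ W : closedAlg s, (W : B) = w := ⟨⟨w, hw⟩, rfl⟩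
  obtain ⟨W', hW'⟩ : ∃ W : closedAlg s, (W : B) = w' := ⟨⟨w', hw'⟩, rfl⟩
  obtain ⟨Z, hZ⟩ : ∃ Z : ι → closedAlg s, ∀ i, (Z i : B) = z i := ⟨fun i => ⟨_, hz i⟩, fun _ => rfl⟩
  obtain ⟨Z', hZ'⟩ : ∃ Z : κ → closedAlg s, ∀ i, (Z i : B) = z' i :=
    ⟨fun i => ⟨_, hz' i⟩, fun _ => rfl⟩
  obtain ⟨Y, hY⟩ : ∃ Y : Fin m → closedAlg s, ∀ i, (Y i : B) = y i :=
    ⟨fun i => ⟨_, hy i⟩, fun _ => rfl⟩
  obtain ⟨Y', hY'⟩ : ∃ Y : Fin m' → closedAlg s, ∀ i, (Y i : B) = y' i :=
    ⟨fun i => ⟨_, hy' i⟩, fun _ => rfl⟩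
  have e1 : ∀ i, star (Z i) * Z i = W := fun i => Subtype.ext (by simpa [hZ, hW] using h1 i)
  have e2 : ∀ i j, i ≠ j → star (Z i) * Z j = 0 := fun i j hij =>
    Subtype.ext (by simpa [hZ] using h2 i j hij)
  have e3 : ∑ j, star (Y j) * W * Y j = 1 := Subtype.ext (by simpa [hY, hW] using h3)
  have e1' : ∀ i, star (Z' i) * Z' i = W' := fun i => Subtype.ext (by simpa [hZ', hW'] using h1' i)
  have e2' : ∀ i j, i ≠ j → star (Z' i) * Z' j = 0 := fun i j hij =>
    Subtype.ext (by simpa [hZ'] using h2' i j hij)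
  have e3' : ∑ j, star (Y' j) * W' * Y' j = 1 := Subtype.ext (by simpa [hY', hW'] using h3')
  have key : ∀ a b c d, star (Φ a * Ψ b) * (Φ c * Ψ d) = Φ (star a * c) * Ψ (star b * d) := by
    intro a b c d
    rw [star_mul, ← map_star, ← map_star, map_mul, map_mul, ← (hc (star a) (star b)).eq]
    calc Φ (star a) * Ψ (star b) * (Φ c * Ψ d) = Φ (star a) * (Ψ (star b) * Φ c) * Ψ d := by
          simp only [mul_assoc]
      _ = Φ (star a) * (Φ c * Ψ (star b)) * Ψ d := by rw [(hc c (star b)).eq]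
      _ = _ := by simp only [mul_assoc]
  refine ⟨m * m', Φ W * Ψ W', fun i => Φ (Z i.1) * Ψ (Z' i.2),
    fun j => Φ (Y (finProdFinEquiv.symm j).1) * Ψ (Y' (finProdFinEquiv.symm j).2), ?_, ?_, ?_⟩
  · intro i
    rw [key, e1, e1']
  · intro i j hij
    rw [key]
    by_cases h : i.1 = j.1
    · have h' : i.2 ≠ j.2 := fun h' => hij (Prod.ext h h')
      rw [e2' _ _ h', map_zero, mul_zero]
    · rw [e2 _ _ h, map_zero, zero_mul]
  · rw [← Equiv.sum_comp finProdFinEquiv]
    simp only [Equiv.symm_apply_apply]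
    rw [Fintype.sum_prod_type]
    have e4 : ∀ j j', star (Φ (Y j) * Ψ (Y' j')) * (Φ W * Ψ W') * (Φ (Y j) * Ψ (Y' j'))
        = Φ (star (Y j) * W * Y j) * Ψ (star (Y' j') * W' * Y' j') := by
      intro j j'
      rw [key]
      calc Φ (star (Y j) * W) * Ψ (star (Y' j') * W') * (Φ (Y j) * Ψ (Y' j'))
          = Φ (star (Y j) * W) * (Ψ (star (Y' j') * W') * Φ (Y j)) * Ψ (Y' j') := by
            simp only [mul_assoc]
        _ = Φ (star (Y j) * W) * (Φ (Y j) * Ψ (star (Y' j') * W')) * Ψ (Y' j') := by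
            rw [(hc (Y j) _).eq]
        _ = (Φ (star (Y j) * W) * Φ (Y j)) * (Ψ (star (Y' j') * W') * Ψ (Y' j')) := by
            simp only [mul_assoc]
        _ = _ := by rw [← map_mul, ← map_mul]
    simp only [e4]
    simp only [← Finset.mul_sum, ← map_sum, e3', map_one, mul_one, e3]

omit [PartialOrder B] [StarOrderedRing B] in
theorem hasPre_fin (hcc : HasCommutingCopies B) (h2 : HasPre B (Fin 2)) (n : ℕ) :
    HasPre B (Fin n) := by
  have h : ∀ K : ℕ, HasPre B (Fin K → Fin 2) := by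
    intro K
    induction K with
    | zero =>
      exact ⟨1, 1, fun _ => 1, fun _ => 1, by simp, fun i j hij => absurd (Subsingleton.elim i j) hij,
        by simp⟩
    | succ K ih =>
      refine (HasPre.prod hcc h2 ih).comap (Fin.consEquiv fun _ => Fin 2).symm ?_
      exact (Fin.consEquiv fun _ => Fin 2).symm.injective
  refine (h n).comap (fun i j => if i = j then 1 else 0) ?_
  intro i j hij
  have := congrFun hij i
  by_contra hne
  simp [Ne.symm hne] at this

end Pre

section Final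

variable {B : Type*} [CStarAlgebra B] [PartialOrder B] [StarOrderedRing B]

theorem exists_tuple (hcc : HasCommutingCopies B)
    (horth : ∀ L : ℕ, ∃ e : Fin L → B, (∀ i, 0 ≤ e i ∧ ‖e i‖ ≤ 1) ∧
      (∀ i j, i ≠ j → e i * e j = 0) ∧ ∀ i, IsFull (e i)) (n : ℕ) :
    ∃ (m : ℕ) (w v : B) (z : Fin n → B) (y : Fin m → B), IsTuple w v z y := by
  obtain ⟨m, w₀, z', y₀, h1, h2, h3⟩ := hasPre_fin hcc (hasPre_two hcc horth) (n + 1)
  have hw₀ : 0 ≤ w₀ := by
    rw [← h1 0]
    exact star_mul_self_nonneg _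
  have hsa : IsSelfAdjoint w₀ := hw₀.isSelfAdjoint
  have hspec : ∀ t ∈ spectrum ℝ w₀, 0 ≤ t := fun t ht => spectrum_nonneg_of_nonneg hw₀ ht
  set C : ℝ := ∑ j, ‖y₀ j‖ ^ 2 with hC
  have hC0 : 0 ≤ C := Finset.sum_nonneg fun _ _ => by positivity
  obtain ⟨δ, hδ, hδC⟩ : ∃ δ : ℝ, 0 < δ ∧ 2 * δ * C ≤ 1 / 2 := by
    refine ⟨1 / (4 * (C + 1)), by positivity, ?_⟩
    have : 2 * (1 / (4 * (C + 1))) * C = (1 / 2) * (C / (C + 1)) := by
      field_simp
      ring
    rw [this]
    have h : C / (C + 1) ≤ 1 := by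
      rw [div_le_one (by positivity)]
      linarith
    linarith
  have hmax : ∀ t : ℝ, 0 < max t δ := fun t => lt_max_of_lt_right hδ
  have hcw : Continuous fun t : ℝ => t / max t δ :=
    continuous_id.div (by fun_prop) fun t => (hmax t).ne'
  have hch : Continuous fun t : ℝ => (Real.sqrt (max t δ))⁻¹ :=
    Continuous.inv₀ (by fun_prop) fun t => (Real.sqrt_pos.2 (hmax t)).ne'
  have hck : Continuous fun t : ℝ => min 1 (max 0 (t / δ - 1)) := by fun_prop
  set w := cfc (fun t : ℝ => t / max t δ) w₀ with hw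
  set h := cfc (fun t : ℝ => (Real.sqrt (max t δ))⁻¹) w₀ with hh
  set v := cfc (fun t : ℝ => min 1 (max 0 (t / δ - 1))) w₀ with hv
  have hhsa : IsSelfAdjoint h := cfc_predicate _ _
  have hid : cfc (fun t : ℝ => t) w₀ = w₀ := cfc_id' ℝ w₀
  have hhw : h * w₀ * h = w := by
    calc h * w₀ * h = cfc (fun t : ℝ => (Real.sqrt (max t δ))⁻¹) w₀ * cfc (fun t : ℝ => t) w₀
          * cfc (fun t : ℝ => (Real.sqrt (max t δ))⁻¹) w₀ := by rw [hid]
      _ = cfc (fun t : ℝ => (Real.sqrt (max t δ))⁻¹ * t * (Real.sqrt (max t δ))⁻¹) w₀ := by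
          rw [← cfc_mul (fun t : ℝ => (Real.sqrt (max t δ))⁻¹) (fun t : ℝ => t) w₀
            hch.continuousOn continuousOn_id,
            ← cfc_mul (fun t : ℝ => (Real.sqrt (max t δ))⁻¹ * t)
              (fun t : ℝ => (Real.sqrt (max t δ))⁻¹) w₀
              (hch.mul continuous_id).continuousOn hch.continuousOn]
      _ = w := by
          refine cfc_congr fun t _ => ?_
          have h1 : Real.sqrt (max t δ) * Real.sqrt (max t δ) = max t δ :=
            Real.mul_self_sqrt (hmax t).le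
          have h2 : Real.sqrt (max t δ) ≠ 0 := (Real.sqrt_pos.2 (hmax t)).ne'
          calc (Real.sqrt (max t δ))⁻¹ * t * (Real.sqrt (max t δ))⁻¹
              = t / (Real.sqrt (max t δ) * Real.sqrt (max t δ)) := by
                field_simp
            _ = _ := by rw [h1]
  -- the lower bound
  set M : ℝ := ‖w₀‖ + 1 with hM
  have hM0 : 0 < M := by positivity
  have hle : w₀ ≤ algebraMap ℝ B (2 * δ) + M • (v * v) := by
    have e1 : v * v = cfc (fun t : ℝ => min 1 (max 0 (t / δ - 1)) * min 1 (max 0 (t / δ - 1))) w₀ :=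
      (cfc_mul _ _ w₀ hck.continuousOn hck.continuousOn).symm
    have e2 : algebraMap ℝ B (2 * δ) + M • (v * v) = cfc (fun t : ℝ => 2 * δ
        + M • (min 1 (max 0 (t / δ - 1)) * min 1 (max 0 (t / δ - 1)))) w₀ := by
      rw [e1, ← cfc_smul M (fun t : ℝ => min 1 (max 0 (t / δ - 1)) * min 1 (max 0 (t / δ - 1))) w₀
        (hck.mul hck).continuousOn,
        cfc_add (a := w₀) (fun _ : ℝ => 2 * δ)
          (fun t : ℝ => M • (min 1 (max 0 (t / δ - 1)) * min 1 (max 0 (t / δ - 1))))
          continuousOn_const ((hck.mul hck).const_smul M).continuousOn,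
        cfc_const (2 * δ) w₀]
    rw [e2]
    conv_lhs => rw [← hid]
    refine cfc_mono (fun t ht => ?_) continuousOn_id
      (continuous_const.add ((hck.mul hck).const_smul M)).continuousOn
    have h0 := hspec t ht
    have hk0 : 0 ≤ min 1 (max 0 (t / δ - 1)) := le_min zero_le_one (le_max_left _ _)
    rcases le_total t (2 * δ) with h4 | h4
    · have : 0 ≤ M • (min 1 (max 0 (t / δ - 1)) * min 1 (max 0 (t / δ - 1))) := by
        rw [smul_eq_mul]
        positivity
      linarith
    · have h5 : 1 ≤ t / δ - 1 := by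
        rw [le_sub_iff_add_le, le_div_iff₀ hδ]
        linarith
      have h6 : min 1 (max 0 (t / δ - 1)) = 1 := min_eq_left (h5.trans (le_max_right _ _))
      rw [h6, smul_eq_mul, mul_one, mul_one]
      have h7 : t ≤ ‖w₀‖ := by
        rcases subsingleton_or_nontrivial B with hB | hB
        · rw [spectrum.of_subsingleton] at ht
          exact ht.elim
        · have hno : NormOneClass B := ⟨CStarRing.norm_one⟩
          have := spectrum.norm_le_norm_of_mem ht
          rwa [Real.norm_of_nonneg h0] at this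
      linarith
  have hlow : algebraMap ℝ B (1 / (2 * M)) ≤ ∑ j, star (y₀ j) * (v * v) * y₀ j := by
    have e1 : (1 : B) ≤ ∑ j, star (y₀ j) * (algebraMap ℝ B (2 * δ) + M • (v * v)) * y₀ j := by
      rw [← h3]
      exact Finset.sum_le_sum fun j _ => star_left_conjugate_le_conjugate hle _
    have e2 : ∑ j, star (y₀ j) * (algebraMap ℝ B (2 * δ) + M • (v * v)) * y₀ j
        = (2 * δ) • ∑ j, star (y₀ j) * y₀ j + M • ∑ j, star (y₀ j) * (v * v) * y₀ j := by
      rw [Finset.smul_sum, Finset.smul_sum, ← Finset.sum_add_distrib]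
      refine Finset.sum_congr rfl fun j _ => ?_
      rw [mul_add, add_mul, Algebra.algebraMap_eq_smul_one, mul_smul_comm, mul_one, smul_mul_assoc,
        mul_smul_comm, smul_mul_assoc]
    have e3 : ∑ j, star (y₀ j) * y₀ j ≤ algebraMap ℝ B C := by
      rw [hC, map_sum]
      exact Finset.sum_le_sum fun j _ => CStarAlgebra.star_mul_le_algebraMap_norm_sq
    have e4 : (1 : B) ≤ algebraMap ℝ B (1 / 2) + M • ∑ j, star (y₀ j) * (v * v) * y₀ j := by
      refine e1.trans ?_
      rw [e2]
      refine add_le_add_left ?_ _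
      calc (2 * δ) • ∑ j, star (y₀ j) * y₀ j ≤ (2 * δ) • algebraMap ℝ B C :=
            smul_le_smul_of_nonneg_left e3 (by positivity)
        _ = algebraMap ℝ B (2 * δ * C) := by
            rw [Algebra.smul_def, ← map_mul]
        _ ≤ algebraMap ℝ B (1 / 2) := algebraMap_mono B hδC
    have e5 : algebraMap ℝ B (1 / 2) ≤ M • ∑ j, star (y₀ j) * (v * v) * y₀ j := by
      have h5 : (1 : B) = algebraMap ℝ B (1 / 2) + algebraMap ℝ B (1 / 2) := by
        rw [← map_add]
        norm_num
      rw [h5] at e4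
      exact le_of_add_le_add_left e4
    have e6 := smul_le_smul_of_nonneg_left e5 (inv_nonneg.2 hM0.le)
    rw [smul_smul, inv_mul_cancel₀ hM0.ne', one_smul, Algebra.smul_def, ← map_mul] at e6
    convert e6 using 2
    field_simp
  obtain ⟨y, hy⟩ := exists_normalise y₀ (by positivity) hlow
  refine ⟨m, w, v, fun i => z' i.castSucc * h, y, ?_, ?_, ?_, ?_, ?_, ?_, hy⟩
  · refine cfc_nonneg fun t ht => div_nonneg (hspec t ht) (hmax t).le
  · refine cfc_le_one _ _ fun t ht => ?_
    rw [div_le_one (hmax t)]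
    exact le_max_left _ _
  · exact cfc_nonneg fun t _ => le_min zero_le_one (le_max_left _ _)
  · exact cfc_le_one _ _ fun t _ => min_le_left _ _
  · rw [hw, hv, ← cfc_mul _ _ w₀ hcw.continuousOn hck.continuousOn]
    refine cfc_congr fun t ht => ?_
    rcases le_total t δ with h4 | h4
    · have h5 : t / δ - 1 ≤ 0 := by
        rw [sub_nonpos, div_le_one hδ]
        exact h4
      simp only [max_eq_left h5, min_eq_right zero_le_one, mul_zero]
    · have h5 : t ≠ 0 := (hδ.trans_le h4).ne'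
      simp only [max_eq_left h4, div_self h5, one_mul]
  · intro i j
    rw [star_mul, hhsa.star_eq]
    have e : h * star (z' i.castSucc) * (z' j.castSucc * h)
        = h * (star (z' i.castSucc) * z' j.castSucc) * h := by simp only [mul_assoc]
    rw [e]
    split_ifs with hij
    · rw [hij, h1, hhw]
    · rw [h2 _ _ fun h' => hij (Fin.castSucc_injective _ h'), mul_zero, zero_mul]

theorem exists_tuples (hcc : HasCommutingCopies B)
    (horth : ∀ L : ℕ, ∃ e : Fin L → B, (∀ i, 0 ≤ e i ∧ ‖e i‖ ≤ 1) ∧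
      (∀ i j, i ≠ j → e i * e j = 0) ∧ ∀ i, IsFull (e i)) (n : ℕ) :
    ∃ m : ℕ, ∀ N : ℕ, ∃ (D : Fin N → StarSubalgebra ℂ B) (w v : Fin N → B)
      (z : Fin N → Fin n → B) (y : Fin N → Fin m → B),
      (∀ k, IsClosed (D k : Set B)) ∧
      (∀ k l, k ≠ l → ∀ a ∈ D k, ∀ b ∈ D l, Commute a b) ∧
      (∀ k, w k ∈ D k ∧ v k ∈ D k ∧ (∀ i, z k i ∈ D k) ∧ ∀ j, y k j ∈ D k) ∧
      ∀ k, IsTuple (w k) (v k) (z k) (y k) := by
  obtain ⟨m, w, v, z, y, ht⟩ := exists_tuple hcc horth n
  refine ⟨m, fun N => ?_⟩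
  let s : Set B := {w, v} ∪ Set.range z ∪ Set.range y
  have hs : s.Finite := by
    refine Set.Finite.union (Set.Finite.union ?_ ?_) ?_
    · exact Set.toFinite _
    all_goals exact Set.finite_range _
  obtain ⟨Φ, hΦ, -⟩ := exists_commuting_copies hcc (closedAlg s) (isClosed_closedAlg s)
    (isSeparable_closedAlg hs) N
  have hsub := subset_closedAlg s
  have hw : w ∈ closedAlg s := hsub (by simp [s])
  have hv : v ∈ closedAlg s := hsub (by simp [s])
  have hz : ∀ i, z i ∈ closedAlg s := fun i => hsub (by simp [s])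
  have hy : ∀ i, y i ∈ closedAlg s := fun i => hsub (by simp [s])
  have hcl := isClosed_closedAlg s
  refine ⟨fun k => (Φ k).range.topologicalClosure, fun k => Φ k ⟨w, hw⟩, fun k => Φ k ⟨v, hv⟩,
    fun k i => Φ k ⟨z i, hz i⟩, fun k j => Φ k ⟨y j, hy j⟩,
    fun k => StarSubalgebra.isClosed_topologicalClosure _, ?_, ?_, ?_⟩
  · intro k l hkl a ha b hb
    rw [← SetLike.mem_coe, StarSubalgebra.topologicalClosure_coe] at ha hb
    have hset : IsClosed {p : B × B | Commute p.1 p.2} := by
      have : {p : B × B | Commute p.1 p.2} = {p : B × B | p.1 * p.2 = p.2 * p.1} := rfl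
      rw [this]
      exact isClosed_eq (by fun_prop) (by fun_prop)
    have hab : (a, b) ∈ closure (((Φ k).range : Set B) ×ˢ ((Φ l).range : Set B)) := by
      rw [closure_prod_eq]
      exact ⟨ha, hb⟩
    refine hset.closure_subset_iff.2 ?_ hab
    rintro ⟨x, y⟩ ⟨⟨x, rfl⟩, ⟨y, rfl⟩⟩
    exact hΦ k l hkl _ _
  · intro k
    have : ∀ x, Φ k x ∈ (Φ k).range.topologicalClosure := fun x =>
      StarSubalgebra.le_topologicalClosure _ ⟨x, rfl⟩
    exact ⟨this _, this _, fun i => this _, fun j => this _⟩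
  · intro k
    refine ⟨map_nonneg_of_isClosed hcl _ _ ht.w_nonneg, map_le_one_of_isClosed hcl _ _ ht.w_le_one,
      map_nonneg_of_isClosed hcl _ _ ht.v_nonneg, map_le_one_of_isClosed hcl _ _ ht.v_le_one,
      ?_, ?_, ?_⟩
    · rw [← map_mul]
      congr 1
      exact Subtype.ext ht.w_mul_v
    · intro i j
      rw [← map_star, ← map_mul]
      have : star (⟨z i, hz i⟩ : closedAlg s) * ⟨z j, hz j⟩
          = if i = j then ⟨w, hw⟩ else 0 := by
        apply Subtype.ext
        rw [MulMemClass.coe_mul, StarMemClass.coe_star, ht.star_mul i j]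
        split_ifs <;> rfl
      rw [this]
      split_ifs
      · rfl
      · exact map_zero _
    · have : ∑ j, star (⟨y j, hy j⟩ : closedAlg s) * (⟨v, hv⟩ * ⟨v, hv⟩) * ⟨y j, hy j⟩ = 1 := by
        apply Subtype.ext
        simpa using ht.sum_eq
      rw [← map_one (Φ k), ← this, map_sum]
      simp only [map_mul, map_star]

end Final

end Vale.Agent.P101
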