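import Vale.Agent.P101.Factor
import Vale.Agent.P101.Intertwine
import Vale.Agent.P101.Iterate
import Vale.Agent.P101.ProdFam
import Vale.Agent.P101.Tuple

/-!
# P101, Step 5: an order zero map with small defect
-/

namespace Vale.Agent.P101

open Finset

variable {B : Type*} [CStarAlgebra B]

/-- If `t x = x` then `f(t) x = f(1) x`. -/
theorem cfc_mul_of_fix {t x : B} (ht : IsSelfAdjoint t) (h : t * x = x) (f : ℝ → ℝ)
    (hf : Continuous f) : cfc f t * x = (f 1) • x := by
  have h1 : t * x = x * 1 := by rw [h, mul_one]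
  have := cfc_intertwine ht (IsSelfAdjoint.one B) h1 f hf
  rw [this, cfc_apply_one, Algebra.algebraMap_eq_smul_one, mul_smul_comm, mul_one]

theorem continuous_g0 : Continuous g0 := by
  unfold g0
  fun_prop

theorem g0_one : g0 1 = 1 := by
  unfold g0
  norm_num

theorem g0_nonneg (x : ℝ) : 0 ≤ g0 x := le_max_left _ _

theorem g0_le_one (x : ℝ) : g0 x ≤ 1 := max_le zero_le_one (min_le_left _ _)

variable [PartialOrder B] [StarOrderedRing B]

section TupleOZ

variable {n m : ℕ} {w v : B} {z : Fin n → B} {y : Fin m → B}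

omit [StarOrderedRing B] in
theorem IsTuple.sum_mul (h : IsTuple w v z y) (i : Fin n) :
    (∑ a, z a * star (z a)) * z i = z i * w := by
  rw [Finset.sum_mul]
  rw [Finset.sum_eq_single i]
  · rw [mul_assoc, h.star_mul, if_pos rfl]
  · intro a _ ha
    rw [mul_assoc, h.star_mul, if_neg ha, mul_zero]
  · intro hi
    exact absurd (Finset.mem_univ i) hi

theorem IsTuple.sum_nonneg (z : Fin n → B) : 0 ≤ ∑ a, z a * star (z a) :=
  Finset.sum_nonneg fun a _ => mul_star_self_nonneg (z a)

theorem IsTuple.sum_le_one (h : IsTuple w v z y) : ∑ a, z a * star (z a) ≤ 1 := by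
  set t := ∑ a, z a * star (z a) with ht
  have h0 : 0 ≤ t := IsTuple.sum_nonneg z
  have hsa : IsSelfAdjoint t := h0.isSelfAdjoint
  have h1 : t * t = ∑ a, z a * w * star (z a) := by
    nth_rewrite 2 [ht]
    rw [Finset.mul_sum]
    refine Finset.sum_congr rfl fun a _ => ?_
    rw [← mul_assoc, h.sum_mul]
  have h2 : t * t ≤ t := by
    rw [h1, ht]
    refine Finset.sum_le_sum fun a _ => ?_
    have := star_right_conjugate_le_conjugate h.w_le_one (z a)
    rwa [mul_one] at this
  have h3 : 0 ≤ t * t := by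
    have := star_mul_self_nonneg t
    rwa [hsa.star_eq] at this
  have h4 : ‖t * t‖ ≤ ‖t‖ := CStarAlgebra.norm_le_norm_of_nonneg_of_le h3 h2
  have h5 : ‖t * t‖ = ‖t‖ * ‖t‖ := by
    have := CStarRing.norm_star_mul_self (x := t)
    rwa [hsa.star_eq] at this
  rw [← CStarAlgebra.norm_le_one_iff_of_nonneg t h0]
  by_contra hlt
  push Not at hlt
  nlinarith

theorem IsTuple.isOZ (h : IsTuple w v z y) : IsOZ (fun i j => z i * star (z j)) := by
  refine ⟨?_, ?_, IsTuple.sum_nonneg z, h.sum_le_one⟩
  · intro i j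
    rw [StarMul.star_mul, star_star]
  · intro i j k l
    by_cases hjk : j = k
    · subst hjk
      rw [if_pos rfl]
      calc z i * star (z j) * (z j * star (z l)) = z i * (star (z j) * z j) * star (z l) := by
            noncomm_ring
        _ = z i * w * star (z l) := by rw [h.star_mul, if_pos rfl]
        _ = (∑ a, z a * star (z a)) * z i * star (z l) := by rw [h.sum_mul]
        _ = _ := by rw [mul_assoc]
    · rw [if_neg hjk]
      calc z i * star (z j) * (z k * star (z l)) = z i * (star (z j) * z k) * star (z l) := by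
            noncomm_ring
        _ = 0 := by rw [h.star_mul, if_neg hjk, mul_zero, zero_mul]

omit [StarOrderedRing B] in
theorem IsTuple.sum_mul_fix (h : IsTuple w v z y) (i : Fin n) (x : B) :
    (∑ a, z a * star (z a)) * (z i * v * x) = z i * v * x := by
  calc (∑ a, z a * star (z a)) * (z i * v * x) = ((∑ a, z a * star (z a)) * z i) * v * x := by
        noncomm_ring
    _ = z i * (w * v) * x := by rw [h.sum_mul]; noncomm_ring
    _ = z i * v * x := by rw [h.w_mul_v]

omit [StarOrderedRing B] in
theorem IsTuple.oz_mul_fix (h : IsTuple w v z y) (i : Fin n) (x : B) :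
    z i * star (z i) * (z i * v * x) = z i * v * x := by
  calc z i * star (z i) * (z i * v * x) = z i * (star (z i) * z i) * v * x := by
        noncomm_ring
    _ = z i * (w * v) * x := by rw [h.star_mul, if_pos rfl]; noncomm_ring
    _ = z i * v * x := by rw [h.w_mul_v]

end TupleOZ

/-- The case `n = 0` of the small defect theorem. -/
theorem exists_small_defect_zero : ∃ (ψ : Fin (0 + 1) → Fin (0 + 1) → B) (s : B), IsOZ ψ ∧
      star s * s = 1 - ∑ a, ψ a a ∧ ψ 0 0 * s = s := by
  refine ⟨fun _ _ => 1, 0, ⟨?_, ?_, ?_, ?_⟩, ?_, ?_⟩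
  · intro i j
    simp
  · intro i j k l
    have : j = k := Fin.ext (by omega)
    simp [this]
  · simp
  · simp
  · simp
  · simp

/-- The combinatorial lower bound `K ≥ 1`. -/
theorem cover_ge_one {m N : ℕ} (hN : N = m * m + 1) {D : Fin N → StarSubalgebra ℂ B}
    (hD : CommFam D) (E : Fin N → Fin m → B) (hED : ∀ k j, E k j ∈ D k)
    (hE0 : ∀ k j, 0 ≤ E k j) (hE1 : ∀ k, ∑ j, E k j = 1) :
    1 ≤ ∑ i ∈ (powersetCard (m + 1) (univ : Finset (Fin N))) ×ˢ (univ : Finset (Fin m)),
      pl (List.finRange N) (fun k => if k ∈ i.1 then E k i.2 else 1) := by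
  classical
  let mp := MultilinearMap.mkPiAlgebraFin ℂ N B
  have hmp : ∀ u : Fin N → B, pl (List.finRange N) u = mp u := by
    intro u
    rw [MultilinearMap.mkPiAlgebraFin_apply, List.ofFn_eq_map]
    rfl
  have hJ0 : ∀ J : Fin N → Fin m, 0 ≤ pl (List.finRange N) (fun k => E k (J k)) := fun J =>
    hD.pl_nonneg (fun k => hED k _) (fun k => hE0 k _) _ (List.nodup_finRange N)
  have h1 : (1 : B) = ∑ J : Fin N → Fin m, pl (List.finRange N) (fun k => E k (J k)) := by
    have := mp.map_sum (fun k j => E k j)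
    simp only [hE1] at this
    rw [← hmp, pl_one] at this
    rw [this]
    exact Finset.sum_congr rfl fun J _ => (hmp _).symm
  have h2 : ∀ i : Finset (Fin N) × Fin m,
      pl (List.finRange N) (fun k => if k ∈ i.1 then E k i.2 else 1)
        = ∑ J : Fin N → Fin m, if (∀ k ∈ i.1, J k = i.2) then
            pl (List.finRange N) (fun k => E k (J k)) else 0 := by
    intro i
    have := mp.map_sum_finset (fun k j => E k j)
      (fun k => if k ∈ i.1 then ({i.2} : Finset (Fin m)) else univ)
    have e1 : (fun k => ∑ j ∈ (if k ∈ i.1 then ({i.2} : Finset (Fin m)) else univ), E k j)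
        = fun k => if k ∈ i.1 then E k i.2 else 1 := by
      funext k
      split_ifs with hk
      · simp
      · exact hE1 k
    rw [e1] at this
    rw [hmp, this, ← Finset.sum_filter]
    refine Finset.sum_congr ?_ fun J _ => (hmp _).symm
    ext J
    simp only [Fintype.mem_piFinset, Finset.mem_filter, Finset.mem_univ, true_and]
    constructor
    · intro h k hk
      have := h k
      rw [if_pos hk] at this
      simpa using this
    · intro h k
      split_ifs with hk
      · simpa using h k hk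
      · simp
  rw [Finset.sum_congr rfl (fun i _ => h2 i), Finset.sum_comm, h1]
  refine Finset.sum_le_sum fun J _ => ?_
  -- the pigeonhole principle
  obtain ⟨j, hj⟩ := Fintype.exists_lt_card_fiber_of_mul_lt_card (f := J) (n := m)
    (by rw [Fintype.card_fin, Fintype.card_fin, hN]; exact Nat.lt_succ_self _)
  obtain ⟨P, hP, hPc⟩ := Finset.exists_subset_card_eq (Nat.succ_le_of_lt hj)
  have hmem : (P, j) ∈ (powersetCard (m + 1) (univ : Finset (Fin N))) ×ˢ
      (univ : Finset (Fin m)) := by
    rw [Finset.mem_product]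
    exact ⟨Finset.mem_powersetCard.2 ⟨Finset.subset_univ _, hPc⟩, Finset.mem_univ _⟩
  have hval : (if (∀ k ∈ (P, j).1, J k = (P, j).2) then
      pl (List.finRange N) (fun k => E k (J k)) else 0)
      = pl (List.finRange N) (fun k => E k (J k)) := by
    rw [if_pos]
    intro k hk
    exact (Finset.mem_filter.1 (hP hk)).2
  calc pl (List.finRange N) (fun k => E k (J k))
      = (if (∀ k ∈ (P, j).1, J k = (P, j).2) then
          pl (List.finRange N) (fun k => E k (J k)) else 0) := hval.symm
    _ ≤ _ := Finset.single_le_sum (f := fun i : Finset (Fin N) × Fin m =>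
        if (∀ k ∈ i.1, J k = i.2) then pl (List.finRange N) (fun k => E k (J k)) else 0)
        (fun i _ => by
          split_ifs
          · exact hJ0 J
          · exact le_rfl) hmem

/-- Words which distinguish the indices `j` on every set `P` of size `m + 1`. -/
theorem exists_words (m N n : ℕ) (P : Finset (Fin N)) (hP : P.card = m + 1) :
    ∃ k₀ ∈ P, ∃ ω : Fin m → Fin N → Fin (n + 2), (∀ j, ω j k₀ = 0) ∧
      ∀ j j', j ≠ j' → ∃ k ∈ P, ω j k ≠ ω j' k := by
  classical
  obtain ⟨k₀, hk₀⟩ : P.Nonempty := Finset.card_pos.1 (by omega)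
  have hcard : Fintype.card (Fin m) ≤ Fintype.card (↥(P.erase k₀) → Fin (n + 2)) := by
    rw [Fintype.card_fun, Fintype.card_fin, Fintype.card_fin, Fintype.card_coe,
      Finset.card_erase_of_mem hk₀, hP, Nat.add_sub_cancel]
    calc m ≤ 2 ^ m := Nat.lt_two_pow_self.le
      _ ≤ (n + 2) ^ m := Nat.pow_le_pow_left (by omega) m
  obtain ⟨f⟩ := Function.Embedding.nonempty_of_card_le hcard
  refine ⟨k₀, hk₀, fun j k => if h : k ∈ P.erase k₀ then f j ⟨k, h⟩ else 0, ?_, ?_⟩
  · intro j
    simp
  · intro j j' hjj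
    have hne : f j ≠ f j' := fun h => hjj (f.injective h)
    obtain ⟨⟨k, hk⟩, hkne⟩ := Function.ne_iff.1 hne
    refine ⟨k, Finset.mem_of_mem_erase hk, ?_⟩
    simpa only [hk, dif_pos] using hkne

omit [PartialOrder B] [StarOrderedRing B] in
theorem mul_pl_of_fix {ι : Type*} {d : B} {v : ι → B} (h : ∀ k, d * v k = d) (l : List ι) :
    d * pl l v = d := by
  induction l with
  | nil => simp [pl]
  | cons a l ih =>
    have e : pl (a :: l) v = v a * pl l v := by simp [pl]
    rw [e, ← mul_assoc, h a, ih]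

/-- **Step 5**: an order zero map with small defect. -/
theorem exists_small_defect (hcc : HasCommutingCopies B)
    (horth : ∀ L : ℕ, ∃ e : Fin L → B, (∀ i, 0 ≤ e i ∧ ‖e i‖ ≤ 1) ∧
      (∀ i j, i ≠ j → e i * e j = 0) ∧ ∀ i, IsFull (e i)) (n : ℕ) :
    ∃ (ψ : Fin (n + 1) → Fin (n + 1) → B) (s : B), IsOZ ψ ∧
      star s * s = 1 - ∑ a, ψ a a ∧ ψ 0 0 * s = s := by
  classical
  rcases n with _ | n
  · exact exists_small_defect_zero
  obtain ⟨m, H⟩ := exists_tuples hcc horth (n + 2)
  obtain ⟨N, hN⟩ : ∃ N, N = m * m + 1 := ⟨_, rfl⟩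
  have hNne : Nonempty (Fin N) := ⟨⟨0, by rw [hN]; exact Nat.succ_pos _⟩⟩
  obtain ⟨D, w, v, z, y, hcl, hD, hmem, ht⟩ := H N
  let φ : Fin N → Fin (n + 2) → Fin (n + 2) → B := fun k i j => z k i * star (z k j)
  have hφD : ∀ k i j, φ k i j ∈ D k := fun k i j =>
    mul_mem ((hmem k).2.2.1 i) (star_mem ((hmem k).2.2.1 j))
  have hφ : ∀ k, IsOZ (φ k) := fun k => (ht k).isOZ
  obtain ⟨ψ, W, hψ, hW1, hW2, hW3⟩ := exists_iterate N φ hφ
    (fun k l hkl i j i' j' => hD k l hkl _ (hφD k i j) _ (hφD l i' j'))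
  let t : Fin N → B := fun k => ∑ a, φ k a a
  have htD : ∀ k, t k ∈ D k := fun k => sum_mem fun a _ => hφD k a a
  have htsa : ∀ k, IsSelfAdjoint (t k) := fun k => (hφ k).nonneg.isSelfAdjoint
  let c : Fin N → B := fun k => cfc g0 (t k)
  have hcD : ∀ k, c k ∈ D k := fun k => by
    have := hcl k
    exact cfc_mem (𝕜' := ℂ) g0 (htD k)
  let e : Fin N → B := fun k => 1 - c k
  have heD : ∀ k, e k ∈ D k := fun k => sub_mem (one_mem _) (hcD k)
  have hesa : ∀ k, IsSelfAdjoint (e k) := fun k =>
    (IsSelfAdjoint.one B).sub (cfc_predicate g0 (t k))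
  have he0 : ∀ k i x, e k * (z k i * v k * x) = 0 := by
    intro k i x
    have h1 := cfc_mul_of_fix (htsa k) ((ht k).sum_mul_fix i x) g0 continuous_g0
    rw [g0_one, one_smul] at h1
    simp only [e, c]
    rw [sub_mul, one_mul, h1, sub_self]
  have hcφ : ∀ k l i j, Commute (e k) (φ l i j) := by
    intro k l i j
    by_cases hkl : k = l
    · subst hkl
      have h1 : t k * φ k i j = φ k i j * t k := by
        have h0 : φ k i j * ∑ a, φ k a a = (∑ a, φ k a a) * φ k i j := by
          rw [Finset.mul_sum, Finset.sum_eq_single j]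
          · rw [(hφ k).mul_apply, if_pos rfl]
          · intro a _ ha
            rw [(hφ k).mul_apply, if_neg (Ne.symm ha)]
          · intro hj
            exact absurd (Finset.mem_univ j) hj
        exact h0.symm
      have h2 : c k * φ k i j = φ k i j * c k :=
        cfc_intertwine (htsa k) (htsa k) h1 g0 continuous_g0
      exact (Commute.one_left _).sub_left h2
    · exact hD k l hkl _ (heD k) _ (hφD l i j)
  have heW : ∀ k l, Commute (e k) (W l) := fun k l => hW1 l (e k) (fun l' _ i j => hcφ k l' i j)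
  -- the words
  have hwords : ∀ P : Finset (Fin N), P.card = m + 1 → ∃ k₀ ∈ P,
      ∃ ω : Fin m → Fin N → Fin (n + 2), (∀ j, ω j k₀ = 0) ∧
      ∀ j j', j ≠ j' → ∃ k ∈ P, ω j k ≠ ω j' k := fun P hP => exists_words m N n P hP
  choose! k₀ hk₀ ω hω0 hωne using hwords
  set L := List.finRange N with hL
  have hLn : L.Nodup := List.nodup_finRange N
  have hLm : ∀ k, k ∈ L := fun k => List.mem_finRange k
  let α : Finset (Fin N) × Fin m → Fin N → B := fun i k =>
    if k ∈ i.1 then z k (ω i.1 i.2 k) * v k * (y k i.2 * e k) else e k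
  have hαin : ∀ i k, k ∈ i.1 → α i k = z k (ω i.1 i.2 k) * v k * (y k i.2 * e k) :=
    fun i k hk => if_pos hk
  have hαout : ∀ i k, k ∉ i.1 → α i k = e k := fun i k hk => if_neg hk
  have hαD : ∀ i k, α i k ∈ D k := by
    intro i k
    by_cases hk : k ∈ i.1
    · rw [hαin i k hk]
      exact mul_mem (mul_mem ((hmem k).2.2.1 _) (hmem k).2.1)
        (mul_mem ((hmem k).2.2.2 _) (heD k))
    · rw [hαout i k hk]
      exact heD k
  let term : Finset (Fin N) × Fin m → B := fun i => W (k₀ i.1) * pl L (α i)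
  set I := (powersetCard (m + 1) (univ : Finset (Fin N))) ×ˢ (univ : Finset (Fin m)) with hI
  have hIc : ∀ i ∈ I, i.1.card = m + 1 := fun i hi =>
    (Finset.mem_powersetCard.1 (Finset.mem_product.1 hi).1).2
  have hDf : CommFam D := hD
  have hfix : ∀ i ∈ I, t (k₀ i.1) * pl L (α i) = pl L (α i) := by
    intro i hi
    have hk := hk₀ i.1 (hIc i hi)
    rw [hDf.mul_pl (hαD i) (htD _) L hLn (hLm _)]
    have h1 : t (k₀ i.1) * α i (k₀ i.1) = α i (k₀ i.1) := by
      rw [hαin i _ hk]
      exact (ht _).sum_mul_fix _ _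
    rw [h1, Function.update_eq_self]
  have hfix2 : ∀ i ∈ I, φ (k₀ i.1) 0 0 * pl L (α i) = pl L (α i) := by
    intro i hi
    have hk := hk₀ i.1 (hIc i hi)
    rw [hDf.mul_pl (hαD i) (hφD _ 0 0) L hLn (hLm _)]
    have h1 : φ (k₀ i.1) 0 0 * α i (k₀ i.1) = α i (k₀ i.1) := by
      rw [hαin i _ hk, hω0 i.1 (hIc i hi)]
      exact (ht _).oz_mul_fix _ _
    rw [h1, Function.update_eq_self]
  -- orthogonality
  have hA : ∀ i k, k ∈ i.1 → e k * term i = 0 := by
    intro i k hk
    simp only [term]
    rw [← mul_assoc, (heW k _).eq, mul_assoc, hDf.mul_pl (hαD i) (heD k) L hLn (hLm k)]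
    rw [pl_eq_zero L (hLm k), mul_zero]
    rw [Function.update_self, hαin i k hk]
    exact he0 k _ _
  have hB : ∀ i k, k ∉ i.1 → ∃ x, term i = e k * x := by
    intro i k hk
    refine ⟨W (k₀ i.1) * pl L (Function.update (α i) k 1), ?_⟩
    have hD1 : ∀ s, Function.update (α i) k 1 s ∈ D s := by
      intro s
      by_cases hs : s = k
      · subst hs
        rw [Function.update_self]
        exact one_mem _
      · rw [Function.update_of_ne hs]
        exact hαD i s
    have h1 : e k * pl L (Function.update (α i) k 1) = pl L (α i) := by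
      rw [hDf.mul_pl hD1 (heD k) L hLn (hLm k), Function.update_self, mul_one,
        Function.update_idem, ← hαout i k hk, Function.update_eq_self]
    simp only [term]
    rw [← mul_assoc, (heW k _).eq, mul_assoc, h1]
  have horth1 : ∀ i ∈ I, ∀ i' ∈ I, i.1 ≠ i'.1 → star (term i) * term i' = 0 := by
    intro i hi i' hi' hne
    have hns : ¬ i.1 ⊆ i'.1 := by
      intro hsub
      apply hne
      exact Finset.eq_of_subset_of_card_le hsub (by rw [hIc i hi, hIc i' hi'])
    obtain ⟨k, hk, hk'⟩ := Finset.not_subset.1 hns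
    obtain ⟨x, hx⟩ := hB i' k hk'
    have h1 : star (term i) * e k = 0 := by
      have h2 := hA i k hk
      have h3 := congrArg star h2
      rwa [StarMul.star_mul, (hesa k).star_eq, star_zero] at h3
    rw [hx, ← mul_assoc, h1, zero_mul]
  have hsame : ∀ i ∈ I, ∀ i' ∈ I, i.1 = i'.1 →
      star (term i) * term i' = pl L (fun k => star (α i k) * α i' k) := by
    intro i hi i' hi' heq
    have h1 : star (W (k₀ i'.1)) * (W (k₀ i'.1) * pl L (α i')) = pl L (α i') :=
      (hW2 (k₀ i'.1) _ (hfix i' hi')).1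
    simp only [term]
    rw [heq, StarMul.star_mul, mul_assoc, h1, hDf.star_pl (hαD i) L hLn,
      hDf.pl_mul (fun s => star_mem (hαD i s)) (hαD i') L hLn]
  have horth2 : ∀ i ∈ I, ∀ i' ∈ I, i.1 = i'.1 → i.2 ≠ i'.2 → star (term i) * term i' = 0 := by
    intro i hi i' hi' heq hne
    rw [hsame i hi i' hi' heq]
    obtain ⟨k, hk, hkne⟩ := hωne i.1 (hIc i hi) i.2 i'.2 hne
    refine pl_eq_zero L (hLm k) ?_
    rw [hαin i k hk, hαin i' k (heq ▸ hk), ← heq]
    have h1 : star (z k (ω i.1 i.2 k)) * z k (ω i.1 i'.2 k) = 0 := by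
      rw [(ht k).star_mul, if_neg hkne]
    calc star (z k (ω i.1 i.2 k) * v k * (y k i.2 * e k))
          * (z k (ω i.1 i'.2 k) * v k * (y k i'.2 * e k))
        = star (y k i.2 * e k) * star (v k) * (star (z k (ω i.1 i.2 k)) * z k (ω i.1 i'.2 k))
          * v k * (y k i'.2 * e k) := by
          simp only [StarMul.star_mul]
          noncomm_ring
      _ = 0 := by rw [h1]; simp
  let E : Fin N → Fin m → B := fun k j => star (y k j) * (v k * v k) * y k j
  have hED : ∀ k j, E k j ∈ D k := fun k j =>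
    mul_mem (mul_mem (star_mem ((hmem k).2.2.2 j)) (mul_mem (hmem k).2.1 (hmem k).2.1))
      ((hmem k).2.2.2 j)
  have hvsa : ∀ k, star (v k) = v k := fun k => (ht k).v_nonneg.isSelfAdjoint.star_eq
  have hE0 : ∀ k j, 0 ≤ E k j := by
    intro k j
    have : 0 ≤ v k * v k := by
      have := star_mul_self_nonneg (v k)
      rwa [hvsa k] at this
    exact star_left_conjugate_nonneg this (y k j)
  have hE1 : ∀ k, ∑ j, E k j = 1 := fun k => (ht k).sum_eq
  let cc : Finset (Fin N) × Fin m → Fin N → B := fun i k => if k ∈ i.1 then E k i.2 else 1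
  have hccD : ∀ i k, cc i k ∈ D k := by
    intro i k
    simp only [cc]
    split_ifs
    · exact hED k _
    · exact one_mem _
  set F : B := pl L e with hF
  have hdiag : ∀ i ∈ I, star (term i) * term i = F * pl L (cc i) * F := by
    intro i hi
    rw [hsame i hi i hi rfl, hF, hDf.pl_mul heD (hccD i) L hLn,
      hDf.pl_mul (fun s => mul_mem (heD s) (hccD i s)) heD L hLn]
    refine pl_congr L fun k _ => ?_
    by_cases hk : k ∈ i.1
    · have h1 : cc i k = E k i.2 := if_pos hk
      rw [hαin i k hk, h1]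
      have h2 : star (z k (ω i.1 i.2 k)) * z k (ω i.1 i.2 k) = w k := by
        rw [(ht k).star_mul, if_pos rfl]
      calc star (z k (ω i.1 i.2 k) * v k * (y k i.2 * e k))
            * (z k (ω i.1 i.2 k) * v k * (y k i.2 * e k))
          = star (e k) * star (y k i.2) * star (v k)
            * (star (z k (ω i.1 i.2 k)) * z k (ω i.1 i.2 k)) * v k * (y k i.2 * e k) := by
            simp only [StarMul.star_mul]
            noncomm_ring
        _ = e k * star (y k i.2) * v k * (w k * v k) * (y k i.2 * e k) := by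
            rw [h2, (hesa k).star_eq, hvsa k]
            noncomm_ring
        _ = e k * (star (y k i.2) * (v k * v k) * y k i.2) * e k := by
            rw [(ht k).w_mul_v]
            noncomm_ring
    · have h1 : cc i k = 1 := if_neg hk
      rw [hαout i k hk, h1, (hesa k).star_eq, mul_one]
  -- the element `V`
  set V : B := ∑ i ∈ I, term i with hV
  have hVV : star V * V = F * (∑ i ∈ I, pl L (cc i)) * F := by
    rw [hV, star_sum, Finset.sum_mul, Finset.mul_sum, Finset.sum_mul]
    refine Finset.sum_congr rfl fun i hi => ?_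
    rw [Finset.mul_sum, Finset.sum_eq_single i, hdiag i hi]
    · intro i' hi' hne
      by_cases h1 : i.1 = i'.1
      · refine horth2 i hi i' hi' h1 fun h2 => hne ?_
        exact (Prod.ext h1 h2).symm
      · exact horth1 i hi i' hi' h1
    · intro h
      exact absurd hi h
  have hFsa : IsSelfAdjoint F := by
    unfold IsSelfAdjoint
    rw [hF, hDf.star_pl heD L hLn]
    exact pl_congr L fun k _ => (hesa k).star_eq
  have hK : 1 ≤ ∑ i ∈ I, pl L (cc i) := cover_ge_one hN hDf E hED hE0 hE1
  have hVF : F * F ≤ star V * V := by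
    rw [hVV]
    have := star_left_conjugate_le_conjugate hK F
    rwa [hFsa.star_eq, mul_one] at this
  -- the defect
  set T : B := ∑ a, ψ a a with hT
  set d : B := 1 - T with hd
  have hd0 : 0 ≤ d := sub_nonneg.2 hψ.le_one
  have hd1 : d ≤ 1 := sub_le_self _ hψ.nonneg
  have hde : ∀ k, d * e k = d := by
    intro k
    have h1 : T * c k = c k := hW3 k
    have h2 : d * c k = 0 := by rw [hd, sub_mul, one_mul, h1, sub_self]
    simp only [e]
    rw [mul_sub, mul_one, h2, sub_zero]
  have hdF : d * F = d := mul_pl_of_fix hde L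
  have hFd : F * d = d := by
    have := congrArg star hdF
    rwa [StarMul.star_mul, hFsa.star_eq, hd0.isSelfAdjoint.star_eq] at this
  have hdVV : d ≤ star V * V := by
    refine le_trans ?_ hVF
    have := star_left_conjugate_le_conjugate hd1 F
    rw [hFsa.star_eq, mul_one] at this
    rwa [mul_assoc, hdF, hFd] at this
  obtain ⟨s, hs1, hs2⟩ := exists_factor_of_le hd0 hdVV
  refine ⟨ψ, s, hψ, hs1, hs2 _ ?_⟩
  rw [hV, Finset.mul_sum]
  refine Finset.sum_congr rfl fun i hi => ?_
  have h1 := (hW2 (k₀ i.1) _ (hfix i hi)).2 0 0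
  simp only [term]
  rw [h1, hfix2 i hi]

end Vale.Agent.P101
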