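import Mathlib
import Vale.Agent.P101.Defs

/-!
# P101, Step 6: glue data
-/

namespace Vale.Agent.P101

variable {B : Type*} [CStarAlgebra B]

/-- Glue data. `γ` is functional calculus of an element `0 ≤ T ≤ 1`. -/
structure GlueData {P : Type*} [Fintype P] [DecidableEq P] {n m : ℕ}
    (ι₀ : Matrix (Fin n) (Fin n) ℂ →⋆ₐ[ℂ] Matrix P P ℂ)
    (ι₁ : Matrix (Fin m) (Fin m) ℂ →⋆ₐ[ℂ] Matrix P P ℂ)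
    (γ : C(unitInterval, ℂ) →⋆ₐ[ℂ] B) (T : B)
    (α : Matrix P P ℂ →ₗ[ℂ] B) (μ₀ : Matrix (Fin n) (Fin n) ℂ →ₗ[ℂ] B)
    (μ₁ : Matrix (Fin m) (Fin m) ℂ →ₗ[ℂ] B) : Prop where
  hT : γ ⟨fun t => ((t : ℝ) : ℂ), by fun_prop⟩ = T
  comm_α : ∀ f X, Commute (γ f) (α X)
  comm_μ₀ : ∀ f x, Commute (γ f) (μ₀ x)
  comm_μ₁ : ∀ f y, Commute (γ f) (μ₁ y)
  star_α : ∀ X, star (α X) = α (star X)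
  star_μ₀ : ∀ x, star (μ₀ x) = μ₀ (star x)
  star_μ₁ : ∀ y, star (μ₁ y) = μ₁ (star y)
  one_α : α 1 = T * (1 - T)
  one_μ₀ : μ₀ 1 = 1 - T
  one_μ₁ : μ₁ 1 = T
  mul_α : ∀ X Y, α X * α Y = T * (1 - T) * α (X * Y)
  mul_μ₀ : ∀ x y, μ₀ x * μ₀ y = (1 - T) * μ₀ (x * y)
  mul_μ₁ : ∀ x y, μ₁ x * μ₁ y = T * μ₁ (x * y)
  μ₀_α : ∀ x X, μ₀ x * α X = (1 - T) * α (ι₀ x * X)
  μ₁_α : ∀ y X, μ₁ y * α X = T * α (ι₁ y * X)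
  T_μ₀ : ∀ x, T * μ₀ x = α (ι₀ x)
  T_μ₁ : ∀ y, (1 - T) * μ₁ y = α (ι₁ y)

end Vale.Agent.P101
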