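import Mathlib

/-!
# P101, Step 6: the two embeddings into `M_n ⊗ M_{n+1}`
-/

open scoped Kronecker

namespace Vale.Agent.P101

variable {n : ℕ}

/-- Extension of an `n × n` matrix by zero to an `(n+1) × (n+1)` matrix. -/
def padM (x : Matrix (Fin n) (Fin n) ℂ) : Matrix (Fin (n + 1)) (Fin (n + 1)) ℂ :=
  Matrix.of fun k l => Fin.lastCases (motive := fun _ => ℂ) 0
    (fun k => Fin.lastCases (motive := fun _ => ℂ) 0 (fun l => x k l) l) k

/-- The last diagonal matrix unit. -/
def lastE (n : ℕ) : Matrix (Fin (n + 1)) (Fin (n + 1)) ℂ :=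
  Matrix.single (Fin.last n) (Fin.last n) 1

@[simp] theorem padM_castSucc (x : Matrix (Fin n) (Fin n) ℂ) (k l : Fin n) :
    padM x k.castSucc l.castSucc = x k l := by simp [padM]

@[simp] theorem padM_last_left (x : Matrix (Fin n) (Fin n) ℂ) (l : Fin (n + 1)) :
    padM x (Fin.last n) l = 0 := by simp [padM]

@[simp] theorem padM_last_right (x : Matrix (Fin n) (Fin n) ℂ) (k : Fin (n + 1)) :
    padM x k (Fin.last n) = 0 := by
  induction k using Fin.lastCases <;> simp [padM]

theorem padM_mul (x y : Matrix (Fin n) (Fin n) ℂ) : padM (x * y) = padM x * padM y := by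
  ext k l
  induction k using Fin.lastCases with
  | last => simp [Matrix.mul_apply]
  | cast k =>
    induction l using Fin.lastCases with
    | last => simp [Matrix.mul_apply]
    | cast l => simp [Matrix.mul_apply, Fin.sum_univ_castSucc]

theorem padM_add (x y : Matrix (Fin n) (Fin n) ℂ) : padM (x + y) = padM x + padM y := by
  ext k l
  induction k using Fin.lastCases with
  | last => simp
  | cast k =>
    induction l using Fin.lastCases with
    | last => simp
    | cast l => simp

theorem padM_smul (c : ℂ) (x : Matrix (Fin n) (Fin n) ℂ) : padM (c • x) = c • padM x := by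
  ext k l
  induction k using Fin.lastCases with
  | last => simp
  | cast k =>
    induction l using Fin.lastCases with
    | last => simp
    | cast l => simp

theorem padM_star (x : Matrix (Fin n) (Fin n) ℂ) : padM (star x) = star (padM x) := by
  ext k l
  rw [Matrix.star_apply]
  induction k using Fin.lastCases with
  | last => simp
  | cast k =>
    induction l using Fin.lastCases with
    | last => simp
    | cast l => simp [Matrix.star_apply]

theorem padM_mul_lastE (x : Matrix (Fin n) (Fin n) ℂ) : padM x * lastE n = 0 := by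
  ext k l
  rw [Matrix.mul_apply, Matrix.zero_apply]
  refine Finset.sum_eq_zero fun j _ => ?_
  induction j using Fin.lastCases with
  | last => simp
  | cast j => simp [lastE, (Fin.castSucc_lt_last j).ne']

theorem lastE_mul_padM (x : Matrix (Fin n) (Fin n) ℂ) : lastE n * padM x = 0 := by
  ext k l
  rw [Matrix.mul_apply, Matrix.zero_apply]
  refine Finset.sum_eq_zero fun j _ => ?_
  induction j using Fin.lastCases with
  | last => simp
  | cast j => simp [lastE, (Fin.castSucc_lt_last j).ne']

theorem lastE_mul_lastE : lastE n * lastE n = lastE n := by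
  simp [lastE]

theorem star_lastE : star (lastE n) = lastE n := by
  simp [lastE, Matrix.star_eq_conjTranspose, Matrix.conjTranspose_single]

theorem padM_one_add_lastE : padM (1 : Matrix (Fin n) (Fin n) ℂ) + lastE n = 1 := by
  ext k l
  induction k using Fin.lastCases with
  | last =>
    induction l using Fin.lastCases with
    | last => simp [lastE]
    | cast l => simp [lastE, Matrix.single_apply, Matrix.one_apply]
  | cast k =>
    induction l using Fin.lastCases with
    | last => simp [lastE, (Fin.castSucc_lt_last k).ne']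
    | cast l => simp [lastE, Matrix.one_apply, (Fin.castSucc_lt_last k).ne']

/-- `x ↦ 1 ⊗ (x ⊕ 0) + x ⊗ e`. -/
def iota0 (n : ℕ) : Matrix (Fin n) (Fin n) ℂ →⋆ₐ[ℂ]
    Matrix (Fin n × Fin (n + 1)) (Fin n × Fin (n + 1)) ℂ where
  toFun x := (1 : Matrix (Fin n) (Fin n) ℂ) ⊗ₖ padM x + x ⊗ₖ lastE n
  map_one' := by
    rw [← Matrix.kronecker_add, padM_one_add_lastE, Matrix.one_kronecker_one]
  map_mul' x y := by
    rw [add_mul, mul_add, mul_add, ← Matrix.mul_kronecker_mul, ← Matrix.mul_kronecker_mul,
      ← Matrix.mul_kronecker_mul, ← Matrix.mul_kronecker_mul, padM_mul_lastE, lastE_mul_padM,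
      lastE_mul_lastE, padM_mul, one_mul, Matrix.kronecker_zero, Matrix.kronecker_zero, add_zero,
      zero_add]
  map_zero' := by
    have h : padM (0 : Matrix (Fin n) (Fin n) ℂ) = 0 := by
      have := padM_smul (0 : ℂ) (0 : Matrix (Fin n) (Fin n) ℂ)
      simpa using this
    rw [h, Matrix.kronecker_zero, Matrix.zero_kronecker, add_zero]
  map_add' x y := by
    rw [padM_add, Matrix.kronecker_add, Matrix.add_kronecker]
    abel
  commutes' c := by
    rw [Algebra.algebraMap_eq_smul_one, padM_smul, Matrix.kronecker_smul, Matrix.smul_kronecker,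
      ← smul_add, ← Matrix.kronecker_add, padM_one_add_lastE, Matrix.one_kronecker_one,
      Algebra.algebraMap_eq_smul_one]
  map_star' x := by
    have h1 : star ((1 : Matrix (Fin n) (Fin n) ℂ) ⊗ₖ padM x)
        = (1 : Matrix (Fin n) (Fin n) ℂ) ⊗ₖ padM (star x) := by
      rw [padM_star, Matrix.star_eq_conjTranspose, Matrix.conjTranspose_kronecker,
        Matrix.conjTranspose_one, Matrix.star_eq_conjTranspose]
    have h2 : star (x ⊗ₖ lastE n) = star x ⊗ₖ lastE n := by
      rw [Matrix.star_eq_conjTranspose, Matrix.conjTranspose_kronecker,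
        ← Matrix.star_eq_conjTranspose (lastE n), star_lastE, Matrix.star_eq_conjTranspose]
    rw [star_add, h1, h2]

/-- `y ↦ 1 ⊗ y`. -/
def iota1 (n : ℕ) : Matrix (Fin (n + 1)) (Fin (n + 1)) ℂ →⋆ₐ[ℂ]
    Matrix (Fin n × Fin (n + 1)) (Fin n × Fin (n + 1)) ℂ where
  toFun y := (1 : Matrix (Fin n) (Fin n) ℂ) ⊗ₖ y
  map_one' := Matrix.one_kronecker_one
  map_mul' x y := by rw [← Matrix.mul_kronecker_mul, one_mul]
  map_zero' := Matrix.kronecker_zero _
  map_add' x y := Matrix.kronecker_add _ _ _
  commutes' c := by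
    rw [Algebra.algebraMap_eq_smul_one, Matrix.kronecker_smul, Matrix.one_kronecker_one,
      Algebra.algebraMap_eq_smul_one]
  map_star' x := by
    rw [Matrix.star_eq_conjTranspose, Matrix.star_eq_conjTranspose,
      Matrix.conjTranspose_kronecker, Matrix.conjTranspose_one]

theorem iota0_apply (x : Matrix (Fin n) (Fin n) ℂ) :
    iota0 n x = (1 : Matrix (Fin n) (Fin n) ℂ) ⊗ₖ padM x + x ⊗ₖ lastE n := rfl

theorem iota1_apply (y : Matrix (Fin (n + 1)) (Fin (n + 1)) ℂ) :
    iota1 n y = (1 : Matrix (Fin n) (Fin n) ℂ) ⊗ₖ y := rfl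

end Vale.Agent.P101
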