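import Mathlib
import Vale.Agent.P101.Iota
import Vale.Agent.P101.GlueDefs

/-!
# P101, Step 6: the dimension drop algebras inside the twisted algebras
-/

open scoped Kronecker

namespace Vale.Agent.P101

namespace DimHom

variable {N : ℕ}

/-- The flip on `ℂ^N ⊗ ℂ^N ⊆ ℂ^N ⊗ ℂ^(N+1)`. -/
def flipM (N : ℕ) : Matrix (Fin N × Fin (N + 1)) (Fin N × Fin (N + 1)) ℂ :=
  Matrix.of fun p q => if p.2 = q.1.castSucc ∧ q.2 = p.1.castSucc then 1 else 0

/-- The projection onto `ℂ^N ⊗ ℂ^N ⊆ ℂ^N ⊗ ℂ^(N+1)`. -/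
def prM (N : ℕ) : Matrix (Fin N × Fin (N + 1)) (Fin N × Fin (N + 1)) ℂ :=
  Matrix.diagonal fun p => if p.2 = Fin.last N then 0 else 1

abbrev MP (N : ℕ) := Matrix (Fin N × Fin (N + 1)) (Fin N × Fin (N + 1)) ℂ

@[simp] theorem flipM_mul_castSucc (X : MP N) (i k : Fin N) (r : Fin N × Fin (N + 1)) :
    (flipM N * X) (i, k.castSucc) r = X (k, i.castSucc) r := by
  rw [Matrix.mul_apply, Finset.sum_eq_single (k, i.castSucc)]
  · simp [flipM]
  · rintro ⟨a, b⟩ - h
    have : ¬ (k = a ∧ b = i.castSucc) := fun ⟨h1, h2⟩ => h (by rw [h1, h2])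
    simp [flipM, this]
  · simp

@[simp] theorem flipM_mul_last (X : MP N) (i : Fin N) (r : Fin N × Fin (N + 1)) :
    (flipM N * X) (i, Fin.last N) r = 0 := by
  rw [Matrix.mul_apply, Finset.sum_eq_zero]
  rintro ⟨a, b⟩ -
  simp [flipM, (Fin.castSucc_lt_last _).ne']

@[simp] theorem mul_flipM_castSucc (X : MP N) (i k : Fin N) (r : Fin N × Fin (N + 1)) :
    (X * flipM N) r (i, k.castSucc) = X r (k, i.castSucc) := by
  rw [Matrix.mul_apply, Finset.sum_eq_single (k, i.castSucc)]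
  · simp [flipM]
  · rintro ⟨a, b⟩ - h
    have : ¬ (b = i.castSucc ∧ k = a) := fun ⟨h1, h2⟩ => h (by rw [h1, h2])
    simp [flipM, this]
  · simp

@[simp] theorem mul_flipM_last (X : MP N) (i : Fin N) (r : Fin N × Fin (N + 1)) :
    (X * flipM N) r (i, Fin.last N) = 0 := by
  rw [Matrix.mul_apply, Finset.sum_eq_zero]
  rintro ⟨a, b⟩ -
  simp [flipM, (Fin.castSucc_lt_last _).ne']

@[simp] theorem prM_mul_castSucc (X : MP N) (i k : Fin N) (r : Fin N × Fin (N + 1)) :
    (prM N * X) (i, k.castSucc) r = X (i, k.castSucc) r := by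
  simp [prM, Matrix.diagonal_mul]

@[simp] theorem prM_mul_last (X : MP N) (i : Fin N) (r : Fin N × Fin (N + 1)) :
    (prM N * X) (i, Fin.last N) r = 0 := by
  simp [prM, Matrix.diagonal_mul]

@[simp] theorem mul_prM_castSucc (X : MP N) (i k : Fin N) (r : Fin N × Fin (N + 1)) :
    (X * prM N) r (i, k.castSucc) = X r (i, k.castSucc) := by
  simp [prM, Matrix.mul_diagonal]

@[simp] theorem mul_prM_last (X : MP N) (i : Fin N) (r : Fin N × Fin (N + 1)) :
    (X * prM N) r (i, Fin.last N) = 0 := by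
  simp [prM, Matrix.mul_diagonal]

theorem ext_last {X Y : MP N}
    (h1 : ∀ i k j l, X (i, Fin.castSucc k) (j, Fin.castSucc l) =
      Y (i, Fin.castSucc k) (j, Fin.castSucc l))
    (h2 : ∀ i j l, X (i, Fin.last N) (j, Fin.castSucc l) =
      Y (i, Fin.last N) (j, Fin.castSucc l))
    (h3 : ∀ i k j, X (i, Fin.castSucc k) (j, Fin.last N) =
      Y (i, Fin.castSucc k) (j, Fin.last N))
    (h4 : ∀ i j, X (i, Fin.last N) (j, Fin.last N) =
      Y (i, Fin.last N) (j, Fin.last N)) : X = Y := by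
  ext ⟨i, k⟩ ⟨j, l⟩
  refine Fin.lastCases ?_ (fun k' => ?_) k
  · refine Fin.lastCases ?_ (fun l' => ?_) l
    · exact h4 i j
    · exact h2 i j l'
  · refine Fin.lastCases ?_ (fun l' => ?_) l
    · exact h3 i k' j
    · exact h1 i k' j l'

theorem flipM_apply_cc (i k j l : Fin N) :
    flipM N (i, k.castSucc) (j, l.castSucc) = if k = j ∧ l = i then 1 else 0 := by
  simp [flipM]

theorem flipM_apply_lc (i j l : Fin N) :
    flipM N (i, Fin.last N) (j, l.castSucc) = 0 := by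
  simp [flipM, (Fin.castSucc_lt_last _).ne']

theorem flipM_apply_cl (i k j : Fin N) :
    flipM N (i, k.castSucc) (j, Fin.last N) = 0 := by
  simp [flipM, (Fin.castSucc_lt_last _).ne']

theorem flipM_apply_ll (i j : Fin N) :
    flipM N (i, Fin.last N) (j, Fin.last N) = 0 := by
  simp [flipM, (Fin.castSucc_lt_last _).ne']

theorem prM_apply_cc (i k j l : Fin N) :
    prM N (i, k.castSucc) (j, l.castSucc) = if i = j ∧ k = l then 1 else 0 := by
  simp [prM, Matrix.diagonal_apply]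

theorem prM_apply_lc (i j l : Fin N) :
    prM N (i, Fin.last N) (j, l.castSucc) = 0 := by
  simp [prM, Matrix.diagonal_apply]

theorem prM_apply_cl (i k j : Fin N) :
    prM N (i, k.castSucc) (j, Fin.last N) = 0 := by
  simp [prM, (Fin.castSucc_lt_last _).ne]

theorem prM_apply_ll (i j : Fin N) :
    prM N (i, Fin.last N) (j, Fin.last N) = 0 := by
  simp [prM, Matrix.diagonal_apply]

theorem flipM_mul_flipM : flipM N * flipM N = prM N := by
  apply ext_last <;> intros <;>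
    simp [flipM_apply_cc, flipM_apply_lc, flipM_apply_cl, flipM_apply_ll, prM_apply_cc,
      prM_apply_lc, prM_apply_cl, prM_apply_ll, and_comm, eq_comm]

theorem flipM_mul_prM : flipM N * prM N = flipM N := by
  apply ext_last <;> intros <;>
    simp [flipM_apply_cc, flipM_apply_lc, flipM_apply_cl, flipM_apply_ll, prM_apply_cc,
      prM_apply_lc, prM_apply_cl, prM_apply_ll, and_comm, eq_comm]

theorem prM_mul_flipM : prM N * flipM N = flipM N := by
  apply ext_last <;> intros <;>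
    simp [flipM_apply_cc, flipM_apply_lc, flipM_apply_cl, flipM_apply_ll, prM_apply_cc,
      prM_apply_lc, prM_apply_cl, and_comm, eq_comm]

theorem prM_mul_prM : prM N * prM N = prM N := by
  apply ext_last <;> intros <;>
    simp [prM_apply_lc, prM_apply_cl, prM_apply_ll]

theorem star_flipM : star (flipM N) = flipM N := by
  ext ⟨i, k⟩ ⟨j, l⟩
  simp [Matrix.star_apply, flipM, and_comm]

theorem star_prM : star (prM N) = prM N := by
  ext ⟨i, k⟩ ⟨j, l⟩
  by_cases h : (i, k) = (j, l)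
  · obtain ⟨rfl, rfl⟩ := Prod.mk.inj h
    simp [Matrix.star_apply, prM]
  · simp [Matrix.star_apply, prM, Matrix.diagonal_apply_ne _ h, Matrix.diagonal_apply_ne _ (Ne.symm h)]

/-- The path of unitaries which undoes the twist. -/
noncomputable def uM (N : ℕ) (t : ℝ) : MP N :=
  (1 - prM N) + (Real.sin (Real.pi / 2 * t) : ℂ) • prM N +
    (Complex.I * (Real.cos (Real.pi / 2 * t) : ℂ)) • flipM N

theorem star_uM (t : ℝ) : star (uM N t) = (1 - prM N) + (Real.sin (Real.pi / 2 * t) : ℂ) • prM N -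
    (Complex.I * (Real.cos (Real.pi / 2 * t) : ℂ)) • flipM N := by
  simp only [uM, star_add, star_sub, star_one, star_prM, star_smul, star_flipM, RCLike.star_def,
    map_mul, Complex.conj_ofReal, Complex.conj_I]
  module

theorem uM_mul_star (t : ℝ) : uM N t * star (uM N t) = 1 := by
  rw [star_uM, uM]
  have h : (Real.sin (Real.pi / 2 * t) : ℂ) * (Real.sin (Real.pi / 2 * t) : ℂ) +
      (Real.cos (Real.pi / 2 * t) : ℂ) * (Real.cos (Real.pi / 2 * t) : ℂ) = 1 := by
    have := Real.sin_sq_add_cos_sq (Real.pi / 2 * t)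
    exact_mod_cast (by nlinarith : Real.sin (Real.pi / 2 * t) * Real.sin (Real.pi / 2 * t) +
      Real.cos (Real.pi / 2 * t) * Real.cos (Real.pi / 2 * t) = 1)
  have hI := Complex.I_mul_I
  generalize (Real.sin (Real.pi / 2 * t) : ℂ) = a at *
  generalize (Real.cos (Real.pi / 2 * t) : ℂ) = b at *
  simp only [add_mul, sub_mul, mul_add, mul_sub, one_mul, mul_one, smul_mul_assoc,
    mul_smul_comm, flipM_mul_flipM, flipM_mul_prM, prM_mul_flipM, prM_mul_prM]
  linear_combination (norm := module) (h - b * b * hI) • prM N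

theorem star_mul_uM (t : ℝ) : star (uM N t) * uM N t = 1 :=
  mul_eq_one_comm.mp (uM_mul_star t)

theorem uM_one : uM N 1 = 1 := by
  simp [uM]

theorem uM_zero : uM N 0 = (1 - prM N) + Complex.I • flipM N := by
  simp [uM]

theorem continuous_uM : Continuous (uM N) := by
  unfold uM
  fun_prop

/-- `x ↦ x ⊗ 1`. -/
def lHom (N M : ℕ) : Matrix (Fin N) (Fin N) ℂ →⋆ₐ[ℂ]
    Matrix (Fin N × Fin M) (Fin N × Fin M) ℂ where
  toFun x := x ⊗ₖ (1 : Matrix (Fin M) (Fin M) ℂ)
  map_one' := Matrix.one_kronecker_one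
  map_mul' x y := by rw [← Matrix.mul_kronecker_mul, one_mul]
  map_zero' := Matrix.zero_kronecker _
  map_add' x y := Matrix.add_kronecker x y _
  commutes' c := by
    rw [Algebra.algebraMap_eq_smul_one, Algebra.algebraMap_eq_smul_one, Matrix.smul_kronecker,
      Matrix.one_kronecker_one]
  map_star' x := by
    rw [Matrix.star_eq_conjTranspose, Matrix.star_eq_conjTranspose,
      Matrix.conjTranspose_kronecker, Matrix.conjTranspose_one]

/-- Conjugation by a unitary. -/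
def conjHom {R : Type*} [Ring R] [StarRing R] [Algebra ℂ R] [StarModule ℂ R] (u : R)
    (h : u * star u = 1) (h' : star u * u = 1) : R →⋆ₐ[ℂ] R where
  toFun x := u * x * star u
  map_one' := by rw [mul_one, h]
  map_mul' x y := by
    rw [show u * x * star u * (u * y * star u) = u * x * (star u * u) * y * star u by
      simp only [mul_assoc], h', mul_one]
    simp only [mul_assoc]
  map_zero' := by simp
  map_add' x y := by simp [mul_add, add_mul]
  commutes' c := by
    rw [Algebra.algebraMap_eq_smul_one, mul_smul_comm, smul_mul_assoc, mul_one, h]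
  map_star' x := by simp [mul_assoc]

theorem iota0_cc (x : Matrix (Fin N) (Fin N) ℂ) (i k j l : Fin N) :
    iota0 N x (i, k.castSucc) (j, l.castSucc) = if i = j then x k l else 0 := by
  simp [iota0_apply, lastE, Matrix.one_apply, (Fin.castSucc_lt_last _).ne']

theorem iota0_lc (x : Matrix (Fin N) (Fin N) ℂ) (i j l : Fin N) :
    iota0 N x (i, Fin.last N) (j, l.castSucc) = 0 := by
  simp [iota0_apply, lastE, (Fin.castSucc_lt_last _).ne']

theorem iota0_cl (x : Matrix (Fin N) (Fin N) ℂ) (i k j : Fin N) :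
    iota0 N x (i, k.castSucc) (j, Fin.last N) = 0 := by
  simp [iota0_apply, lastE, (Fin.castSucc_lt_last _).ne']

theorem iota0_ll (x : Matrix (Fin N) (Fin N) ℂ) (i j : Fin N) :
    iota0 N x (i, Fin.last N) (j, Fin.last N) = x i j := by
  simp [iota0_apply, lastE]

theorem uM_zero_mul_mul (x : Matrix (Fin N) (Fin N) ℂ) :
    uM N 0 * (x ⊗ₖ (1 : Matrix (Fin (N + 1)) (Fin (N + 1)) ℂ)) * star (uM N 0) = iota0 N x := by
  have h : star (uM N 0) = (1 - prM N) - Complex.I • flipM N := by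
    rw [star_uM]; simp
  rw [h, uM_zero]
  have e1 : ∀ X : MP N, ((1 - prM N) + Complex.I • flipM N) * X *
      ((1 - prM N) - Complex.I • flipM N) = X - prM N * X - X * prM N + prM N * (X * prM N) +
      Complex.I • (flipM N * X) - Complex.I • (flipM N * (X * prM N)) - Complex.I • (X * flipM N)
      + Complex.I • (prM N * (X * flipM N)) + flipM N * (X * flipM N) := by
    intro X
    have hI := Complex.I_mul_I
    simp only [add_mul, sub_mul, mul_add, mul_sub, one_mul, mul_one, smul_mul_assoc,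
      mul_smul_comm, mul_assoc]
    linear_combination (norm := module) (-hI) • (flipM N * (X * flipM N))
  rw [e1]
  apply ext_last <;> intros <;>
    simp [iota0_cc, iota0_lc, iota0_cl, iota0_ll, Matrix.one_apply,
      (Fin.castSucc_lt_last _).ne', (Fin.castSucc_lt_last _).ne, eq_comm]

theorem iota0_injective (N : ℕ) : Function.Injective (iota0 N) := by
  intro x y h
  ext i j
  have := congr_fun (congr_fun h (i, Fin.last N)) (j, Fin.last N)
  rwa [iota0_ll, iota0_ll] at this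

theorem iota1_injective (N : ℕ) [NeZero N] : Function.Injective (iota1 N) := by
  intro x y h
  ext k l
  have := congr_fun (congr_fun h (0, k)) (0, l)
  simpa [iota1_apply] using this

/-- the index map -/
def sigmaE {p q a b N M : ℕ} (e₁ : Fin N ≃ Fin p × Fin a) (e₂ : Fin M ≃ Fin q × Fin b) :
    Fin N × Fin M ≃ (Fin p × Fin q) × (Fin a × Fin b) :=
  (Equiv.prodCongr e₁ e₂).trans (Equiv.prodProdProdComm _ _ _ _)

/-- The embedding `M_p ⊗ M_q → M_N ⊗ M_M` -/
def jHom {p q a b N M : ℕ} (e₁ : Fin N ≃ Fin p × Fin a) (e₂ : Fin M ≃ Fin q × Fin b) :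
    Matrix (Fin p × Fin q) (Fin p × Fin q) ℂ →⋆ₐ[ℂ]
      Matrix (Fin N × Fin M) (Fin N × Fin M) ℂ where
  toFun x := (x ⊗ₖ (1 : Matrix (Fin a × Fin b) (Fin a × Fin b) ℂ)).submatrix
    (sigmaE e₁ e₂) (sigmaE e₁ e₂)
  map_one' := by rw [Matrix.one_kronecker_one, Matrix.submatrix_one_equiv]
  map_mul' x y := by
    rw [Matrix.submatrix_mul_equiv, ← Matrix.mul_kronecker_mul, one_mul]
  map_zero' := by simp
  map_add' x y := by rw [Matrix.add_kronecker, Matrix.submatrix_add]; rfl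
  commutes' c := by
    rw [Algebra.algebraMap_eq_smul_one, Algebra.algebraMap_eq_smul_one, Matrix.smul_kronecker,
      Matrix.one_kronecker_one]
    change c • (Matrix.submatrix 1 (sigmaE e₁ e₂) (sigmaE e₁ e₂)) = _
    rw [Matrix.submatrix_one_equiv]
  map_star' x := by
    rw [Matrix.star_eq_conjTranspose, Matrix.star_eq_conjTranspose, Matrix.conjTranspose_submatrix,
      Matrix.conjTranspose_kronecker, Matrix.conjTranspose_one]

theorem jHom_left {p q a b N M : ℕ} (e₁ : Fin N ≃ Fin p × Fin a) (e₂ : Fin M ≃ Fin q × Fin b)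
    (x : Matrix (Fin p) (Fin p) ℂ) :
    jHom e₁ e₂ (x ⊗ₖ (1 : Matrix (Fin q) (Fin q) ℂ)) =
      (x ⊗ₖ (1 : Matrix (Fin a) (Fin a) ℂ)).submatrix e₁ e₁ ⊗ₖ
        (1 : Matrix (Fin M) (Fin M) ℂ) := by
  ext ⟨i, k⟩ ⟨j, l⟩
  simp only [jHom, sigmaE, StarAlgHom.coe_mk', AlgHom.coe_mk, RingHom.coe_mk, MonoidHom.coe_mk,
    OneHom.coe_mk, Matrix.submatrix_apply, Matrix.kroneckerMap_apply, Equiv.coe_trans,
    Function.comp_apply, Equiv.prodCongr_apply, Prod.map_apply, Equiv.prodProdProdComm_apply,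
    Matrix.one_apply, Prod.mk.injEq]
  have : (k = l) ↔ ((e₂ k).1 = (e₂ l).1 ∧ (e₂ k).2 = (e₂ l).2) := by
    rw [← Prod.ext_iff, e₂.injective.eq_iff]
  by_cases h1 : (e₂ k).1 = (e₂ l).1 <;> by_cases h2 : (e₂ k).2 = (e₂ l).2 <;>
    simp [this, h1, h2]

theorem jHom_right {p q a b N M : ℕ} (e₁ : Fin N ≃ Fin p × Fin a) (e₂ : Fin M ≃ Fin q × Fin b)
    (y : Matrix (Fin q) (Fin q) ℂ) :
    jHom e₁ e₂ ((1 : Matrix (Fin p) (Fin p) ℂ) ⊗ₖ y) =
      (1 : Matrix (Fin N) (Fin N) ℂ) ⊗ₖ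
        (y ⊗ₖ (1 : Matrix (Fin b) (Fin b) ℂ)).submatrix e₂ e₂ := by
  ext ⟨i, k⟩ ⟨j, l⟩
  simp only [jHom, sigmaE, StarAlgHom.coe_mk', AlgHom.coe_mk, RingHom.coe_mk, MonoidHom.coe_mk,
    OneHom.coe_mk, Matrix.submatrix_apply, Matrix.kroneckerMap_apply, Equiv.coe_trans,
    Function.comp_apply, Equiv.prodCongr_apply, Prod.map_apply, Equiv.prodProdProdComm_apply,
    Matrix.one_apply, Prod.mk.injEq]
  have : (i = j) ↔ ((e₁ i).1 = (e₁ j).1 ∧ (e₁ i).2 = (e₁ j).2) := by
    rw [← Prod.ext_iff, e₁.injective.eq_iff]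
  by_cases h1 : (e₁ i).1 = (e₁ j).1 <;> by_cases h2 : (e₁ i).2 = (e₁ j).2 <;>
    simp [this, h1, h2]

/-- The path of unitaries as a continuous function. -/
noncomputable def uC (N : ℕ) : C(unitInterval, MP N) :=
  ⟨fun t => uM N t, continuous_uM.comp continuous_subtype_val⟩

theorem uC_mul_star : uC N * star (uC N) = 1 := by
  ext1 t
  exact uM_mul_star _

theorem star_mul_uC : star (uC N) * uC N = 1 := by
  ext1 t
  exact star_mul_uM _

/-- Postcomposition -/
noncomputable def postHom {P Q : Type*} [Fintype P] [DecidableEq P] [Fintype Q] [DecidableEq Q]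
    (j : Matrix P P ℂ →⋆ₐ[ℂ] Matrix Q Q ℂ) :
    C(unitInterval, Matrix P P ℂ) →⋆ₐ[ℂ] C(unitInterval, Matrix Q Q ℂ) where
  toFun f := ⟨fun t => j (f t), (LinearMap.continuous_of_finiteDimensional
    (j : Matrix P P ℂ →ₐ[ℂ] Matrix Q Q ℂ).toLinearMap).comp f.continuous⟩
  map_one' := by ext1 t; exact map_one j
  map_mul' f g := by ext1 t; exact map_mul j _ _
  map_zero' := by ext1 t; exact map_zero j
  map_add' f g := by ext1 t; exact map_add j _ _
  commutes' c := by ext1 t; exact AlgHomClass.commutes j c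
  map_star' f := by ext1 t; exact map_star j _

/-- The dimension drop algebra inside the continuous functions into `M_N ⊗ M_{N+1}`. -/
noncomputable def dHom {p q a b N : ℕ} (e₁ : Fin N ≃ Fin p × Fin a)
    (e₂ : Fin (N + 1) ≃ Fin q × Fin b) : DimDrop p q →⋆ₐ[ℂ] C(unitInterval, MP N) :=
  ((conjHom (uC N) uC_mul_star star_mul_uC).comp (postHom (jHom e₁ e₂))).comp
    (DimDrop p q).subtype

theorem dHom_apply {p q a b N : ℕ} (e₁ : Fin N ≃ Fin p × Fin a)
    (e₂ : Fin (N + 1) ≃ Fin q × Fin b) (f : DimDrop p q) (t : unitInterval) :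
    dHom e₁ e₂ f t = uM N t * jHom e₁ e₂ (f.1 t) * star (uM N t) := rfl

theorem dHom_zero {p q a b N : ℕ} (e₁ : Fin N ≃ Fin p × Fin a)
    (e₂ : Fin (N + 1) ≃ Fin q × Fin b) (f : DimDrop p q) :
    dHom e₁ e₂ f 0 ∈ Set.range (iota0 N) := by
  obtain ⟨x, hx⟩ := (mem_dimDrop_iff.1 f.2).1
  refine ⟨(x ⊗ₖ (1 : Matrix (Fin a) (Fin a) ℂ)).submatrix e₁ e₁, ?_⟩
  rw [dHom_apply, hx, jHom_left, ← uM_zero_mul_mul]
  rfl

theorem dHom_one {p q a b N : ℕ} (e₁ : Fin N ≃ Fin p × Fin a)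
    (e₂ : Fin (N + 1) ≃ Fin q × Fin b) (f : DimDrop p q) :
    dHom e₁ e₂ f 1 ∈ Set.range (iota1 N) := by
  obtain ⟨x, hx⟩ := (mem_dimDrop_iff.1 f.2).2
  refine ⟨(x ⊗ₖ (1 : Matrix (Fin b) (Fin b) ℂ)).submatrix e₂ e₂, ?_⟩
  rw [dHom_apply, hx, jHom_right, Set.Icc.coe_one, uM_one, star_one, one_mul, mul_one]
  rfl

end DimHom

/-- A unital `*`-homomorphism from the twisted algebras gives one from the dimension drop
algebras. -/
theorem exists_dimDrop_hom_of_glueData {B : Type*} [CStarAlgebra B] {n : ℕ}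
    (h : ∀ E : StarSubalgebra ℂ C(unitInterval, Matrix (Fin (n + 1) × Fin (n + 2))
      (Fin (n + 1) × Fin (n + 2)) ℂ), (∀ f ∈ E, f 0 ∈ Set.range (iota0 (n + 1)) ∧
        f 1 ∈ Set.range (iota1 (n + 1))) → Nonempty (E →⋆ₐ[ℂ] B))
    {p q : ℕ} (hp : p ∣ n + 1) (hq : q ∣ n + 2) : Nonempty (DimDrop p q →⋆ₐ[ℂ] B) := by
  obtain ⟨a, ha⟩ := hp
  obtain ⟨b, hb⟩ := hq
  have e₁ : Fin (n + 1) ≃ Fin p × Fin a := (finCongr ha).trans finProdFinEquiv.symm
  have e₂ : Fin (n + 1 + 1) ≃ Fin q × Fin b := (finCongr hb).trans finProdFinEquiv.symm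
  obtain ⟨Φ⟩ := h (DimHom.dHom e₁ e₂).range (by
    rintro _ ⟨f, rfl⟩
    exact ⟨DimHom.dHom_zero e₁ e₂ f, DimHom.dHom_one e₁ e₂ f⟩)
  exact ⟨Φ.comp (DimHom.dHom e₁ e₂).rangeRestrict⟩

end Vale.Agent.P101
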