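import Mathlib
import Vale.Agent.P101.GlueDefs

/-!
# P101, Step 6b: gluing homomorphisms over `[0,1]`
-/

open scoped unitInterval

namespace Vale.Agent.P101

namespace Glue

/-! ### scalar functions -/

/-- The coordinate function. -/
noncomputable def tau : C(unitInterval, ℂ) := ⟨fun t => ((t : ℝ) : ℂ), by fun_prop⟩

/-- A real function on the unit interval as a complex valued continuous map. -/
noncomputable def rc (f : ℝ → ℝ) (hf : Continuous f) : C(unitInterval, ℂ) :=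
  ⟨fun t => ((f t : ℝ) : ℂ), by fun_prop⟩

theorem rc_apply (f : ℝ → ℝ) (hf : Continuous f) (t : unitInterval) :
    rc f hf t = ((f t : ℝ) : ℂ) := rfl

noncomputable def k0f (t : ℝ) : ℝ := max 0 (1 - 4 * t) / max (1 - t) (3 / 4)
noncomputable def k2f (t : ℝ) : ℝ := max 0 (4 * t - 3) / max t (3 / 4)
noncomputable def k1f (t : ℝ) : ℝ := 1 / (max t (1 / 4) * max (1 - t) (1 / 4))

theorem continuous_k0f : Continuous k0f := by
  unfold k0f
  refine Continuous.div (by fun_prop) (by fun_prop) fun t => ?_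
  exact (lt_max_of_lt_right (by norm_num)).ne'

theorem continuous_k2f : Continuous k2f := by
  unfold k2f
  refine Continuous.div (by fun_prop) (by fun_prop) fun t => ?_
  exact (lt_max_of_lt_right (by norm_num)).ne'

theorem continuous_k1f : Continuous k1f := by
  unfold k1f
  refine Continuous.div (by fun_prop) (by fun_prop) fun t => ?_
  have h1 : (0 : ℝ) < max t (1 / 4) := lt_max_of_lt_right (by norm_num)
  have h2 : (0 : ℝ) < max (1 - t) (1 / 4) := lt_max_of_lt_right (by norm_num)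
  positivity

noncomputable def K0 : C(unitInterval, ℂ) := rc k0f continuous_k0f
noncomputable def K1 : C(unitInterval, ℂ) := rc k1f continuous_k1f
noncomputable def K2 : C(unitInterval, ℂ) := rc k2f continuous_k2f

/-- The reparametrisation `[0,1] → [0,1]`. -/
noncomputable def lam : C(unitInterval, unitInterval) :=
  ⟨fun t => Set.projIcc 0 1 zero_le_one (2 * (t : ℝ) - 1 / 2), by fun_prop⟩

theorem lam_of_le {t : unitInterval} (ht : (t : ℝ) ≤ 1 / 4) : lam t = 0 := by
  simp only [lam, ContinuousMap.coe_mk]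
  rw [Set.projIcc_of_le_left _ (by linarith)]
  rfl

theorem lam_of_ge {t : unitInterval} (ht : 3 / 4 ≤ (t : ℝ)) : lam t = 1 := by
  simp only [lam, ContinuousMap.coe_mk]
  rw [Set.projIcc_of_right_le _ (by linarith)]
  rfl

theorem k0f_eq_zero {t : ℝ} (ht : 1 / 4 ≤ t) : k0f t = 0 := by
  unfold k0f
  rw [max_eq_left (by linarith), zero_div]

theorem k2f_eq_zero {t : ℝ} (ht : t ≤ 3 / 4) : k2f t = 0 := by
  unfold k2f
  rw [max_eq_left (by linarith), zero_div]

theorem k0f_eq {t : ℝ} (ht : t ≤ 1 / 4) : k0f t = (1 - 4 * t) / (1 - t) := by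
  unfold k0f
  rw [max_eq_right (by linarith), max_eq_left (by linarith)]

theorem k2f_eq {t : ℝ} (ht : 3 / 4 ≤ t) : k2f t = (4 * t - 3) / t := by
  unfold k2f
  rw [max_eq_right (by linarith), max_eq_left (by linarith)]

theorem k1f_eq_of_le {t : ℝ} (ht : t ≤ 1 / 4) : k1f t = 4 / (1 - t) := by
  unfold k1f
  rw [max_eq_right ht, max_eq_left (by linarith)]
  have : 1 - t ≠ 0 := by linarith
  field_simp

theorem k1f_eq_of_mem {t : ℝ} (ht : 1 / 4 ≤ t) (ht' : t ≤ 3 / 4) : k1f t = 1 / (t * (1 - t)) := by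
  unfold k1f
  rw [max_eq_left ht, max_eq_left (by linarith)]

theorem k1f_eq_of_ge {t : ℝ} (ht : 3 / 4 ≤ t) : k1f t = 4 / t := by
  unfold k1f
  rw [max_eq_left (by linarith), max_eq_right (by linarith)]
  have : t ≠ 0 := by linarith
  field_simp

/-- partition of unity -/
theorem partition (t : ℝ) :
    t * (1 - t) * k1f t + (1 - t) * k0f t + t * k2f t = 1 := by
  rcases le_total t (1 / 4) with h | h
  · rw [k1f_eq_of_le h, k0f_eq h, k2f_eq_zero (by linarith)]
    have : 1 - t ≠ 0 := by linarith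
    field_simp
    ring
  · rcases le_total t (3 / 4) with h' | h'
    · rw [k1f_eq_of_mem h h', k0f_eq_zero h, k2f_eq_zero h']
      have h1 : 1 - t ≠ 0 := by linarith
      have h2 : t ≠ 0 := by linarith
      field_simp
      ring
    · rw [k1f_eq_of_ge h', k0f_eq_zero h, k2f_eq h']
      have h2 : t ≠ 0 := by linarith
      field_simp
      ring

theorem K_partition : tau * (1 - tau) * K1 + (1 - tau) * K0 + tau * K2 = 1 := by
  ext t
  have := partition (t : ℝ)
  simp only [ContinuousMap.add_apply, ContinuousMap.mul_apply, ContinuousMap.sub_apply,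
    ContinuousMap.one_apply, K0, K1, K2, rc_apply, tau, ContinuousMap.coe_mk]
  exact_mod_cast this

theorem K0_mul_K2 : K0 * K2 = 0 := by
  ext t
  simp only [ContinuousMap.mul_apply, K0, K2, rc_apply, ContinuousMap.zero_apply]
  rcases le_total (t : ℝ) (1 / 4) with h | h
  · rw [k2f_eq_zero (by linarith)]
    simp
  · rw [k0f_eq_zero h]
    simp

/-- `(1-τ) k0² + (1-τ) k0 k1 τ = k0` -/
theorem K0_eq : (1 - tau) * K0 * K0 + (1 - tau) * K0 * K1 * tau = K0 := by
  ext t
  have key : (1 - (t : ℝ)) * k0f t * k0f t + (1 - t) * k0f t * k1f t * t = k0f t := by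
    rcases le_total (t : ℝ) (1 / 4) with h | h
    · rw [k1f_eq_of_le h, k0f_eq h]
      have : 1 - (t : ℝ) ≠ 0 := by linarith
      field_simp
      ring
    · rw [k0f_eq_zero h]
      ring
  simp only [ContinuousMap.add_apply, ContinuousMap.mul_apply, ContinuousMap.sub_apply,
    ContinuousMap.one_apply, K0, K1, rc_apply, tau, ContinuousMap.coe_mk]
  exact_mod_cast key

theorem K2_eq : tau * K2 * K2 + tau * K2 * K1 * (1 - tau) = K2 := by
  ext t
  have key : (t : ℝ) * k2f t * k2f t + t * k2f t * k1f t * (1 - t) = k2f t := by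
    rcases le_total (3 / 4) (t : ℝ) with h | h
    · rw [k1f_eq_of_ge h, k2f_eq h]
      have : (t : ℝ) ≠ 0 := by linarith
      field_simp
      ring
    · rw [k2f_eq_zero h]
      ring
  simp only [ContinuousMap.add_apply, ContinuousMap.mul_apply, ContinuousMap.sub_apply,
    ContinuousMap.one_apply, K2, K1, rc_apply, tau, ContinuousMap.coe_mk]
  exact_mod_cast key

theorem star_rc (f : ℝ → ℝ) (hf : Continuous f) : star (rc f hf) = rc f hf := by
  ext t
  simp [rc_apply]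

theorem star_tau : star tau = tau := by
  ext t
  simp [tau]

end Glue

section Om

variable {B : Type*} [CStarAlgebra B] {P : Type*} [Fintype P] [DecidableEq P]

/-- Matrix entries of a matrix valued function. -/
noncomputable def entry (F : C(unitInterval, Matrix P P ℂ)) (a b : P) : C(unitInterval, ℂ) :=
  ⟨fun t => F t a b, by fun_prop⟩

omit [Fintype P] [DecidableEq P] in
theorem entry_apply (F : C(unitInterval, Matrix P P ℂ)) (a b : P) (t : unitInterval) :
    entry F a b t = F t a b := rfl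

/-- The functional `F ↦ ∑ γ(F_ab) α(E_ab)`. -/
noncomputable def Om (γ : C(unitInterval, ℂ) →⋆ₐ[ℂ] B) (α : Matrix P P ℂ →ₗ[ℂ] B)
    (F : C(unitInterval, Matrix P P ℂ)) : B :=
  ∑ a, ∑ b, γ (entry F a b) * α (Matrix.single a b 1)

variable {γ : C(unitInterval, ℂ) →⋆ₐ[ℂ] B} {α : Matrix P P ℂ →ₗ[ℂ] B}

theorem Om_add (F G : C(unitInterval, Matrix P P ℂ)) : Om γ α (F + G) = Om γ α F + Om γ α G := by
  unfold Om
  simp only [← Finset.sum_add_distrib]
  refine Finset.sum_congr rfl fun a _ => Finset.sum_congr rfl fun b _ => ?_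
  rw [← add_mul, ← map_add]
  rfl

theorem Om_zero : Om γ α 0 = 0 := by
  unfold Om
  refine Finset.sum_eq_zero fun a _ => Finset.sum_eq_zero fun b _ => ?_
  have : entry (0 : C(unitInterval, Matrix P P ℂ)) a b = 0 := rfl
  rw [this, map_zero, zero_mul]

/-- multiplication of a matrix valued function by a scalar valued function -/
noncomputable def smulF (g : C(unitInterval, ℂ)) (F : C(unitInterval, Matrix P P ℂ)) :
    C(unitInterval, Matrix P P ℂ) := ⟨fun t => g t • F t, by fun_prop⟩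

omit [Fintype P] [DecidableEq P] in
theorem smulF_apply (g : C(unitInterval, ℂ)) (F : C(unitInterval, Matrix P P ℂ))
    (t : unitInterval) : smulF g F t = g t • F t := rfl

theorem Om_smulF (g : C(unitInterval, ℂ)) (F : C(unitInterval, Matrix P P ℂ)) :
    Om γ α (smulF g F) = γ g * Om γ α F := by
  unfold Om
  simp only [Finset.mul_sum]
  refine Finset.sum_congr rfl fun a _ => Finset.sum_congr rfl fun b _ => ?_
  have : entry (smulF g F) a b = g * entry F a b := by
    ext t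
    simp [entry_apply, smulF_apply]
  rw [this, map_mul, mul_assoc]

theorem Om_smul (c : ℂ) (F : C(unitInterval, Matrix P P ℂ)) :
    Om γ α (c • F) = c • Om γ α F := by
  unfold Om
  simp only [Finset.smul_sum]
  refine Finset.sum_congr rfl fun a _ => Finset.sum_congr rfl fun b _ => ?_
  have : entry (c • F) a b = c • entry F a b := by
    ext t
    simp [entry_apply]
  rw [this, map_smul, smul_mul_assoc]

/-- constant matrix valued function -/
noncomputable def constF (X : Matrix P P ℂ) : C(unitInterval, Matrix P P ℂ) := ContinuousMap.const _ X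

theorem Om_constF (X : Matrix P P ℂ) : Om γ α (constF X) = α X := by
  conv_rhs => rw [Matrix.matrix_eq_sum_single X, map_sum]
  unfold Om
  refine Finset.sum_congr rfl fun a _ => ?_
  rw [map_sum]
  refine Finset.sum_congr rfl fun b _ => ?_
  have : entry (constF X) a b = algebraMap ℂ _ (X a b) := by
    ext t
    rfl
  rw [this, AlgHomClass.commutes, ← Algebra.smul_def, ← map_smul, Matrix.smul_single, smul_eq_mul,
    mul_one]

end Om

namespace GlueData

variable {B : Type*} [CStarAlgebra B] {P : Type*} [Fintype P] [DecidableEq P] {n m : ℕ}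
  {ι₀ : Matrix (Fin n) (Fin n) ℂ →⋆ₐ[ℂ] Matrix P P ℂ}
  {ι₁ : Matrix (Fin m) (Fin m) ℂ →⋆ₐ[ℂ] Matrix P P ℂ}
  {γ : C(unitInterval, ℂ) →⋆ₐ[ℂ] B} {T : B}
  {α : Matrix P P ℂ →ₗ[ℂ] B} {μ₀ : Matrix (Fin n) (Fin n) ℂ →ₗ[ℂ] B}
  {μ₁ : Matrix (Fin m) (Fin m) ℂ →ₗ[ℂ] B}

theorem γ_tau (h : GlueData ι₀ ι₁ γ T α μ₀ μ₁) : γ Glue.tau = T := h.hT

theorem Om_mul (h : GlueData ι₀ ι₁ γ T α μ₀ μ₁) (F G : C(unitInterval, Matrix P P ℂ)) :
    Om γ α F * Om γ α G = Om γ α (smulF (Glue.tau * (1 - Glue.tau)) (F * G)) := by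
  rw [Om_smulF, map_mul, map_sub, map_one, h.γ_tau]
  unfold Om
  rw [Finset.sum_mul, Finset.mul_sum]
  refine Finset.sum_congr rfl fun a _ => ?_
  have e : ∀ b c d, γ (entry F a b) * α (Matrix.single a b 1)
      * (γ (entry G c d) * α (Matrix.single c d 1))
      = if b = c then T * (1 - T) * (γ (entry F a b * entry G b d) * α (Matrix.single a d 1))
        else 0 := by
    intro b c d
    have e1 : γ (entry F a b) * α (Matrix.single a b 1)
      * (γ (entry G c d) * α (Matrix.single c d 1))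
      = γ (entry F a b) * γ (entry G c d) * (α (Matrix.single a b 1) * α (Matrix.single c d 1)) := by
      rw [mul_assoc, ← mul_assoc (α (Matrix.single a b 1)), ← (h.comm_α (entry G c d) _).eq]
      simp only [mul_assoc]
    rw [e1, h.mul_α]
    have hcomm : Commute (T * (1 - T)) (γ (entry F a b) * γ (entry G c d)) := by
      rw [← h.γ_tau, ← map_one γ, ← map_sub, ← map_mul, ← map_mul, commute_iff_eq, ← map_mul,
        ← map_mul, mul_comm]
    split_ifs with hbc
    · subst hbc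
      rw [Matrix.single_mul_single_same, mul_one, map_mul, ← mul_assoc, ← hcomm.eq]
      simp only [mul_assoc]
    · rw [Matrix.single_mul_single_of_ne _ _ _ _ hbc, map_zero, mul_zero, mul_zero]
  rw [Finset.sum_mul, Finset.mul_sum]
  simp only [Finset.mul_sum, e]
  have e2 : ∀ x : P, ∑ c, ∑ d, (if x = c then T * (1 - T) * (γ (entry F a x * entry G x d)
        * α (Matrix.single a d 1)) else 0)
      = ∑ d, T * (1 - T) * (γ (entry F a x * entry G x d) * α (Matrix.single a d 1)) := by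
    intro x
    rw [Finset.sum_comm]
    refine Finset.sum_congr rfl fun d _ => ?_
    rw [Finset.sum_ite_eq Finset.univ x, if_pos (Finset.mem_univ _)]
  simp only [e2]
  rw [Finset.sum_comm]
  refine Finset.sum_congr rfl fun d _ => ?_
  rw [← Finset.mul_sum, ← Finset.sum_mul, ← map_sum]
  congr 4
  ext t
  simp only [entry_apply, ContinuousMap.coe_sum, Finset.sum_apply, ContinuousMap.mul_apply,
    Matrix.mul_apply]

theorem Om_star (h : GlueData ι₀ ι₁ γ T α μ₀ μ₁) (F : C(unitInterval, Matrix P P ℂ)) :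
    star (Om γ α F) = Om γ α (star F) := by
  unfold Om
  simp only [star_sum]
  rw [Finset.sum_comm]
  refine Finset.sum_congr rfl fun a _ => Finset.sum_congr rfl fun b _ => ?_
  rw [star_mul, h.star_α, ← map_star, Matrix.star_eq_conjTranspose, Matrix.conjTranspose_single,
    star_one, ← (h.comm_α _ _).eq]
  rfl

theorem comm_Om (h : GlueData ι₀ ι₁ γ T α μ₀ μ₁) (f : C(unitInterval, ℂ))
    (F : C(unitInterval, Matrix P P ℂ)) : Commute (γ f) (Om γ α F) := by
  unfold Om
  refine Commute.sum_right _ _ _ fun a _ => Commute.sum_right _ _ _ fun b _ => ?_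
  refine Commute.mul_right ?_ (h.comm_α _ _)
  rw [commute_iff_eq, ← map_mul, ← map_mul, mul_comm]

theorem sum_entry (γ : C(unitInterval, ℂ) →⋆ₐ[ℂ] B) (α : Matrix P P ℂ →ₗ[ℂ] B)
    (X : Matrix P P ℂ) (F : C(unitInterval, Matrix P P ℂ)) :
    ∑ a, ∑ b, γ (entry F a b) * α (X * Matrix.single a b 1) = Om γ α (constF X * F) := by
  have e1 : ∀ a b, X * Matrix.single a b 1 = ∑ c, X c a • Matrix.single c b (1 : ℂ) := by
    intro a b
    ext i j
    rw [Matrix.sum_apply]
    simp only [Matrix.smul_apply, Matrix.single_apply, smul_eq_mul, mul_ite, mul_one, mul_zero]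
    rw [Matrix.mul_apply]
    simp only [Matrix.single_apply, mul_ite, mul_one, mul_zero]
    by_cases hb : b = j
    · subst hb
      simp
    · simp [hb]
  have e2 : ∀ c b, entry (constF X * F) c b = ∑ a, X c a • entry F a b := by
    intro c b
    ext t
    rw [ContinuousMap.coe_sum, Finset.sum_apply, entry_apply, ContinuousMap.mul_apply,
      Matrix.mul_apply]
    rfl
  unfold Om
  simp only [e1, e2, map_sum, map_smul, Finset.mul_sum, Finset.sum_mul, mul_smul_comm,
    smul_mul_assoc]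
  rw [Finset.sum_comm]
  have e3 : ∀ b, ∑ a, ∑ c, X c a • (γ (entry F a b) * α (Matrix.single c b 1))
      = ∑ c, ∑ a, X c a • (γ (entry F a b) * α (Matrix.single c b 1)) := fun b => Finset.sum_comm
  simp only [e3]
  rw [Finset.sum_comm]

theorem μ₀_Om (h : GlueData ι₀ ι₁ γ T α μ₀ μ₁) (x : Matrix (Fin n) (Fin n) ℂ)
    (F : C(unitInterval, Matrix P P ℂ)) :
    μ₀ x * Om γ α F = (1 - T) * Om γ α (constF (ι₀ x) * F) := by
  rw [← sum_entry]
  unfold Om
  simp only [Finset.mul_sum]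
  refine Finset.sum_congr rfl fun a _ => Finset.sum_congr rfl fun b _ => ?_
  have hc : Commute (1 - T) (γ (entry F a b)) := by
    rw [← h.γ_tau, ← map_one γ, ← map_sub, commute_iff_eq, ← map_mul, ← map_mul, mul_comm]
  rw [← mul_assoc, ← (h.comm_μ₀ _ _).eq, mul_assoc, h.μ₀_α, ← mul_assoc, ← mul_assoc, hc.eq]

theorem μ₁_Om (h : GlueData ι₀ ι₁ γ T α μ₀ μ₁) (y : Matrix (Fin m) (Fin m) ℂ)
    (F : C(unitInterval, Matrix P P ℂ)) :
    μ₁ y * Om γ α F = T * Om γ α (constF (ι₁ y) * F) := by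
  rw [← sum_entry]
  unfold Om
  simp only [Finset.mul_sum]
  refine Finset.sum_congr rfl fun a _ => Finset.sum_congr rfl fun b _ => ?_
  have hc : Commute T (γ (entry F a b)) := by
    rw [← h.γ_tau, commute_iff_eq, ← map_mul, ← map_mul, mul_comm]
  rw [← mul_assoc, ← (h.comm_μ₁ _ _).eq, mul_assoc, h.μ₁_α, ← mul_assoc, ← mul_assoc, hc.eq]

theorem Om_μ₀ (h : GlueData ι₀ ι₁ γ T α μ₀ μ₁) (x : Matrix (Fin n) (Fin n) ℂ)
    (F : C(unitInterval, Matrix P P ℂ)) :
    Om γ α F * μ₀ x = (1 - T) * Om γ α (F * constF (ι₀ x)) := by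
  have e := h.μ₀_Om (star x) (star F)
  have hT : star (1 - T) = 1 - T := by
    rw [← h.γ_tau, ← map_one γ, ← map_sub, ← map_star, star_sub, star_one, Glue.star_tau]
  have hc : Commute (1 - T) (Om γ α (F * constF (ι₀ x))) := by
    rw [← h.γ_tau, ← map_one γ, ← map_sub]
    exact h.comm_Om _ _
  have e' := congrArg star e
  rw [star_mul, star_mul, h.Om_star, h.Om_star, h.star_μ₀, star_star, star_star, hT, star_mul,
    star_star] at e'
  rw [e', hc.eq]
  congr 3
  ext t
  simp [constF, map_star]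

theorem Om_μ₁ (h : GlueData ι₀ ι₁ γ T α μ₀ μ₁) (y : Matrix (Fin m) (Fin m) ℂ)
    (F : C(unitInterval, Matrix P P ℂ)) :
    Om γ α F * μ₁ y = T * Om γ α (F * constF (ι₁ y)) := by
  have e := h.μ₁_Om (star y) (star F)
  have hT : star T = T := by
    rw [← h.γ_tau, ← map_star, Glue.star_tau]
  have hc : Commute T (Om γ α (F * constF (ι₁ y))) := by
    rw [← h.γ_tau]
    exact h.comm_Om _ _
  have e' := congrArg star e
  rw [star_mul, star_mul, h.Om_star, h.Om_star, h.star_μ₁, star_star, star_star, hT, star_mul,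
    star_star] at e'
  rw [e', hc.eq]
  congr 3
  ext t
  simp [constF, map_star]

/-- The reparametrised function, cut down to the interior. -/
noncomputable def mid (F : C(unitInterval, Matrix P P ℂ)) : C(unitInterval, Matrix P P ℂ) :=
  smulF Glue.K1 (F.comp Glue.lam)

omit [Fintype P] [DecidableEq P] in
theorem mid_apply (F : C(unitInterval, Matrix P P ℂ)) (t : unitInterval) :
    mid F t = Glue.K1 t • F (Glue.lam t) := rfl

/-- The glued map. -/
noncomputable def omega (γ : C(unitInterval, ℂ) →⋆ₐ[ℂ] B) (α : Matrix P P ℂ →ₗ[ℂ] B)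
    (μ₀ : Matrix (Fin n) (Fin n) ℂ →ₗ[ℂ] B) (μ₁ : Matrix (Fin m) (Fin m) ℂ →ₗ[ℂ] B)
    (ρ₀ : Matrix P P ℂ →ₗ[ℂ] Matrix (Fin n) (Fin n) ℂ)
    (ρ₁ : Matrix P P ℂ →ₗ[ℂ] Matrix (Fin m) (Fin m) ℂ)
    (F : C(unitInterval, Matrix P P ℂ)) : B :=
  Om γ α (mid F) + γ Glue.K0 * μ₀ (ρ₀ (F 0)) + γ Glue.K2 * μ₁ (ρ₁ (F 1))

theorem omega_mul (h : GlueData ι₀ ι₁ γ T α μ₀ μ₁)
    {ρ₀ : Matrix P P ℂ →ₗ[ℂ] Matrix (Fin n) (Fin n) ℂ}
    {ρ₁ : Matrix P P ℂ →ₗ[ℂ] Matrix (Fin m) (Fin m) ℂ}
    (h₀ : ∀ x, ρ₀ (ι₀ x) = x) (h₁ : ∀ y, ρ₁ (ι₁ y) = y)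
    (F G : C(unitInterval, Matrix P P ℂ))
    {x x' : Matrix (Fin n) (Fin n) ℂ} {y y' : Matrix (Fin m) (Fin m) ℂ}
    (hF0 : F 0 = ι₀ x) (hF1 : F 1 = ι₁ y) (hG0 : G 0 = ι₀ x') (hG1 : G 1 = ι₁ y') :
    omega γ α μ₀ μ₁ ρ₀ ρ₁ F * omega γ α μ₀ μ₁ ρ₀ ρ₁ G = omega γ α μ₀ μ₁ ρ₀ ρ₁ (F * G) := by
  have hFG0 : (F * G) 0 = ι₀ (x * x') := by rw [ContinuousMap.mul_apply, hF0, hG0, map_mul]
  have hFG1 : (F * G) 1 = ι₁ (y * y') := by rw [ContinuousMap.mul_apply, hF1, hG1, map_mul]
  unfold omega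
  rw [hF0, hF1, hG0, hG1, hFG0, hFG1, h₀, h₀, h₀, h₁, h₁, h₁]
  have hτ := h.γ_tau
  -- the nine products
  have p11 : Om γ α (mid F) * Om γ α (mid G)
      = Om γ α (smulF (Glue.tau * (1 - Glue.tau) * Glue.K1) (mid (F * G))) := by
    rw [h.Om_mul]
    congr 1
    ext t : 1
    simp only [smulF_apply, mid_apply, ContinuousMap.mul_apply, smul_mul_smul_comm, smul_smul]
    congr 1
    ring
  have hK0 : ∀ t : unitInterval, ∀ F : C(unitInterval, Matrix P P ℂ),
      Glue.K0 t • F (Glue.lam t) = Glue.K0 t • F 0 := by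
    intro t F
    rcases le_total (t : ℝ) (1 / 4) with ht | ht
    · rw [Glue.lam_of_le ht]
    · have : Glue.K0 t = 0 := by
        rw [Glue.K0, Glue.rc_apply, Glue.k0f_eq_zero ht, Complex.ofReal_zero]
      rw [this, zero_smul, zero_smul]
  have hK2 : ∀ t : unitInterval, ∀ F : C(unitInterval, Matrix P P ℂ),
      Glue.K2 t • F (Glue.lam t) = Glue.K2 t • F 1 := by
    intro t F
    rcases le_total (3 / 4) (t : ℝ) with ht | ht
    · rw [Glue.lam_of_ge ht]
    · have : Glue.K2 t = 0 := by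
        rw [Glue.K2, Glue.rc_apply, Glue.k2f_eq_zero ht, Complex.ofReal_zero]
      rw [this, zero_smul, zero_smul]
  have p01 : γ Glue.K0 * μ₀ x * Om γ α (mid G)
      = Om γ α (smulF ((1 - Glue.tau) * Glue.K0 * Glue.K1) (constF (ι₀ (x * x')))) := by
    rw [mul_assoc, h.μ₀_Om, ← hτ, ← map_one γ, ← map_sub, ← mul_assoc, ← map_mul, ← Om_smulF]
    congr 1
    ext t : 1
    simp only [smulF_apply, mid_apply, ContinuousMap.mul_apply, constF, ContinuousMap.const_apply,
      Matrix.mul_smul]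
    have e := hK0 t G
    calc (Glue.K0 t * (1 - Glue.tau) t) • Glue.K1 t • (ι₀ x * G (Glue.lam t))
        = ((1 - Glue.tau) t * Glue.K1 t) • (ι₀ x * (Glue.K0 t • G (Glue.lam t))) := by
          rw [Matrix.mul_smul, smul_smul, smul_smul]
          congr 1
          ring
      _ = _ := by
          rw [e, hG0, Matrix.mul_smul, smul_smul, map_mul]
          congr 1
          ring
  have p10 : Om γ α (mid F) * (γ Glue.K0 * μ₀ x')
      = Om γ α (smulF ((1 - Glue.tau) * Glue.K0 * Glue.K1) (constF (ι₀ (x * x')))) := by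
    rw [← mul_assoc, ← (h.comm_Om _ _).eq, mul_assoc, h.Om_μ₀, ← hτ, ← map_one γ, ← map_sub,
      ← mul_assoc, ← map_mul, ← Om_smulF]
    congr 1
    ext t : 1
    simp only [smulF_apply, mid_apply, ContinuousMap.mul_apply, constF, ContinuousMap.const_apply,
      Matrix.smul_mul]
    have e := hK0 t F
    calc (Glue.K0 t * (1 - Glue.tau) t) • Glue.K1 t • (F (Glue.lam t) * ι₀ x')
        = ((1 - Glue.tau) t * Glue.K1 t) • ((Glue.K0 t • F (Glue.lam t)) * ι₀ x') := by
          rw [Matrix.smul_mul, smul_smul, smul_smul]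
          congr 1
          ring
      _ = _ := by
          rw [e, hF0, Matrix.smul_mul, smul_smul, map_mul]
          congr 1
          ring
  have p21 : γ Glue.K2 * μ₁ y * Om γ α (mid G)
      = Om γ α (smulF (Glue.tau * Glue.K2 * Glue.K1) (constF (ι₁ (y * y')))) := by
    rw [mul_assoc, h.μ₁_Om, ← hτ, ← mul_assoc, ← map_mul, ← Om_smulF]
    congr 1
    ext t : 1
    simp only [smulF_apply, mid_apply, ContinuousMap.mul_apply, constF, ContinuousMap.const_apply,
      Matrix.mul_smul]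
    have e := hK2 t G
    calc (Glue.K2 t * Glue.tau t) • Glue.K1 t • (ι₁ y * G (Glue.lam t))
        = (Glue.tau t * Glue.K1 t) • (ι₁ y * (Glue.K2 t • G (Glue.lam t))) := by
          rw [Matrix.mul_smul, smul_smul, smul_smul]
          congr 1
          ring
      _ = _ := by
          rw [e, hG1, Matrix.mul_smul, smul_smul, map_mul]
          congr 1
          ring
  have p12 : Om γ α (mid F) * (γ Glue.K2 * μ₁ y')
      = Om γ α (smulF (Glue.tau * Glue.K2 * Glue.K1) (constF (ι₁ (y * y')))) := by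
    rw [← mul_assoc, ← (h.comm_Om _ _).eq, mul_assoc, h.Om_μ₁, ← hτ, ← mul_assoc, ← map_mul,
      ← Om_smulF]
    congr 1
    ext t : 1
    simp only [smulF_apply, mid_apply, ContinuousMap.mul_apply, constF, ContinuousMap.const_apply,
      Matrix.smul_mul]
    have e := hK2 t F
    calc (Glue.K2 t * Glue.tau t) • Glue.K1 t • (F (Glue.lam t) * ι₁ y')
        = (Glue.tau t * Glue.K1 t) • ((Glue.K2 t • F (Glue.lam t)) * ι₁ y') := by
          rw [Matrix.smul_mul, smul_smul, smul_smul]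
          congr 1
          ring
      _ = _ := by
          rw [e, hF1, Matrix.smul_mul, smul_smul, map_mul]
          congr 1
          ring
  have p00 : γ Glue.K0 * μ₀ x * (γ Glue.K0 * μ₀ x')
      = γ ((1 - Glue.tau) * Glue.K0 * Glue.K0) * μ₀ (x * x') := by
    calc γ Glue.K0 * μ₀ x * (γ Glue.K0 * μ₀ x')
        = γ Glue.K0 * (μ₀ x * γ Glue.K0) * μ₀ x' := by simp only [mul_assoc]
      _ = γ Glue.K0 * γ Glue.K0 * (μ₀ x * μ₀ x') := by
          rw [← (h.comm_μ₀ Glue.K0 x).eq]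
          simp only [mul_assoc]
      _ = γ Glue.K0 * γ Glue.K0 * (1 - T) * μ₀ (x * x') := by
          rw [h.mul_μ₀]
          simp only [mul_assoc]
      _ = _ := by
          rw [← hτ, ← map_one γ, ← map_sub, ← map_mul, ← map_mul]
          congr 2
          ring
  have p22 : γ Glue.K2 * μ₁ y * (γ Glue.K2 * μ₁ y')
      = γ (Glue.tau * Glue.K2 * Glue.K2) * μ₁ (y * y') := by
    calc γ Glue.K2 * μ₁ y * (γ Glue.K2 * μ₁ y')
        = γ Glue.K2 * (μ₁ y * γ Glue.K2) * μ₁ y' := by simp only [mul_assoc]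
      _ = γ Glue.K2 * γ Glue.K2 * (μ₁ y * μ₁ y') := by
          rw [← (h.comm_μ₁ Glue.K2 y).eq]
          simp only [mul_assoc]
      _ = γ Glue.K2 * γ Glue.K2 * T * μ₁ (y * y') := by
          rw [h.mul_μ₁]
          simp only [mul_assoc]
      _ = _ := by
          rw [← hτ, ← map_mul, ← map_mul]
          congr 2
          ring
  have p02 : γ Glue.K0 * μ₀ x * (γ Glue.K2 * μ₁ y') = 0 := by
    calc γ Glue.K0 * μ₀ x * (γ Glue.K2 * μ₁ y')
        = γ Glue.K0 * (μ₀ x * γ Glue.K2) * μ₁ y' := by simp only [mul_assoc]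
      _ = γ (Glue.K0 * Glue.K2) * (μ₀ x * μ₁ y') := by
          rw [← (h.comm_μ₀ Glue.K2 x).eq, map_mul]
          simp only [mul_assoc]
      _ = 0 := by rw [Glue.K0_mul_K2, map_zero, zero_mul]
  have p20 : γ Glue.K2 * μ₁ y * (γ Glue.K0 * μ₀ x') = 0 := by
    calc γ Glue.K2 * μ₁ y * (γ Glue.K0 * μ₀ x')
        = γ Glue.K2 * (μ₁ y * γ Glue.K0) * μ₀ x' := by simp only [mul_assoc]
      _ = γ (Glue.K0 * Glue.K2) * (μ₁ y * μ₀ x') := by
          rw [← (h.comm_μ₁ Glue.K0 y).eq, mul_comm Glue.K0, map_mul]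
          simp only [mul_assoc]
      _ = 0 := by rw [Glue.K0_mul_K2, map_zero, zero_mul]
  -- the defect of the middle term
  have d0 : Om γ α (smulF ((1 - Glue.tau) * Glue.K0) (mid (F * G)))
      = Om γ α (smulF ((1 - Glue.tau) * Glue.K0 * Glue.K1) (constF (ι₀ (x * x')))) := by
    congr 1
    ext t : 1
    simp only [smulF_apply, mid_apply, constF, ContinuousMap.const_apply]
    have e := hK0 t (F * G)
    rw [hFG0] at e
    calc ((1 - Glue.tau) * Glue.K0) t • Glue.K1 t • (F * G) (Glue.lam t)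
        = ((1 - Glue.tau) t * Glue.K1 t) • (Glue.K0 t • (F * G) (Glue.lam t)) := by
          rw [smul_smul, smul_smul, ContinuousMap.mul_apply (1 - Glue.tau)]
          congr 1
          ring
      _ = _ := by
          rw [e, smul_smul]
          congr 1
          simp only [ContinuousMap.mul_apply]
          ring
  have d2 : Om γ α (smulF (Glue.tau * Glue.K2) (mid (F * G)))
      = Om γ α (smulF (Glue.tau * Glue.K2 * Glue.K1) (constF (ι₁ (y * y')))) := by
    congr 1
    ext t : 1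
    simp only [smulF_apply, mid_apply, constF, ContinuousMap.const_apply]
    have e := hK2 t (F * G)
    rw [hFG1] at e
    calc (Glue.tau * Glue.K2) t • Glue.K1 t • (F * G) (Glue.lam t)
        = (Glue.tau t * Glue.K1 t) • (Glue.K2 t • (F * G) (Glue.lam t)) := by
          rw [smul_smul, smul_smul, ContinuousMap.mul_apply Glue.tau]
          congr 1
          ring
      _ = _ := by
          rw [e, smul_smul]
          congr 1
          simp only [ContinuousMap.mul_apply]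
          ring
  have hmid : Om γ α (mid (F * G))
      = Om γ α (smulF (Glue.tau * (1 - Glue.tau) * Glue.K1) (mid (F * G)))
        + Om γ α (smulF ((1 - Glue.tau) * Glue.K0) (mid (F * G)))
        + Om γ α (smulF (Glue.tau * Glue.K2) (mid (F * G))) := by
    rw [Om_smulF, Om_smulF, Om_smulF, ← add_mul, ← add_mul, ← map_add, ← map_add,
      Glue.K_partition, map_one, one_mul]
  have q0 : Om γ α (smulF ((1 - Glue.tau) * Glue.K0 * Glue.K1) (constF (ι₀ (x * x'))))
      = γ ((1 - Glue.tau) * Glue.K0 * Glue.K1 * Glue.tau) * μ₀ (x * x') := by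
    rw [Om_smulF, Om_constF, ← h.T_μ₀, ← hτ, ← mul_assoc, ← map_mul]
  have q2 : Om γ α (smulF (Glue.tau * Glue.K2 * Glue.K1) (constF (ι₁ (y * y'))))
      = γ (Glue.tau * Glue.K2 * Glue.K1 * (1 - Glue.tau)) * μ₁ (y * y') := by
    rw [Om_smulF, Om_constF, ← h.T_μ₁, ← hτ, ← map_one γ, ← map_sub, ← mul_assoc, ← map_mul]
  have r0 : γ Glue.K0 * μ₀ (x * x') = γ ((1 - Glue.tau) * Glue.K0 * Glue.K0) * μ₀ (x * x')
      + γ ((1 - Glue.tau) * Glue.K0 * Glue.K1 * Glue.tau) * μ₀ (x * x') := by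
    rw [← add_mul, ← map_add, Glue.K0_eq]
  have r2 : γ Glue.K2 * μ₁ (y * y') = γ (Glue.tau * Glue.K2 * Glue.K2) * μ₁ (y * y')
      + γ (Glue.tau * Glue.K2 * Glue.K1 * (1 - Glue.tau)) * μ₁ (y * y') := by
    rw [← add_mul, ← map_add, Glue.K2_eq]
  rw [add_mul, add_mul, mul_add, mul_add, mul_add, mul_add, mul_add, mul_add, p11, p10, p12, p01,
    p00, p02, p21, p20, p22, hmid, d0, d2, r0, r2, ← q0, ← q2]
  abel

theorem omega_one (h : GlueData ι₀ ι₁ γ T α μ₀ μ₁)
    {ρ₀ : Matrix P P ℂ →ₗ[ℂ] Matrix (Fin n) (Fin n) ℂ}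
    {ρ₁ : Matrix P P ℂ →ₗ[ℂ] Matrix (Fin m) (Fin m) ℂ}
    (h₀ : ∀ x, ρ₀ (ι₀ x) = x) (h₁ : ∀ y, ρ₁ (ι₁ y) = y) :
    omega γ α μ₀ μ₁ ρ₀ ρ₁ 1 = 1 := by
  have e0 : ρ₀ ((1 : C(unitInterval, Matrix P P ℂ)) 0) = 1 := by
    rw [ContinuousMap.one_apply, ← map_one ι₀, h₀]
  have e1 : ρ₁ ((1 : C(unitInterval, Matrix P P ℂ)) 1) = 1 := by
    rw [ContinuousMap.one_apply, ← map_one ι₁, h₁]
  have e2 : mid (1 : C(unitInterval, Matrix P P ℂ)) = smulF Glue.K1 (constF 1) := rfl
  unfold omega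
  rw [e0, e1, e2, Om_smulF, Om_constF, h.one_α, h.one_μ₀, h.one_μ₁, ← h.γ_tau, ← map_one γ,
    ← map_sub, ← map_mul, ← map_mul, ← map_mul, ← map_mul, ← map_add, ← map_add]
  congr 1
  refine Eq.trans ?_ Glue.K_partition
  ring

theorem omega_star (h : GlueData ι₀ ι₁ γ T α μ₀ μ₁)
    {ρ₀ : Matrix P P ℂ →ₗ[ℂ] Matrix (Fin n) (Fin n) ℂ}
    {ρ₁ : Matrix P P ℂ →ₗ[ℂ] Matrix (Fin m) (Fin m) ℂ}
    (h₀ : ∀ x, ρ₀ (ι₀ x) = x) (h₁ : ∀ y, ρ₁ (ι₁ y) = y)
    (F : C(unitInterval, Matrix P P ℂ))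
    {x : Matrix (Fin n) (Fin n) ℂ} {y : Matrix (Fin m) (Fin m) ℂ}
    (hF0 : F 0 = ι₀ x) (hF1 : F 1 = ι₁ y) :
    omega γ α μ₀ μ₁ ρ₀ ρ₁ (star F) = star (omega γ α μ₀ μ₁ ρ₀ ρ₁ F) := by
  have e0 : (star F) 0 = ι₀ (star x) := by rw [ContinuousMap.star_apply, hF0, map_star]
  have e1 : (star F) 1 = ι₁ (star y) := by rw [ContinuousMap.star_apply, hF1, map_star]
  have e2 : mid (star F) = star (mid F) := by
    ext t : 1
    simp only [mid_apply, ContinuousMap.star_apply, star_smul]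
    congr 1
    simp [Glue.K1, Glue.rc_apply]
  unfold omega
  rw [e0, e1, e2, hF0, hF1, h₀, h₀, h₁, h₁, star_add, star_add, h.Om_star, star_mul, star_mul,
    h.star_μ₀, h.star_μ₁, ← map_star, ← map_star, Glue.K0, Glue.K2, Glue.star_rc, Glue.star_rc,
    (h.comm_μ₀ _ _).eq, (h.comm_μ₁ _ _).eq]

theorem exists_hom (h : GlueData ι₀ ι₁ γ T α μ₀ μ₁)
    (E : StarSubalgebra ℂ C(unitInterval, Matrix P P ℂ))
    (hι₀ : Function.Injective ι₀) (hι₁ : Function.Injective ι₁)
    (hE : ∀ f ∈ E, f 0 ∈ Set.range ι₀ ∧ f 1 ∈ Set.range ι₁) :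
    Nonempty (E →⋆ₐ[ℂ] B) := by
  obtain ⟨ρ₀, hρ₀⟩ := LinearMap.exists_leftInverse_of_injective
    (ι₀ : Matrix (Fin n) (Fin n) ℂ →ₐ[ℂ] Matrix P P ℂ).toLinearMap
    (LinearMap.ker_eq_bot.2 hι₀)
  obtain ⟨ρ₁, hρ₁⟩ := LinearMap.exists_leftInverse_of_injective
    (ι₁ : Matrix (Fin m) (Fin m) ℂ →ₐ[ℂ] Matrix P P ℂ).toLinearMap
    (LinearMap.ker_eq_bot.2 hι₁)
  have h₀ : ∀ x, ρ₀ (ι₀ x) = x := fun x => LinearMap.congr_fun hρ₀ x
  have h₁ : ∀ y, ρ₁ (ι₁ y) = y := fun y => LinearMap.congr_fun hρ₁ y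
  have hadd : ∀ F G : C(unitInterval, Matrix P P ℂ), omega γ α μ₀ μ₁ ρ₀ ρ₁ (F + G)
      = omega γ α μ₀ μ₁ ρ₀ ρ₁ F + omega γ α μ₀ μ₁ ρ₀ ρ₁ G := by
    intro F G
    have e : mid (F + G) = mid F + mid G := by
      ext t : 1
      simp only [mid_apply, ContinuousMap.add_apply, smul_add]
    unfold omega
    rw [e, Om_add, ContinuousMap.add_apply, ContinuousMap.add_apply]
    simp only [map_add, mul_add]
    abel
  have hsmul : ∀ (c : ℂ) (F : C(unitInterval, Matrix P P ℂ)), omega γ α μ₀ μ₁ ρ₀ ρ₁ (c • F)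
      = c • omega γ α μ₀ μ₁ ρ₀ ρ₁ F := by
    intro c F
    have e : mid (c • F) = c • mid F := by
      ext t : 1
      simp only [mid_apply, ContinuousMap.smul_apply, smul_comm c]
    unfold omega
    rw [e, Om_smul, ContinuousMap.smul_apply, ContinuousMap.smul_apply]
    simp only [map_smul, smul_add, mul_smul_comm]
  refine ⟨{
    toFun := fun F => omega γ α μ₀ μ₁ ρ₀ ρ₁ (F : C(unitInterval, Matrix P P ℂ))
    map_one' := h.omega_one h₀ h₁
    map_mul' := ?_
    map_zero' := ?_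
    map_add' := fun F G => hadd _ _
    commutes' := ?_
    map_star' := ?_ }⟩
  · intro F G
    obtain ⟨⟨x, hx⟩, ⟨y, hy⟩⟩ := hE F F.2
    obtain ⟨⟨x', hx'⟩, ⟨y', hy'⟩⟩ := hE G G.2
    exact (h.omega_mul h₀ h₁ F G hx.symm hy.symm hx'.symm hy'.symm).symm
  · have := hsmul 0 0
    rw [zero_smul ℂ (0 : C(unitInterval, Matrix P P ℂ)), zero_smul] at this
    exact this
  · intro c
    change omega γ α μ₀ μ₁ ρ₀ ρ₁ (algebraMap ℂ C(unitInterval, Matrix P P ℂ) c) = _
    rw [Algebra.algebraMap_eq_smul_one, hsmul, h.omega_one h₀ h₁, Algebra.algebraMap_eq_smul_one]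
  · intro F
    obtain ⟨⟨x, hx⟩, ⟨y, hy⟩⟩ := hE F F.2
    exact h.omega_star h₀ h₁ F hx.symm hy.symm

end GlueData

end Vale.Agent.P101
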