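import Vale.Agent.P101.GlueDefs
import Vale.Agent.P101.Iota

/-!
# P101, Step 6: from an order zero map with small defect to glue data
-/

open Finset
open scoped Kronecker

namespace Vale.Agent.P101

section OzMap

variable {B : Type*} [CStarAlgebra B] {N : ℕ}

/-- The linear map with given values on the matrix units. -/
noncomputable def ozMap (ψ : Fin N → Fin N → B) : Matrix (Fin N) (Fin N) ℂ →ₗ[ℂ] B where
  toFun x := ∑ i, ∑ j, x i j • ψ i j
  map_add' x y := by simp [add_smul, Finset.sum_add_distrib]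
  map_smul' c x := by simp [Finset.smul_sum, smul_smul]

theorem ozMap_apply (ψ : Fin N → Fin N → B) (x : Matrix (Fin N) (Fin N) ℂ) :
    ozMap ψ x = ∑ i, ∑ j, x i j • ψ i j := rfl

theorem ozMap_one (ψ : Fin N → Fin N → B) : ozMap ψ 1 = ∑ a, ψ a a := by
  rw [ozMap_apply]
  refine Finset.sum_congr rfl fun i _ => ?_
  rw [Finset.sum_eq_single i]
  · simp
  · intro j _ hj
    rw [Matrix.one_apply_ne (Ne.symm hj), zero_smul]
  · intro h
    exact absurd (Finset.mem_univ i) h

theorem ozMap_commute {ψ : Fin N → Fin N → B} {c : B} (h : ∀ i j, Commute c (ψ i j))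
    (x : Matrix (Fin N) (Fin N) ℂ) : Commute c (ozMap ψ x) := by
  rw [ozMap_apply]
  exact Commute.sum_right _ _ _ fun i _ => Commute.sum_right _ _ _ fun j _ =>
    (h i j).smul_right _

variable [PartialOrder B]

theorem IsOZ.star_ozMap {ψ : Fin N → Fin N → B} (hψ : IsOZ ψ) (x : Matrix (Fin N) (Fin N) ℂ) :
    star (ozMap ψ x) = ozMap ψ (star x) := by
  rw [ozMap_apply, ozMap_apply, star_sum]
  simp_rw [star_sum, star_smul, hψ.star_apply, Matrix.star_apply]
  rw [Finset.sum_comm]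

theorem IsOZ.ozMap_mul {ψ : Fin N → Fin N → B} (hψ : IsOZ ψ) (x y : Matrix (Fin N) (Fin N) ℂ) :
    ozMap ψ x * ozMap ψ y = (∑ a, ψ a a) * ozMap ψ (x * y) := by
  have h1 : ∀ i, (∑ j, x i j • ψ i j) * (∑ k, ∑ l, y k l • ψ k l)
      = ∑ l, (∑ j, x i j * y j l) • ((∑ a, ψ a a) * ψ i l) := by
    intro i
    rw [Finset.sum_mul]
    have h2 : ∀ j, x i j • ψ i j * (∑ k, ∑ l, y k l • ψ k l)
        = ∑ l, (x i j * y j l) • ((∑ a, ψ a a) * ψ i l) := by
      intro j
      rw [Finset.mul_sum, Finset.sum_eq_single j]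
      · rw [Finset.mul_sum]
        refine Finset.sum_congr rfl fun l _ => ?_
        rw [smul_mul_smul_comm, hψ.mul_apply, if_pos rfl]
      · intro k _ hk
        rw [Finset.mul_sum]
        refine Finset.sum_eq_zero fun l _ => ?_
        rw [smul_mul_smul_comm, hψ.mul_apply, if_neg (Ne.symm hk), smul_zero]
      · intro h
        exact absurd (Finset.mem_univ j) h
    rw [Finset.sum_congr rfl (fun j _ => h2 j), Finset.sum_comm]
    refine Finset.sum_congr rfl fun l _ => ?_
    rw [Finset.sum_smul]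
  rw [ozMap_apply, ozMap_apply, Finset.sum_mul, Finset.sum_congr rfl (fun i _ => h1 i),
    ozMap_apply, Finset.mul_sum]
  refine Finset.sum_congr rfl fun i _ => ?_
  rw [Finset.mul_sum]
  refine Finset.sum_congr rfl fun l _ => ?_
  rw [Matrix.mul_apply, mul_smul_comm]

theorem IsOZ.sum_commute {ψ : Fin N → Fin N → B} (hψ : IsOZ ψ) (i j : Fin N) :
    Commute (∑ a, ψ a a) (ψ i j) := by
  have h0 : ψ i j * ∑ a, ψ a a = (∑ a, ψ a a) * ψ i j := by
    rw [Finset.mul_sum, Finset.sum_eq_single j]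
    · rw [hψ.mul_apply, if_pos rfl]
    · intro a _ ha
      rw [hψ.mul_apply, if_neg (Ne.symm ha)]
    · intro hj
      exact absurd (Finset.mem_univ j) hj
  exact h0.symm

end OzMap

section Blk

variable {N M : ℕ}

/-- The block of a matrix over `Fin N × Fin M`. -/
def blk (X : Matrix (Fin N × Fin M) (Fin N × Fin M) ℂ) (k l : Fin M) :
    Matrix (Fin N) (Fin N) ℂ := Matrix.of fun i j => X (i, k) (j, l)

theorem blk_apply (X : Matrix (Fin N × Fin M) (Fin N × Fin M) ℂ) (k l : Fin M) (i j : Fin N) :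
    blk X k l i j = X (i, k) (j, l) := rfl

theorem blk_add (X Y : Matrix (Fin N × Fin M) (Fin N × Fin M) ℂ) (k l : Fin M) :
    blk (X + Y) k l = blk X k l + blk Y k l := rfl

theorem blk_smul (c : ℂ) (X : Matrix (Fin N × Fin M) (Fin N × Fin M) ℂ) (k l : Fin M) :
    blk (c • X) k l = c • blk X k l := rfl

theorem blk_mul (X Y : Matrix (Fin N × Fin M) (Fin N × Fin M) ℂ) (k m : Fin M) :
    blk (X * Y) k m = ∑ l, blk X k l * blk Y l m := by
  ext i j
  rw [blk_apply, Matrix.mul_apply, Fintype.sum_prod_type, Finset.sum_comm, Matrix.sum_apply]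
  refine Finset.sum_congr rfl fun l _ => ?_
  rw [Matrix.mul_apply]
  rfl

theorem blk_star (X : Matrix (Fin N × Fin M) (Fin N × Fin M) ℂ) (k l : Fin M) :
    blk (star X) k l = star (blk X l k) := by
  ext i j
  rw [blk_apply, Matrix.star_apply, Matrix.star_apply, blk_apply]

theorem blk_one (k l : Fin M) :
    blk (1 : Matrix (Fin N × Fin M) (Fin N × Fin M) ℂ) k l = if k = l then 1 else 0 := by
  ext i j
  rw [blk_apply]
  by_cases hkl : k = l
  · subst hkl
    rw [if_pos rfl]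
    by_cases hij : i = j
    · subst hij
      simp
    · rw [Matrix.one_apply_ne hij, Matrix.one_apply_ne (fun h => hij (congrArg Prod.fst h))]
  · rw [if_neg hkl, Matrix.one_apply_ne (fun h => hkl (congrArg Prod.snd h))]
    rfl

theorem blk_iota1 (y : Matrix (Fin (N + 1)) (Fin (N + 1)) ℂ) (k l : Fin (N + 1)) :
    blk (iota1 N y) k l = y k l • (1 : Matrix (Fin N) (Fin N) ℂ) := by
  ext i j
  rw [blk_apply, iota1_apply, Matrix.kroneckerMap_apply, Matrix.smul_apply, smul_eq_mul, mul_comm]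

theorem blk_iota0_cast (x : Matrix (Fin N) (Fin N) ℂ) (k l : Fin N) :
    blk (iota0 N x) k.castSucc l.castSucc = x k l • (1 : Matrix (Fin N) (Fin N) ℂ) := by
  ext i j
  rw [blk_apply, iota0_apply, Matrix.add_apply, Matrix.kroneckerMap_apply,
    Matrix.kroneckerMap_apply, Matrix.smul_apply, smul_eq_mul, padM_castSucc]
  simp [lastE, (Fin.castSucc_lt_last k).ne', mul_comm]

theorem blk_iota0_last (x : Matrix (Fin N) (Fin N) ℂ) :
    blk (iota0 N x) (Fin.last N) (Fin.last N) = x := by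
  ext i j
  rw [blk_apply, iota0_apply, Matrix.add_apply, Matrix.kroneckerMap_apply,
    Matrix.kroneckerMap_apply]
  simp [lastE]

theorem blk_iota0_cast_last (x : Matrix (Fin N) (Fin N) ℂ) (k : Fin N) :
    blk (iota0 N x) k.castSucc (Fin.last N) = 0 := by
  ext i j
  rw [blk_apply, iota0_apply, Matrix.add_apply, Matrix.kroneckerMap_apply,
    Matrix.kroneckerMap_apply]
  simp [lastE, (Fin.castSucc_lt_last k).ne']

theorem blk_iota0_last_cast (x : Matrix (Fin N) (Fin N) ℂ) (l : Fin N) :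
    blk (iota0 N x) (Fin.last N) l.castSucc = 0 := by
  ext i j
  rw [blk_apply, iota0_apply, Matrix.add_apply, Matrix.kroneckerMap_apply,
    Matrix.kroneckerMap_apply]
  simp [lastE, (Fin.castSucc_lt_last l).ne']

end Blk

section Twist

variable {B : Type*} [CStarAlgebra B] {N : ℕ}

/-- The elements `ζ`. -/
def zeta (ψ : Fin N → Fin N → B) (o : Fin N) (s r : B) (k : Fin (N + 1)) : B :=
  Fin.lastCases (motive := fun _ => B) r (fun i => ψ i o * s) k

@[simp] theorem zeta_last (ψ : Fin N → Fin N → B) (o : Fin N) (s r : B) :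
    zeta ψ o s r (Fin.last N) = r := by simp [zeta]

@[simp] theorem zeta_castSucc (ψ : Fin N → Fin N → B) (o : Fin N) (s r : B) (i : Fin N) :
    zeta ψ o s r i.castSucc = ψ i o * s := by simp [zeta]

variable [PartialOrder B] [StarOrderedRing B]

/-- The hypotheses of the twisting construction. -/
structure TwistHyp (ψ : Fin N → Fin N → B) (o : Fin N) (s r d : B) : Prop where
  oz : IsOZ ψ
  d_eq : d = 1 - ∑ a, ψ a a
  star_mul_s : star s * s = d
  oz_s : ψ o o * s = s
  star_r : star r = r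
  r_mul_r : r * r = d
  comm_r : ∀ x, Commute d x → Commute r x

namespace TwistHyp

variable {ψ : Fin N → Fin N → B} {o : Fin N} {s r d : B}

theorem w_eq (h : TwistHyp ψ o s r d) : ∑ a, ψ a a = 1 - d := by
  rw [h.d_eq]
  abel

theorem star_d (h : TwistHyp ψ o s r d) : star d = d := by
  rw [← h.star_mul_s, StarMul.star_mul, star_star]

theorem d_psi (h : TwistHyp ψ o s r d) (i j : Fin N) : Commute d (ψ i j) := by
  rw [h.d_eq]
  exact (Commute.one_left _).sub_left (h.oz.sum_commute i j)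

theorem r_psi (h : TwistHyp ψ o s r d) (i j : Fin N) : Commute r (ψ i j) :=
  h.comm_r _ (h.d_psi i j)

theorem r_d (h : TwistHyp ψ o s r d) : Commute r d := h.comm_r _ (Commute.refl d)

theorem psi_mul_zeta (h : TwistHyp ψ o s r d) (i j k : Fin N) :
    ψ i j * (ψ k o * s) = if j = k then ψ i o * s else 0 := by
  by_cases hjk : j = k
  · subst hjk
    rw [if_pos rfl]
    calc ψ i j * (ψ j o * s) = (ψ i j * ψ j o) * s := by rw [mul_assoc]
      _ = (ψ i o * ψ o o) * s := by
          rw [h.oz.mul_apply, if_pos rfl, h.oz.mul_apply, if_pos rfl]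
      _ = ψ i o * s := by rw [mul_assoc, h.oz_s]
  · rw [if_neg hjk, ← mul_assoc, h.oz.mul_apply, if_neg hjk, zero_mul]

theorem d_s (h : TwistHyp ψ o s r d) : d * s = 0 := by
  have h1 : (∑ a, ψ a a) * s = s := by
    calc (∑ a, ψ a a) * s = (∑ a, ψ a a) * (ψ o o * s) := by rw [h.oz_s]
      _ = (∑ a, ψ a a) * ψ o o * s := by rw [mul_assoc]
      _ = (ψ o o * ψ o o) * s := by rw [h.oz.mul_apply, if_pos rfl]
      _ = s := by rw [mul_assoc, h.oz_s, h.oz_s]
  rw [h.d_eq, sub_mul, one_mul, h1, sub_self]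

theorem r_s (h : TwistHyp ψ o s r d) : r * s = 0 := by
  have h1 : star (r * s) * (r * s) = 0 := by
    rw [StarMul.star_mul, h.star_r]
    calc star s * r * (r * s) = star s * ((r * r) * s) := by noncomm_ring
      _ = 0 := by rw [h.r_mul_r, h.d_s, mul_zero]
  exact CStarRing.star_mul_self_eq_zero_iff _ |>.1 h1

theorem d_zeta (h : TwistHyp ψ o s r d) (i : Fin N) : d * (ψ i o * s) = 0 := by
  rw [← mul_assoc, (h.d_psi i o).eq, mul_assoc, h.d_s, mul_zero]

theorem r_zeta (h : TwistHyp ψ o s r d) (i : Fin N) : r * (ψ i o * s) = 0 := by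
  rw [← mul_assoc, (h.r_psi i o).eq, mul_assoc, h.r_s, mul_zero]

theorem s_psi_s (h : TwistHyp ψ o s r d) (i : Fin N) : s * (ψ i o * s) = 0 := by
  have h1 : star (s * (ψ i o * s)) * (s * (ψ i o * s)) = 0 := by
    rw [StarMul.star_mul]
    calc star (ψ i o * s) * star s * (s * (ψ i o * s))
        = star (ψ i o * s) * ((star s * s) * (ψ i o * s)) := by noncomm_ring
      _ = 0 := by rw [h.star_mul_s, h.d_zeta, mul_zero]
  exact CStarRing.star_mul_self_eq_zero_iff _ |>.1 h1

/-- `ζ_k⋆ ζ_l = δ_{kl} d`. -/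
theorem star_zeta_mul (h : TwistHyp ψ o s r d) (k l : Fin (N + 1)) :
    star (zeta ψ o s r k) * zeta ψ o s r l = if k = l then d else 0 := by
  induction k using Fin.lastCases with
  | last =>
    induction l using Fin.lastCases with
    | last => rw [if_pos rfl, zeta_last, h.star_r, h.r_mul_r]
    | cast l =>
      rw [if_neg (Fin.castSucc_lt_last l).ne', zeta_last, zeta_castSucc, h.star_r, h.r_zeta]
  | cast k =>
    induction l using Fin.lastCases with
    | last =>
      rw [if_neg (Fin.castSucc_lt_last k).ne, zeta_last, zeta_castSucc]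
      have := congrArg star (h.r_zeta k)
      rwa [StarMul.star_mul, h.star_r, star_zero] at this
    | cast l =>
      rw [zeta_castSucc, zeta_castSucc, StarMul.star_mul, h.oz.star_apply, mul_assoc,
        h.psi_mul_zeta]
      by_cases hkl : k = l
      · subst hkl
        rw [if_pos rfl, if_pos rfl, h.oz_s, h.star_mul_s]
      · rw [if_neg hkl, if_neg (fun h' => hkl (Fin.castSucc_injective _ h')), mul_zero]

/-- The element `T`. -/
def tt (ψ : Fin N → Fin N → B) (o : Fin N) (s r : B) : B :=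
  ∑ k, zeta ψ o s r k * star (zeta ψ o s r k)

theorem tt_zeta (h : TwistHyp ψ o s r d) (k : Fin (N + 1)) :
    tt ψ o s r * zeta ψ o s r k = zeta ψ o s r k * d := by
  unfold tt
  rw [Finset.sum_mul, Finset.sum_eq_single k]
  · rw [mul_assoc, h.star_zeta_mul, if_pos rfl]
  · intro l _ hl
    rw [mul_assoc, h.star_zeta_mul, if_neg hl, mul_zero]
  · intro hk
    exact absurd (Finset.mem_univ k) hk

theorem tt_nonneg (ψ : Fin N → Fin N → B) (o : Fin N) (s r : B) : 0 ≤ tt ψ o s r :=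
  Finset.sum_nonneg fun _ _ => mul_star_self_nonneg _

theorem star_tt (ψ : Fin N → Fin N → B) (o : Fin N) (s r : B) :
    star (tt ψ o s r) = tt ψ o s r := (tt_nonneg ψ o s r).isSelfAdjoint.star_eq

theorem tt_eq (ψ : Fin N → Fin N → B) (o : Fin N) (s r : B) :
    tt ψ o s r = (∑ i : Fin N, ψ i o * s * star (ψ i o * s)) + r * star r := by
  unfold tt
  rw [Fin.sum_univ_castSucc]
  simp

theorem tt_psi (h : TwistHyp ψ o s r d) (i j : Fin N) :
    tt ψ o s r * ψ i j = (ψ i o * s) * star (ψ j o * s) + d * ψ i j := by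
  rw [tt_eq, add_mul, h.star_r, h.r_mul_r]
  congr 1
  rw [Finset.sum_mul, Finset.sum_eq_single i]
  · rw [mul_assoc]
    congr 1
    have h1 := congrArg star (h.psi_mul_zeta j i i)
    rwa [if_pos rfl, StarMul.star_mul, h.oz.star_apply] at h1
  · intro k _ hk
    rw [mul_assoc]
    have h1 := congrArg star (h.psi_mul_zeta j i k)
    rw [if_neg (Ne.symm hk), StarMul.star_mul, h.oz.star_apply, star_zero] at h1
    rw [h1, mul_zero]
  · intro hi
    exact absurd (Finset.mem_univ i) hi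

theorem tt_comm_psi (h : TwistHyp ψ o s r d) (i j : Fin N) : Commute (tt ψ o s r) (ψ i j) := by
  have h1 := h.tt_psi i j
  have h2 := congrArg star (h.tt_psi j i)
  have e1 : star ((ψ j o * s) * star (ψ i o * s)) = (ψ i o * s) * star (ψ j o * s) := by
    rw [StarMul.star_mul, star_star]
  have e2 : star (d * ψ j i) = d * ψ i j := by
    rw [StarMul.star_mul, h.star_d, h.oz.star_apply, (h.d_psi i j).eq]
  rw [StarMul.star_mul, star_tt, h.oz.star_apply, star_add, e1, e2] at h2
  exact h1.trans h2.symm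

theorem tt_d (h : TwistHyp ψ o s r d) : tt ψ o s r * d = d * d := by
  rw [tt_eq, add_mul, h.star_r, h.r_mul_r, Finset.sum_mul, Finset.sum_eq_zero, zero_add]
  intro k _
  have h1 := congrArg star (h.d_zeta k)
  rw [StarMul.star_mul, h.star_d, star_zero] at h1
  rw [mul_assoc, h1, mul_zero]

theorem tt_comm_d (h : TwistHyp ψ o s r d) : Commute (tt ψ o s r) d := by
  rw [h.d_eq]
  refine (Commute.one_right _).sub_right ?_
  exact Commute.sum_right _ _ _ fun a _ => h.tt_comm_psi a a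

theorem tt_comm_r (h : TwistHyp ψ o s r d) : Commute (tt ψ o s r) r :=
  (h.comm_r _ h.tt_comm_d.symm).symm

theorem tt_comm_s (h : TwistHyp ψ o s r d) : Commute (tt ψ o s r) s := by
  have h1 : tt ψ o s r * s = s * d := by
    have := h.tt_zeta (Fin.castSucc o)
    rwa [zeta_castSucc, h.oz_s] at this
  have h2 : s * tt ψ o s r = s * d := by
    rw [tt_eq, mul_add, h.star_r, h.r_mul_r, Finset.mul_sum, Finset.sum_eq_zero, zero_add]
    intro k _
    rw [← mul_assoc, h.s_psi_s, zero_mul]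
  exact h1.trans h2.symm

theorem tt_comm_zeta (h : TwistHyp ψ o s r d) (k : Fin (N + 1)) :
    Commute (tt ψ o s r) (zeta ψ o s r k) := by
  induction k using Fin.lastCases with
  | last => rw [zeta_last]; exact h.tt_comm_r
  | cast k => rw [zeta_castSucc]; exact (h.tt_comm_psi k o).mul_right h.tt_comm_s

theorem tt_comm_star_zeta (h : TwistHyp ψ o s r d) (k : Fin (N + 1)) :
    Commute (tt ψ o s r) (star (zeta ψ o s r k)) := by
  have h1 := congrArg star (h.tt_comm_zeta k).eq
  rw [StarMul.star_mul, StarMul.star_mul, star_tt] at h1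
  exact h1.symm

theorem tt_le_one (h : TwistHyp ψ o s r d) (hd1 : d ≤ 1) : tt ψ o s r ≤ 1 := by
  set t := tt ψ o s r with ht
  have h0 : 0 ≤ t := tt_nonneg ψ o s r
  have h1 : t * t = ∑ k, zeta ψ o s r k * d * star (zeta ψ o s r k) := by
    nth_rewrite 2 [ht]
    unfold tt
    rw [Finset.mul_sum]
    refine Finset.sum_congr rfl fun a _ => ?_
    rw [← mul_assoc, ht, h.tt_zeta]
  have h2 : t * t ≤ t := by
    rw [h1, ht]
    refine Finset.sum_le_sum fun a _ => ?_
    have := star_right_conjugate_le_conjugate hd1 (zeta ψ o s r a)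
    rwa [mul_one] at this
  have hst : star t = t := star_tt ψ o s r
  have h3 : 0 ≤ t * t := by
    have := star_mul_self_nonneg t
    rwa [hst] at this
  have h4 : ‖t * t‖ ≤ ‖t‖ := CStarAlgebra.norm_le_norm_of_nonneg_of_le h3 h2
  have h5 : ‖t * t‖ = ‖t‖ * ‖t‖ := by
    have := CStarRing.norm_star_mul_self (x := t)
    rwa [hst] at this
  rw [← CStarAlgebra.norm_le_one_iff_of_nonneg t h0]
  by_contra hlt
  push Not at hlt
  nlinarith

/-- The map `α`. -/
noncomputable def al (ψ : Fin N → Fin N → B) (o : Fin N) (s r : B) :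
    Matrix (Fin N × Fin (N + 1)) (Fin N × Fin (N + 1)) ℂ →ₗ[ℂ] B where
  toFun X := ∑ k, ∑ l, zeta ψ o s r k * ozMap ψ (blk X k l) * star (zeta ψ o s r l)
  map_add' X Y := by
    simp only [blk_add, map_add, mul_add, add_mul, Finset.sum_add_distrib]
  map_smul' c X := by
    simp only [blk_smul, map_smul, mul_smul_comm, smul_mul_assoc, Finset.smul_sum,
      RingHom.id_apply]

/-- The map `μ₀`. -/
noncomputable def mu0 (ψ : Fin N → Fin N → B) (o : Fin N) (s r d : B) :
    Matrix (Fin N) (Fin N) ℂ →ₗ[ℂ] B where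
  toFun x := (1 - tt ψ o s r + d) * ozMap ψ x
  map_add' X Y := by rw [map_add, mul_add]
  map_smul' c X := by rw [map_smul, mul_smul_comm, RingHom.id_apply]

/-- The map `μ₁`. -/
noncomputable def mu1 (ψ : Fin N → Fin N → B) (o : Fin N) (s r : B) :
    Matrix (Fin (N + 1)) (Fin (N + 1)) ℂ →ₗ[ℂ] B where
  toFun y := ∑ k, ∑ l, y k l • (zeta ψ o s r k * star (zeta ψ o s r l))
  map_add' X Y := by
    simp only [Matrix.add_apply, add_smul, Finset.sum_add_distrib]
  map_smul' c X := by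
    simp only [Matrix.smul_apply, Finset.smul_sum, RingHom.id_apply, smul_assoc]

theorem al_apply (ψ : Fin N → Fin N → B) (o : Fin N) (s r : B)
    (X : Matrix (Fin N × Fin (N + 1)) (Fin N × Fin (N + 1)) ℂ) :
    al ψ o s r X = ∑ k, ∑ l, zeta ψ o s r k * ozMap ψ (blk X k l) * star (zeta ψ o s r l) := rfl

theorem mu0_apply (ψ : Fin N → Fin N → B) (o : Fin N) (s r d : B)
    (x : Matrix (Fin N) (Fin N) ℂ) :
    mu0 ψ o s r d x = (1 - tt ψ o s r + d) * ozMap ψ x := rfl

theorem mu1_apply (ψ : Fin N → Fin N → B) (o : Fin N) (s r : B)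
    (y : Matrix (Fin (N + 1)) (Fin (N + 1)) ℂ) :
    mu1 ψ o s r y = ∑ k, ∑ l, y k l • (zeta ψ o s r k * star (zeta ψ o s r l)) := rfl

theorem tt_comm_oz (h : TwistHyp ψ o s r d) (x : Matrix (Fin N) (Fin N) ℂ) :
    Commute (tt ψ o s r) (ozMap ψ x) := ozMap_commute (fun i j => h.tt_comm_psi i j) x

theorem d_comm_oz (h : TwistHyp ψ o s r d) (x : Matrix (Fin N) (Fin N) ℂ) :
    Commute d (ozMap ψ x) := ozMap_commute (fun i j => h.d_psi i j) x

theorem r_comm_oz (h : TwistHyp ψ o s r d) (x : Matrix (Fin N) (Fin N) ℂ) :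
    Commute r (ozMap ψ x) := ozMap_commute (fun i j => h.r_psi i j) x

/-- Everything commuting with `T` (and its adjoint) ... in particular with the three maps. -/
theorem comm_al (h : TwistHyp ψ o s r d)
    (X : Matrix (Fin N × Fin (N + 1)) (Fin N × Fin (N + 1)) ℂ) :
    Commute (tt ψ o s r) (al ψ o s r X) := by
  rw [al_apply]
  exact Commute.sum_right _ _ _ fun k _ => Commute.sum_right _ _ _ fun l _ =>
    ((h.tt_comm_zeta k).mul_right (h.tt_comm_oz _)).mul_right (h.tt_comm_star_zeta l)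

theorem comm_mu0 (h : TwistHyp ψ o s r d) (x : Matrix (Fin N) (Fin N) ℂ) :
    Commute (tt ψ o s r) (mu0 ψ o s r d x) := by
  rw [mu0_apply]
  refine Commute.mul_right ?_ (h.tt_comm_oz x)
  exact ((Commute.one_right _).sub_right (Commute.refl _)).add_right h.tt_comm_d

theorem comm_mu1 (h : TwistHyp ψ o s r d) (y : Matrix (Fin (N + 1)) (Fin (N + 1)) ℂ) :
    Commute (tt ψ o s r) (mu1 ψ o s r y) := by
  rw [mu1_apply]
  exact Commute.sum_right _ _ _ fun k _ => Commute.sum_right _ _ _ fun l _ =>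
    ((h.tt_comm_zeta k).mul_right (h.tt_comm_star_zeta l)).smul_right _

theorem star_al (h : TwistHyp ψ o s r d)
    (X : Matrix (Fin N × Fin (N + 1)) (Fin N × Fin (N + 1)) ℂ) :
    star (al ψ o s r X) = al ψ o s r (star X) := by
  rw [al_apply, al_apply, star_sum]
  simp_rw [star_sum]
  rw [Finset.sum_comm]
  refine Finset.sum_congr rfl fun k _ => Finset.sum_congr rfl fun l _ => ?_
  rw [StarMul.star_mul, StarMul.star_mul, star_star, h.oz.star_ozMap, ← blk_star, mul_assoc]

theorem star_mu0 (h : TwistHyp ψ o s r d) (x : Matrix (Fin N) (Fin N) ℂ) :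
    star (mu0 ψ o s r d x) = mu0 ψ o s r d (star x) := by
  rw [mu0_apply, mu0_apply, StarMul.star_mul, h.oz.star_ozMap, star_add, star_sub, star_one,
    star_tt, h.star_d]
  have : Commute (1 - tt ψ o s r + d) (ozMap ψ (star x)) :=
    ((Commute.one_left _).sub_left (h.tt_comm_oz _)).add_left (h.d_comm_oz _)
  exact this.eq.symm

theorem star_mu1 (y : Matrix (Fin (N + 1)) (Fin (N + 1)) ℂ) :
    star (mu1 ψ o s r y) = mu1 ψ o s r (star y) := by
  rw [mu1_apply, mu1_apply, star_sum]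
  simp_rw [star_sum]
  rw [Finset.sum_comm]
  refine Finset.sum_congr rfl fun k _ => Finset.sum_congr rfl fun l _ => ?_
  rw [star_smul, StarMul.star_mul, star_star, Matrix.star_apply]

theorem one_al (h : TwistHyp ψ o s r d) :
    al ψ o s r 1 = tt ψ o s r * (1 - tt ψ o s r) := by
  have e1 : tt ψ o s r * (1 - tt ψ o s r) = (1 - tt ψ o s r) * tt ψ o s r := by noncomm_ring
  rw [e1, al_apply]
  nth_rewrite 2 [tt]
  rw [Finset.mul_sum]
  refine Finset.sum_congr rfl fun k _ => ?_
  rw [Finset.sum_eq_single k]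
  · rw [blk_one, if_pos rfl, ozMap_one, h.w_eq, ← mul_assoc, sub_mul, one_mul, h.tt_zeta, mul_sub,
      mul_one]
  · intro l _ hl
    rw [blk_one, if_neg (Ne.symm hl), map_zero, mul_zero, zero_mul]
  · intro hk
    exact absurd (Finset.mem_univ k) hk

theorem one_mu0 (h : TwistHyp ψ o s r d) : mu0 ψ o s r d 1 = 1 - tt ψ o s r := by
  rw [mu0_apply, ozMap_one, h.w_eq]
  have := h.tt_d
  calc (1 - tt ψ o s r + d) * (1 - d)
      = 1 - tt ψ o s r + (tt ψ o s r * d - d * d) := by noncomm_ring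
    _ = 1 - tt ψ o s r := by rw [this, sub_self, add_zero]

theorem one_mu1 : mu1 ψ o s r 1 = tt ψ o s r := by
  rw [mu1_apply, tt]
  refine Finset.sum_congr rfl fun k _ => ?_
  rw [Finset.sum_eq_single k]
  · simp
  · intro l _ hl
    rw [Matrix.one_apply_ne (Ne.symm hl), zero_smul]
  · intro hk
    exact absurd (Finset.mem_univ k) hk

theorem star_zeta_mul_al (h : TwistHyp ψ o s r d) (l : Fin (N + 1))
    (Y : Matrix (Fin N × Fin (N + 1)) (Fin N × Fin (N + 1)) ℂ) :
    star (zeta ψ o s r l) * al ψ o s r Y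
      = ∑ m, d * ozMap ψ (blk Y l m) * star (zeta ψ o s r m) := by
  rw [al_apply, Finset.mul_sum, Finset.sum_eq_single l]
  · rw [Finset.mul_sum]
    refine Finset.sum_congr rfl fun m _ => ?_
    rw [← mul_assoc, ← mul_assoc, h.star_zeta_mul, if_pos rfl]
  · intro k _ hk
    rw [Finset.mul_sum]
    refine Finset.sum_eq_zero fun m _ => ?_
    rw [← mul_assoc, ← mul_assoc, h.star_zeta_mul, if_neg (Ne.symm hk), zero_mul, zero_mul]
  · intro hl
    exact absurd (Finset.mem_univ l) hl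

theorem star_zeta_mul_mu1 (h : TwistHyp ψ o s r d) (l : Fin (N + 1))
    (y : Matrix (Fin (N + 1)) (Fin (N + 1)) ℂ) :
    star (zeta ψ o s r l) * mu1 ψ o s r y = ∑ m, y l m • (d * star (zeta ψ o s r m)) := by
  rw [mu1_apply, Finset.mul_sum, Finset.sum_eq_single l]
  · rw [Finset.mul_sum]
    refine Finset.sum_congr rfl fun m _ => ?_
    rw [mul_smul_comm, ← mul_assoc, h.star_zeta_mul, if_pos rfl]
  · intro k _ hk
    rw [Finset.mul_sum]
    refine Finset.sum_eq_zero fun m _ => ?_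
    rw [mul_smul_comm, ← mul_assoc, h.star_zeta_mul, if_neg (Ne.symm hk), zero_mul, smul_zero]
  · intro hl
    exact absurd (Finset.mem_univ l) hl

theorem tt_one_sub_zeta (h : TwistHyp ψ o s r d) (k : Fin (N + 1)) :
    tt ψ o s r * (1 - tt ψ o s r) * zeta ψ o s r k = zeta ψ o s r k * (d * (1 - d)) := by
  calc tt ψ o s r * (1 - tt ψ o s r) * zeta ψ o s r k
      = tt ψ o s r * zeta ψ o s r k - tt ψ o s r * (tt ψ o s r * zeta ψ o s r k) := by
        noncomm_ring
    _ = zeta ψ o s r k * d - (tt ψ o s r * zeta ψ o s r k) * d := by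
        rw [h.tt_zeta, ← mul_assoc, h.tt_zeta]
    _ = zeta ψ o s r k * (d * (1 - d)) := by
        rw [h.tt_zeta]
        noncomm_ring

theorem mul_al (h : TwistHyp ψ o s r d)
    (X Y : Matrix (Fin N × Fin (N + 1)) (Fin N × Fin (N + 1)) ℂ) :
    al ψ o s r X * al ψ o s r Y
      = tt ψ o s r * (1 - tt ψ o s r) * al ψ o s r (X * Y) := by
  have key : ∀ k l m, zeta ψ o s r k * ozMap ψ (blk X k l)
      * (d * ozMap ψ (blk Y l m) * star (zeta ψ o s r m))
      = tt ψ o s r * (1 - tt ψ o s r)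
        * (zeta ψ o s r k * ozMap ψ (blk X k l * blk Y l m) * star (zeta ψ o s r m)) := by
    intro k l m
    calc zeta ψ o s r k * ozMap ψ (blk X k l)
          * (d * ozMap ψ (blk Y l m) * star (zeta ψ o s r m))
        = zeta ψ o s r k * (ozMap ψ (blk X k l) * d) * ozMap ψ (blk Y l m)
          * star (zeta ψ o s r m) := by noncomm_ring
      _ = zeta ψ o s r k * (d * ozMap ψ (blk X k l)) * ozMap ψ (blk Y l m)
          * star (zeta ψ o s r m) := by rw [(h.d_comm_oz _).eq]
      _ = zeta ψ o s r k * d * (ozMap ψ (blk X k l) * ozMap ψ (blk Y l m))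
          * star (zeta ψ o s r m) := by noncomm_ring
      _ = zeta ψ o s r k * (d * (1 - d)) * ozMap ψ (blk X k l * blk Y l m)
          * star (zeta ψ o s r m) := by
          rw [h.oz.ozMap_mul, h.w_eq]
          noncomm_ring
      _ = tt ψ o s r * (1 - tt ψ o s r) * zeta ψ o s r k * ozMap ψ (blk X k l * blk Y l m)
          * star (zeta ψ o s r m) := by rw [h.tt_one_sub_zeta]
      _ = _ := by noncomm_ring
  rw [al_apply ψ o s r X, Finset.sum_mul, al_apply ψ o s r (X * Y), Finset.mul_sum]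
  refine Finset.sum_congr rfl fun k _ => ?_
  rw [Finset.sum_mul, Finset.mul_sum]
  have e1 : ∀ l, zeta ψ o s r k * ozMap ψ (blk X k l) * star (zeta ψ o s r l) * al ψ o s r Y
      = ∑ m, tt ψ o s r * (1 - tt ψ o s r)
        * (zeta ψ o s r k * ozMap ψ (blk X k l * blk Y l m) * star (zeta ψ o s r m)) := by
    intro l
    rw [mul_assoc, h.star_zeta_mul_al, Finset.mul_sum]
    exact Finset.sum_congr rfl fun m _ => key k l m
  rw [Finset.sum_congr rfl (fun l _ => e1 l), Finset.sum_comm]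
  refine Finset.sum_congr rfl fun m _ => ?_
  rw [blk_mul, map_sum, Finset.mul_sum, Finset.sum_mul, Finset.mul_sum]

theorem mul_mu1 (h : TwistHyp ψ o s r d) (x y : Matrix (Fin (N + 1)) (Fin (N + 1)) ℂ) :
    mu1 ψ o s r x * mu1 ψ o s r y = tt ψ o s r * mu1 ψ o s r (x * y) := by
  rw [mu1_apply ψ o s r x, Finset.sum_mul, mu1_apply ψ o s r (x * y), Finset.mul_sum]
  refine Finset.sum_congr rfl fun k _ => ?_
  rw [Finset.sum_mul, Finset.mul_sum]
  have e1 : ∀ l, x k l • (zeta ψ o s r k * star (zeta ψ o s r l)) * mu1 ψ o s r y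
      = ∑ m, (x k l * y l m) • (tt ψ o s r * (zeta ψ o s r k * star (zeta ψ o s r m))) := by
    intro l
    rw [smul_mul_assoc, mul_assoc, h.star_zeta_mul_mu1, Finset.mul_sum, Finset.smul_sum]
    refine Finset.sum_congr rfl fun m _ => ?_
    rw [mul_smul_comm, smul_smul, ← mul_assoc, ← mul_assoc, h.tt_zeta]
  rw [Finset.sum_congr rfl (fun l _ => e1 l), Finset.sum_comm]
  refine Finset.sum_congr rfl fun m _ => ?_
  rw [← Finset.sum_smul, Matrix.mul_apply, mul_smul_comm]

theorem mu1_al (h : TwistHyp ψ o s r d) (y : Matrix (Fin (N + 1)) (Fin (N + 1)) ℂ)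
    (X : Matrix (Fin N × Fin (N + 1)) (Fin N × Fin (N + 1)) ℂ) :
    mu1 ψ o s r y * al ψ o s r X = tt ψ o s r * al ψ o s r (iota1 N y * X) := by
  rw [mu1_apply ψ o s r y, Finset.sum_mul, al_apply ψ o s r (iota1 N y * X), Finset.mul_sum]
  refine Finset.sum_congr rfl fun k _ => ?_
  rw [Finset.sum_mul, Finset.mul_sum]
  have e1 : ∀ l, y k l • (zeta ψ o s r k * star (zeta ψ o s r l)) * al ψ o s r X
      = ∑ m, tt ψ o s r * (zeta ψ o s r k * ozMap ψ (y k l • blk X l m)
        * star (zeta ψ o s r m)) := by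
    intro l
    rw [smul_mul_assoc, mul_assoc, h.star_zeta_mul_al, Finset.mul_sum, Finset.smul_sum]
    refine Finset.sum_congr rfl fun m _ => ?_
    rw [map_smul, mul_smul_comm, smul_mul_assoc, mul_smul_comm]
    congr 1
    calc zeta ψ o s r k * (d * ozMap ψ (blk X l m) * star (zeta ψ o s r m))
        = zeta ψ o s r k * d * ozMap ψ (blk X l m) * star (zeta ψ o s r m) := by noncomm_ring
      _ = tt ψ o s r * zeta ψ o s r k * ozMap ψ (blk X l m) * star (zeta ψ o s r m) := by
          rw [h.tt_zeta]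
      _ = _ := by noncomm_ring
  rw [Finset.sum_congr rfl (fun l _ => e1 l), Finset.sum_comm]
  refine Finset.sum_congr rfl fun m _ => ?_
  have e2 : blk (iota1 N y * X) k m = ∑ l, y k l • blk X l m := by
    rw [blk_mul]
    refine Finset.sum_congr rfl fun l _ => ?_
    rw [blk_iota1, smul_mul_assoc, one_mul]
  rw [e2, map_sum, Finset.mul_sum, Finset.sum_mul, Finset.mul_sum]

theorem T_mu1 (h : TwistHyp ψ o s r d) (y : Matrix (Fin (N + 1)) (Fin (N + 1)) ℂ) :
    (1 - tt ψ o s r) * mu1 ψ o s r y = al ψ o s r (iota1 N y) := by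
  rw [mu1_apply, al_apply, Finset.mul_sum]
  refine Finset.sum_congr rfl fun k _ => ?_
  rw [Finset.mul_sum]
  refine Finset.sum_congr rfl fun l _ => ?_
  rw [blk_iota1, map_smul, ozMap_one, h.w_eq, mul_smul_comm, mul_smul_comm, smul_mul_assoc,
    ← mul_assoc, sub_mul, one_mul, h.tt_zeta, mul_sub, mul_one]

/-- `(1 - T + d) (1 - d) = 1 - T`. -/
theorem cc_w (h : TwistHyp ψ o s r d) : (1 - tt ψ o s r + d) * (1 - d) = 1 - tt ψ o s r := by
  have := h.tt_d
  calc (1 - tt ψ o s r + d) * (1 - d)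
      = 1 - tt ψ o s r + (tt ψ o s r * d - d * d) := by noncomm_ring
    _ = 1 - tt ψ o s r := by rw [this, sub_self, add_zero]

theorem cc_comm_oz (h : TwistHyp ψ o s r d) (x : Matrix (Fin N) (Fin N) ℂ) :
    Commute (1 - tt ψ o s r + d) (ozMap ψ x) :=
  ((Commute.one_left _).sub_left (h.tt_comm_oz _)).add_left (h.d_comm_oz _)

theorem mul_mu0 (h : TwistHyp ψ o s r d) (x y : Matrix (Fin N) (Fin N) ℂ) :
    mu0 ψ o s r d x * mu0 ψ o s r d y = (1 - tt ψ o s r) * mu0 ψ o s r d (x * y) := by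
  rw [mu0_apply, mu0_apply, mu0_apply]
  calc (1 - tt ψ o s r + d) * ozMap ψ x * ((1 - tt ψ o s r + d) * ozMap ψ y)
      = (1 - tt ψ o s r + d) * (ozMap ψ x * (1 - tt ψ o s r + d)) * ozMap ψ y := by noncomm_ring
    _ = (1 - tt ψ o s r + d) * ((1 - tt ψ o s r + d) * ozMap ψ x) * ozMap ψ y := by
        rw [(h.cc_comm_oz x).eq]
    _ = (1 - tt ψ o s r + d) * ((1 - tt ψ o s r + d) * (ozMap ψ x * ozMap ψ y)) := by
        noncomm_ring
    _ = (1 - tt ψ o s r + d) * (((1 - tt ψ o s r + d) * (1 - d)) * ozMap ψ (x * y)) := by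
        rw [h.oz.ozMap_mul, h.w_eq]
        noncomm_ring
    _ = (1 - tt ψ o s r + d) * ((1 - tt ψ o s r) * ozMap ψ (x * y)) := by rw [h.cc_w]
    _ = (1 - tt ψ o s r) * ((1 - tt ψ o s r + d) * ozMap ψ (x * y))
        + (tt ψ o s r * d - d * tt ψ o s r) * ozMap ψ (x * y) := by noncomm_ring
    _ = _ := by rw [h.tt_comm_d.eq, sub_self, zero_mul, add_zero]

theorem oz_zeta (h : TwistHyp ψ o s r d) (x : Matrix (Fin N) (Fin N) ℂ) (k : Fin N) :
    ozMap ψ x * (ψ k o * s) = ∑ i, x i k • (ψ i o * s) := by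
  rw [ozMap_apply, Finset.sum_mul]
  refine Finset.sum_congr rfl fun i _ => ?_
  rw [Finset.sum_mul, Finset.sum_eq_single k]
  · rw [smul_mul_assoc, h.psi_mul_zeta, if_pos rfl]
  · intro j _ hj
    rw [smul_mul_assoc, h.psi_mul_zeta, if_neg hj, smul_zero]
  · intro hk
    exact absurd (Finset.mem_univ k) hk

theorem cc_zeta (h : TwistHyp ψ o s r d) (i : Fin N) :
    (1 - tt ψ o s r + d) * (ψ i o * s) = (1 - tt ψ o s r) * (ψ i o * s) := by
  rw [add_mul, h.d_zeta, add_zero]

theorem mu0_al (h : TwistHyp ψ o s r d) (x : Matrix (Fin N) (Fin N) ℂ)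
    (X : Matrix (Fin N × Fin (N + 1)) (Fin N × Fin (N + 1)) ℂ) :
    mu0 ψ o s r d x * al ψ o s r X = (1 - tt ψ o s r) * al ψ o s r (iota0 N x * X) := by
  rw [al_apply ψ o s r X, al_apply ψ o s r (iota0 N x * X), Finset.sum_comm, Finset.mul_sum]
  conv_rhs => rw [Finset.sum_comm, Finset.mul_sum]
  refine Finset.sum_congr rfl fun l _ => ?_
  rw [← Finset.sum_mul, ← Finset.sum_mul, ← mul_assoc, ← mul_assoc]
  congr 1
  rw [Fin.sum_univ_castSucc, Fin.sum_univ_castSucc, mul_add, mul_add]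
  have e0 : ∀ k : Fin N, blk (iota0 N x * X) k.castSucc l
      = ∑ m : Fin N, x k m • blk X m.castSucc l := by
    intro k
    rw [blk_mul, Fin.sum_univ_castSucc, blk_iota0_cast_last, zero_mul, add_zero]
    refine Finset.sum_congr rfl fun m _ => ?_
    rw [blk_iota0_cast, smul_mul_assoc, one_mul]
  have e0' : blk (iota0 N x * X) (Fin.last N) l = x * blk X (Fin.last N) l := by
    rw [blk_mul, Fin.sum_univ_castSucc, blk_iota0_last, Finset.sum_eq_zero, zero_add]
    intro m _
    rw [blk_iota0_last_cast, zero_mul]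
  congr 1
  · -- the first blocks
    rw [Finset.mul_sum, Finset.mul_sum]
    have e1 : ∀ k : Fin N, mu0 ψ o s r d x
        * (zeta ψ o s r k.castSucc * ozMap ψ (blk X k.castSucc l))
        = ∑ i, (1 - tt ψ o s r) * (ψ i o * s * ozMap ψ (x i k • blk X k.castSucc l)) := by
      intro k
      rw [mu0_apply, zeta_castSucc, ← mul_assoc, mul_assoc (1 - tt ψ o s r + d), h.oz_zeta,
        Finset.mul_sum, Finset.sum_mul]
      refine Finset.sum_congr rfl fun i _ => ?_
      rw [mul_smul_comm, h.cc_zeta, smul_mul_assoc, map_smul, mul_smul_comm, mul_smul_comm,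
        mul_assoc]
    rw [Finset.sum_congr rfl (fun k _ => e1 k), Finset.sum_comm]
    refine Finset.sum_congr rfl fun i _ => ?_
    rw [e0, map_sum, zeta_castSucc, Finset.mul_sum, Finset.mul_sum]
  · -- the last block
    rw [e0', mu0_apply, zeta_last]
    calc (1 - tt ψ o s r + d) * ozMap ψ x * (r * ozMap ψ (blk X (Fin.last N) l))
        = (1 - tt ψ o s r + d) * (ozMap ψ x * r) * ozMap ψ (blk X (Fin.last N) l) := by
          noncomm_ring
      _ = (1 - tt ψ o s r + d) * (r * ozMap ψ x) * ozMap ψ (blk X (Fin.last N) l) := by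
          rw [(h.r_comm_oz x).eq]
      _ = (1 - tt ψ o s r + d) * (r * ((1 - d) * ozMap ψ (x * blk X (Fin.last N) l))) := by
          rw [← h.w_eq, ← h.oz.ozMap_mul]
          noncomm_ring
      _ = (1 - tt ψ o s r + d) * ((r * (1 - d)) * ozMap ψ (x * blk X (Fin.last N) l)) := by
          noncomm_ring
      _ = (1 - tt ψ o s r + d) * (((1 - d) * r) * ozMap ψ (x * blk X (Fin.last N) l)) := by
          rw [((Commute.one_right r).sub_right h.r_d).eq]
      _ = ((1 - tt ψ o s r + d) * (1 - d)) * (r * ozMap ψ (x * blk X (Fin.last N) l)) := by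
          noncomm_ring
      _ = _ := by rw [h.cc_w]

theorem T_mu0 (h : TwistHyp ψ o s r d) (x : Matrix (Fin N) (Fin N) ℂ) :
    tt ψ o s r * mu0 ψ o s r d x = al ψ o s r (iota0 N x) := by
  have e1 : tt ψ o s r * ozMap ψ x
      = (∑ i, ∑ j, x i j • ((ψ i o * s) * star (ψ j o * s))) + d * ozMap ψ x := by
    rw [ozMap_apply, Finset.mul_sum, Finset.mul_sum, ← Finset.sum_add_distrib]
    refine Finset.sum_congr rfl fun i _ => ?_
    rw [Finset.mul_sum, Finset.mul_sum, ← Finset.sum_add_distrib]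
    refine Finset.sum_congr rfl fun j _ => ?_
    rw [mul_smul_comm, h.tt_psi, smul_add, mul_smul_comm]
  have e2 : tt ψ o s r * mu0 ψ o s r d x
      = (1 - tt ψ o s r + d) * (tt ψ o s r * ozMap ψ x) := by
    rw [mu0_apply]
    calc tt ψ o s r * ((1 - tt ψ o s r + d) * ozMap ψ x)
        = (1 - tt ψ o s r + d) * (tt ψ o s r * ozMap ψ x)
          + (tt ψ o s r * d - d * tt ψ o s r) * ozMap ψ x := by noncomm_ring
      _ = _ := by rw [h.tt_comm_d.eq, sub_self, zero_mul, add_zero]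
  have e3 : (1 - tt ψ o s r + d) * d = d := by
    have := h.tt_d
    calc (1 - tt ψ o s r + d) * d = d - tt ψ o s r * d + d * d := by noncomm_ring
      _ = d := by rw [this]; abel
  rw [e2, e1, mul_add, ← mul_assoc, e3, al_apply, Fin.sum_univ_castSucc]
  congr 1
  · rw [Finset.mul_sum]
    refine Finset.sum_congr rfl fun i _ => ?_
    rw [Fin.sum_univ_castSucc, blk_iota0_cast_last, map_zero, mul_zero, zero_mul, add_zero,
      Finset.mul_sum]
    refine Finset.sum_congr rfl fun j _ => ?_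
    rw [blk_iota0_cast, map_smul, ozMap_one, h.w_eq, mul_smul_comm, mul_smul_comm,
      smul_mul_assoc, ← mul_assoc, h.cc_zeta, zeta_castSucc, zeta_castSucc]
    congr 2
    have := h.tt_zeta i.castSucc
    rw [zeta_castSucc] at this
    rw [sub_mul, one_mul, this, mul_sub, mul_one]
  · rw [Fin.sum_univ_castSucc, Finset.sum_eq_zero, zero_add, blk_iota0_last, zeta_last, h.star_r,
      mul_assoc, ← (h.r_comm_oz x).eq, ← mul_assoc, h.r_mul_r]
    intro j _
    rw [blk_iota0_last_cast, map_zero, mul_zero, zero_mul]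

end TwistHyp

/-- Functional calculus of a positive contraction, as a map defined on `C([0,1])`. -/
theorem exists_calculus {T : B} (h0 : 0 ≤ T) (h1 : T ≤ 1) :
    ∃ γ : C(unitInterval, ℂ) →⋆ₐ[ℂ] B,
      γ ⟨fun t => ((t : ℝ) : ℂ), by fun_prop⟩ = T ∧
      ∀ x, Commute T x → ∀ f, Commute (γ f) x := by
  have hsa : IsSelfAdjoint T := h0.isSelfAdjoint
  have hn : IsStarNormal T := hsa.isStarNormal
  have hre : ∀ z ∈ spectrum ℂ T, z = ((z.re : ℝ) : ℂ) ∧ z.re ∈ Set.Icc (0 : ℝ) 1 := by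
    intro z hz
    have hz1 : z = ((z.re : ℝ) : ℂ) := hsa.mem_spectrum_eq_re hz
    refine ⟨hz1, ?_⟩
    have hz2 : z.re ∈ spectrum ℝ T := by
      rw [← spectrum.algebraMap_mem_iff ℂ]
      rw [hz1] at hz
      exact hz
    exact ⟨spectrum_nonneg_of_nonneg h0 hz2, by
      have h3 : T ≤ algebraMap ℝ B 1 := by rwa [map_one]
      exact (le_algebraMap_iff_spectrum_le (ha := hsa)).1 h3 _ hz2⟩
  let g : C(spectrum ℂ T, unitInterval) :=
    ⟨fun z => ⟨(z : ℂ).re, (hre z z.2).2⟩, by fun_prop⟩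
  refine ⟨(cfcHom (R := ℂ) hn).comp (ContinuousMap.compStarAlgHom' ℂ ℂ g), ?_, ?_⟩
  · rw [StarAlgHom.comp_apply]
    have e : ContinuousMap.compStarAlgHom' ℂ ℂ g ⟨fun t => ((t : ℝ) : ℂ), by fun_prop⟩
        = ContinuousMap.restrict (spectrum ℂ T) (.id ℂ) := by
      ext z
      exact (hre z z.2).1.symm
    rw [e, cfcHom_id]
  · intro x hx f
    rw [StarAlgHom.comp_apply]
    exact Commute.cfcHom hn hx (by rwa [hsa.star_eq]) _

/-- **Step 6, first half**: an order zero map with small defect gives glue data. -/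
theorem exists_glueData {n : ℕ} {ψ : Fin (n + 1) → Fin (n + 1) → B} {s : B} (hψ : IsOZ ψ)
    (hs : star s * s = 1 - ∑ a, ψ a a) (hs' : ψ 0 0 * s = s) :
    ∃ (γ : C(unitInterval, ℂ) →⋆ₐ[ℂ] B) (T : B)
      (α : Matrix (Fin (n + 1) × Fin (n + 1 + 1)) (Fin (n + 1) × Fin (n + 1 + 1)) ℂ →ₗ[ℂ] B)
      (μ₀ : Matrix (Fin (n + 1)) (Fin (n + 1)) ℂ →ₗ[ℂ] B)
      (μ₁ : Matrix (Fin (n + 1 + 1)) (Fin (n + 1 + 1)) ℂ →ₗ[ℂ] B),
      GlueData (iota0 (n + 1)) (iota1 (n + 1)) γ T α μ₀ μ₁ := by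
  obtain ⟨d, hd⟩ : ∃ d : B, d = 1 - ∑ a, ψ a a := ⟨_, rfl⟩
  have hd0 : 0 ≤ d := hd ▸ sub_nonneg.2 hψ.le_one
  have hd1 : d ≤ 1 := hd ▸ sub_le_self _ hψ.nonneg
  have hdsa : IsSelfAdjoint d := hd0.isSelfAdjoint
  obtain ⟨r, hr⟩ : ∃ r : B, r = cfc Real.sqrt d := ⟨_, rfl⟩
  have h : TwistHyp ψ 0 s r d := by
    refine ⟨hψ, hd, by rw [hs, hd], hs', ?_, ?_, ?_⟩
    · rw [hr]
      exact (cfc_predicate Real.sqrt d : IsSelfAdjoint _).star_eq
    · rw [hr, ← cfc_mul Real.sqrt Real.sqrt d (Real.continuous_sqrt.continuousOn)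
        (Real.continuous_sqrt.continuousOn)]
      conv_rhs => rw [← cfc_id' ℝ d]
      refine cfc_congr fun x hx => ?_
      exact Real.mul_self_sqrt (spectrum_nonneg_of_nonneg hd0 hx)
    · intro x hx
      rw [hr]
      exact hx.cfc_real _
  obtain ⟨γ, hγ1, hγ2⟩ := exists_calculus (TwistHyp.tt_nonneg ψ 0 s r) (h.tt_le_one hd1)
  exact ⟨γ, TwistHyp.tt ψ 0 s r, TwistHyp.al ψ 0 s r, TwistHyp.mu0 ψ 0 s r d,
    TwistHyp.mu1 ψ 0 s r,
    { hT := hγ1
      comm_α := fun f X => hγ2 _ (h.comm_al X) f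
      comm_μ₀ := fun f x => hγ2 _ (h.comm_mu0 x) f
      comm_μ₁ := fun f y => hγ2 _ (h.comm_mu1 y) f
      star_α := h.star_al
      star_μ₀ := h.star_mu0
      star_μ₁ := TwistHyp.star_mu1
      one_α := h.one_al
      one_μ₀ := h.one_mu0
      one_μ₁ := TwistHyp.one_mu1
      mul_α := h.mul_al
      mul_μ₀ := h.mul_mu0
      mul_μ₁ := h.mul_mu1
      μ₀_α := h.mu0_al
      μ₁_α := h.mu1_al
      T_μ₀ := h.T_mu0
      T_μ₁ := h.T_mu1 }⟩

end Twist

end Vale.Agent.P101
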