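import Mathlib
import Vale.Agent.P101.DimHomAux
import Vale.Agent.P101.Glue
import Vale.Agent.P101.Twist

/-!
# P101, Step 6: dimension drop algebras map to `B`
-/

namespace Vale.Agent.P101

variable {B : Type*} [CStarAlgebra B] [PartialOrder B] [StarOrderedRing B]

theorem exists_dimDrop_hom {n : ℕ} {ψ : Fin (n + 1) → Fin (n + 1) → B} {s : B} (hψ : IsOZ ψ)
    (hs : star s * s = 1 - ∑ a, ψ a a) (hs' : ψ 0 0 * s = s) {p q : ℕ} (hp : p ∣ n + 1)
    (hq : q ∣ n + 2) : Nonempty (DimDrop p q →⋆ₐ[ℂ] B) := by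
  obtain ⟨γ, T, α, μ₀, μ₁, h⟩ := exists_glueData hψ hs hs'
  refine exists_dimDrop_hom_of_glueData (fun E hE => ?_) hp hq
  exact h.exists_hom E (DimHom.iota0_injective _) (DimHom.iota1_injective _) hE

end Vale.Agent.P101
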