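import Vale.Agent.P101.Wielandt

/-!
# P101, Claim A: an element which is not a scalar modulo any maximal ideal
-/

namespace Vale.Agent.P101

open Finset

variable {ι : Type*} {E : Type*} [NormedRing E] [NormedAlgebra ℂ E] [CompleteSpace E]

omit [CompleteSpace E] in
/-- The inner derivation by an element of `D s` acts on the factor with index `s` only. -/
theorem CommGen.ad_list [DecidableEq ι] {D : ι → Subalgebra ℂ E} (hD : CommGen D) {v : ι → E}
    (hv : ∀ s, v s ∈ D s) {s : ι} {d : E} (hd : d ∈ D s) (l : List ι) (hl : l.Nodup)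
    (hs : s ∈ l) :
    d * (l.map v).prod - (l.map v).prod * d
      = (l.map (Function.update v s (d * v s - v s * d))).prod := by
  induction l with
  | nil => simp at hs
  | cons t l ih =>
    rw [List.nodup_cons] at hl
    rw [List.map_cons, List.prod_cons, List.map_cons, List.prod_cons]
    by_cases hts : t = s
    · subst hts
      have h1 : d * (l.map v).prod = (l.map v).prod * d := hD.commute_list hv hd l hl.1
      have h2 : l.map (Function.update v t (d * v t - v t * d)) = l.map v := by
        apply List.map_congr_left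
        intro a ha
        apply Function.update_of_ne
        rintro rfl
        exact hl.1 ha
      rw [h2, Function.update_self, mul_assoc (v t), ← h1]
      noncomm_ring
    · have hs' : s ∈ l := by
        rcases List.mem_cons.1 hs with h | h
        · exact absurd h.symm hts
        · exact h
      rw [Function.update_of_ne hts, ← ih hl.2 hs']
      have h3 : d * v t = v t * d := hD.comm s t (Ne.symm hts) d hd _ (hv t)
      rw [← mul_assoc, h3]
      noncomm_ring

omit [NormedAlgebra ℂ E] [CompleteSpace E] in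
theorem prod_mem_of_mem {M : TwoSidedIdeal E} {v : ι → E} (l : List ι) {s : ι} (hs : s ∈ l)
    (h : v s ∈ M) : (l.map v).prod ∈ M := by
  induction l with
  | nil => simp at hs
  | cons t l ih =>
    rw [List.map_cons, List.prod_cons]
    rcases List.mem_cons.1 hs with rfl | h'
    · exact M.mul_mem_right _ _ h
    · exact M.mul_mem_left _ _ (ih h')

variable [Fintype ι] [DecidableEq ι]

/-- The factors of the term belonging to the set `T`. -/
def termF (k : ℕ → ι → E) (T : Finset ι) (s : ι) : E := if s ∈ T then k (T.card - 1) s else 1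

/-- The index sets which occur in the sum. -/
def idxSets (ι : Type*) [Fintype ι] [DecidableEq ι] (n : ℕ) : Finset (Finset ι) :=
  (univ : Finset (Finset ι)).filter (fun T => 0 < T.card ∧ T.card ≤ n)

/-- The sum of the elementary symmetric polynomials of degree `j` in the `k (j-1) s`. -/
def elemSum (L : List ι) (n : ℕ) (k : ℕ → ι → E) : E :=
  ∑ T ∈ idxSets ι n, (L.map (termF k T)).prod

theorem exists_active (n : ℕ) (hN : n * (n - 1) / 2 < Fintype.card ι) (p : ℕ → ι → Prop)
    (hp : ∀ s, ∃ j < n, p j s) :
    ∃ T ∈ idxSets ι n, ∀ s ∈ T, p (T.card - 1) s := by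
  classical
  choose j hj hpj using hp
  by_contra hcon
  push Not at hcon
  have hcard : ∀ i < n, ((univ : Finset ι).filter (fun s => j s = i)).card ≤ i := by
    intro i hi
    by_contra hlt
    push Not at hlt
    obtain ⟨T, hT, hTc⟩ := Finset.exists_subset_card_eq (Nat.succ_le_of_lt hlt)
    obtain ⟨s, hs, hps⟩ := hcon T (by
      simp only [idxSets, mem_filter, mem_univ, true_and, hTc]
      omega)
    apply hps
    have := (mem_filter.1 (hT hs)).2
    rw [hTc, Nat.succ_sub_one, ← this]
    exact hpj s
  have h1 : Fintype.card ι = ∑ i ∈ range n, ((univ : Finset ι).filter (fun s => j s = i)).card := by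
    rw [← Finset.card_univ]
    exact Finset.card_eq_sum_card_fiberwise (fun s _ => by simpa using hj s)
  have h2 : Fintype.card ι ≤ ∑ i ∈ range n, i := by
    rw [h1]
    exact Finset.sum_le_sum fun i hi => hcard i (mem_range.1 hi)
  rw [Finset.sum_range_id] at h2
  omega

/-- **Claim A**. -/
theorem CommGen.claimA {D : ι → Subalgebra ℂ E} (hD : CommGen D) {M : TwoSidedIdeal E}
    (hM : IsCoatom M) (L : List ι) (hL : L.Nodup) (hLm : ∀ s, s ∈ L) (n : ℕ)
    (hN : n * (n - 1) / 2 < Fintype.card ι) (x y : ℕ → ι → E)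
    (hx : ∀ j s, x j s ∈ D s) (hy : ∀ j s, y j s ∈ D s)
    (hact : ∀ s, ∃ j < n, x j s * y j s - y j s * x j s ∉ M) (c : ℂ) :
    elemSum L n (fun j s => x j s * y j s - y j s * x j s) - c • 1 ∉ M := by
  classical
  intro hmem
  set k : ℕ → ι → E := fun j s => x j s * y j s - y j s * x j s with hk
  have hkD : ∀ j s, k j s ∈ D s := fun j s =>
    (D s).sub_mem ((D s).mul_mem (hx j s) (hy j s)) ((D s).mul_mem (hy j s) (hx j s))
  -- a largest active set
  obtain ⟨T', hT', hT'a⟩ := exists_active n hN (fun j s => k j s ∉ M) hact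
  obtain ⟨T₀, hT₀, hmax⟩ := Finset.exists_max_image
    ((idxSets ι n).filter (fun T => ∀ s ∈ T, k (T.card - 1) s ∉ M)) Finset.card
    ⟨T', mem_filter.2 ⟨hT', hT'a⟩⟩
  obtain ⟨hT₀i, hT₀a⟩ := mem_filter.1 hT₀
  have hT₀c : 0 < T₀.card := (mem_filter.1 hT₀i).2.1
  -- the derivations
  have hd : ∀ s, ∃ d ∈ D s, s ∈ T₀ → d * k (T₀.card - 1) s - k (T₀.card - 1) s * d ∉ M := by
    intro s
    by_cases hs : s ∈ T₀
    · obtain ⟨d, hd, h⟩ := hD.exists_commutator_notMem hM (hx _ s) (hy _ s) (hT₀a s hs)
      exact ⟨d, hd, fun _ => h⟩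
    · exact ⟨0, (D s).zero_mem, fun h => absurd h hs⟩
  choose d hdD hdM using hd
  let w : Finset ι → Finset ι → ι → E := fun U T s =>
    if s ∈ U then d s * termF k T s - termF k T s * d s else termF k T s
  have htD : ∀ T s, termF k T s ∈ D s := by
    intro T s
    unfold termF
    split_ifs
    · exact hkD _ s
    · exact (D s).one_mem
  have hwD : ∀ U T s, w U T s ∈ D s := by
    intro U T s
    simp only [w]
    split_ifs
    · exact (D s).sub_mem ((D s).mul_mem (hdD s) (htD T s)) ((D s).mul_mem (htD T s) (hdD s))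
    · exact htD T s
  have hstep : ∀ U T s, s ∉ U → d s * (L.map (w U T)).prod - (L.map (w U T)).prod * d s
      = (L.map (w (insert s U) T)).prod := by
    intro U T s hs
    rw [hD.ad_list (hwD U T) (hdD s) L hL (hLm s)]
    congr 2
    funext t
    by_cases hts : t = s
    · subst hts
      simp [w, hs]
    · rw [Function.update_of_ne hts]
      simp [w, hts]
  have hz : ∀ U : Finset ι, (∑ T ∈ idxSets ι n, (L.map (w U T)).prod)
      - c • (L.map (w U ∅)).prod ∈ M := by
    intro U
    induction U using Finset.induction_on with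
    | empty =>
      have e1 : ∀ T, w ∅ T = termF k T := by
        intro T
        funext s
        simp [w]
      have e2 : (L.map (termF k ∅)).prod = 1 := by
        have : termF k ∅ = fun _ => (1 : E) := by
          funext s
          simp [termF]
        rw [this]
        simp
      simp only [e1, e2]
      exact hmem
    | insert s U hs ih =>
      have h1 := M.sub_mem (M.mul_mem_left (d s) _ ih) (M.mul_mem_right _ (d s) ih)
      have e : d s * (∑ T ∈ idxSets ι n, (L.map (w U T)).prod - c • (L.map (w U ∅)).prod)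
          - (∑ T ∈ idxSets ι n, (L.map (w U T)).prod - c • (L.map (w U ∅)).prod) * d s
          = (∑ T ∈ idxSets ι n, (L.map (w (insert s U) T)).prod)
            - c • (L.map (w (insert s U) ∅)).prod := by
        rw [← hstep U ∅ s hs, Finset.sum_congr rfl (fun T _ => (hstep U T s hs).symm),
          Finset.sum_sub_distrib, mul_sub, sub_mul, Finset.mul_sum, Finset.sum_mul, smul_sub,
          mul_smul_comm, smul_mul_assoc]
        abel
      rw [e] at h1
      exact h1
  have hfin := hz T₀
  -- all terms but one are in `M`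
  have hne : ∀ T ∈ (idxSets ι n).erase T₀, (L.map (w T₀ T)).prod ∈ M := by
    intro T hT
    obtain ⟨hTne, hTi⟩ := mem_erase.1 hT
    by_cases hsub : T₀ ⊆ T
    · have hlt : T₀.card < T.card := Finset.card_lt_card (hsub.ssubset_of_ne (Ne.symm hTne))
      have hna : ¬ (∀ s ∈ T, k (T.card - 1) s ∉ M) := by
        intro h
        have := hmax T (mem_filter.2 ⟨hTi, h⟩)
        omega
      push Not at hna
      obtain ⟨s, hsT, hsM⟩ := hna
      refine prod_mem_of_mem L (hLm s) ?_
      have e : termF k T s = k (T.card - 1) s := by simp [termF, hsT]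
      simp only [w, e]
      split_ifs
      · exact M.sub_mem (M.mul_mem_left _ _ hsM) (M.mul_mem_right _ _ hsM)
      · exact hsM
    · obtain ⟨s, hs0, hsT⟩ := Finset.not_subset.1 hsub
      refine prod_mem_of_mem L (hLm s) ?_
      have : w T₀ T s = 0 := by simp [w, hs0, termF, hsT]
      rw [this]
      exact M.zero_mem
  have hempty : (L.map (w T₀ ∅)).prod ∈ M := by
    obtain ⟨s, hs⟩ := Finset.card_pos.1 hT₀c
    refine prod_mem_of_mem L (hLm s) ?_
    have : w T₀ ∅ s = 0 := by simp [w, hs, termF]
    rw [this]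
    exact M.zero_mem
  have hlast : (L.map (w T₀ T₀)).prod ∈ M := by
    rw [← Finset.add_sum_erase _ _ hT₀i] at hfin
    have h1 : ∑ T ∈ (idxSets ι n).erase T₀, (L.map (w T₀ T)).prod ∈ M := sum_mem hne
    have h2 := M.sub_mem (M.add_mem hfin (smul_mem_ideal M c hempty)) h1
    have e : (L.map (w T₀ T₀)).prod + ∑ T ∈ (idxSets ι n).erase T₀, (L.map (w T₀ T)).prod
        - c • (L.map (w T₀ ∅)).prod + c • (L.map (w T₀ ∅)).prod
        - ∑ T ∈ (idxSets ι n).erase T₀, (L.map (w T₀ T)).prod = (L.map (w T₀ T₀)).prod := by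
      abel
    rwa [e] at h2
  obtain ⟨s, -, hs⟩ := hD.zp_list hM (hwD T₀ T₀) L hL hlast
  by_cases hs0 : s ∈ T₀
  · have e : w T₀ T₀ s = d s * k (T₀.card - 1) s - k (T₀.card - 1) s * d s := by
      simp [w, hs0, termF]
    rw [e] at hs
    exact hdM s hs0 hs
  · have e : w T₀ T₀ s = 1 := by simp [w, hs0, termF]
    rw [e] at hs
    exact one_notMem_of_isCoatom hM hs

end Vale.Agent.P101
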