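import Vale.Agent.P101.ZP

/-!
# P101: the closed star subalgebra generated by commuting star subalgebras
-/

namespace Vale.Agent.P101

variable {ι : Type*} {B : Type*} [CStarAlgebra B]

/-- The closed star subalgebra generated by a family of star subalgebras. -/
def genAlg (D : ι → StarSubalgebra ℂ B) : StarSubalgebra ℂ B := (⨆ s, D s).topologicalClosure

theorem isClosed_genAlg (D : ι → StarSubalgebra ℂ B) : IsClosed (genAlg D : Set B) :=
  StarSubalgebra.isClosed_topologicalClosure _

instance (D : ι → StarSubalgebra ℂ B) : IsClosed (genAlg D : Set B) := isClosed_genAlg D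

theorem le_genAlg (D : ι → StarSubalgebra ℂ B) (s : ι) : D s ≤ genAlg D :=
  (le_iSup D s).trans (StarSubalgebra.le_topologicalClosure _)

/-- The members of the family, seen inside the generated algebra. -/
def inGen (D : ι → StarSubalgebra ℂ B) (s : ι) : Subalgebra ℂ (genAlg D) :=
  ((D s).comap (genAlg D).subtype).toSubalgebra

theorem mem_inGen {D : ι → StarSubalgebra ℂ B} {s : ι} {x : genAlg D} :
    x ∈ inGen D s ↔ (x : B) ∈ D s := Iff.rfl

theorem coe_iSup_starSubalgebra (D : ι → StarSubalgebra ℂ B) :
    ((⨆ s, D s : StarSubalgebra ℂ B) : Set B) ⊆ ((⨆ s, (D s).toSubalgebra : Subalgebra ℂ B) : Set B) := by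
  set P : Subalgebra ℂ B := ⨆ s, (D s).toSubalgebra with hP
  have hstar : P ≤ star P := by
    refine iSup_le fun s => ?_
    intro x hx
    rw [Subalgebra.mem_star_iff]
    exact (le_iSup (fun s => (D s).toSubalgebra) s) (star_mem (S := StarSubalgebra ℂ B) hx)
  let P' : StarSubalgebra ℂ B :=
    { P with
      star_mem' := by
        intro x hx
        have := hstar hx
        rwa [Subalgebra.mem_star_iff] at this }
  have hle : (⨆ s, D s : StarSubalgebra ℂ B) ≤ P' := by
    refine iSup_le fun s => ?_
    intro x hx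
    exact (le_iSup (fun s => (D s).toSubalgebra) s) hx
  exact hle

theorem commGen_inGen {D : ι → StarSubalgebra ℂ B}
    (hD : ∀ s t, s ≠ t → ∀ x ∈ D s, ∀ y ∈ D t, Commute x y) : CommGen (inGen D) := by
  refine ⟨?_, ?_⟩
  · intro s t hst x hx y hy
    have := hD s t hst x hx y hy
    exact Subtype.ext this
  · intro z
    rw [closure_subtype]
    have hz : (z : B) ∈ closure ((⨆ s, D s : StarSubalgebra ℂ B) : Set B) := by
      have h1 : (z : B) ∈ (genAlg D : Set B) := z.2
      have e : (genAlg D : Set B) = closure ((⨆ s, D s : StarSubalgebra ℂ B) : Set B) :=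
        StarSubalgebra.topologicalClosure_coe _
      rwa [e] at h1
    refine closure_mono ?_ hz
    refine (coe_iSup_starSubalgebra D).trans ?_
    have hle : (⨆ s, (D s).toSubalgebra : Subalgebra ℂ B)
        ≤ (⨆ s, inGen D s : Subalgebra ℂ (genAlg D)).map (genAlg D).subtype.toAlgHom := by
      refine iSup_le fun s => ?_
      intro x hx
      have hxg : x ∈ genAlg D := le_genAlg D s hx
      exact ⟨⟨x, hxg⟩, (le_iSup (inGen D) s) (show (⟨x, hxg⟩ : genAlg D) ∈ inGen D s from hx), rfl⟩
    intro x hx
    obtain ⟨y, hy, rfl⟩ := hle hx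
    exact ⟨y, hy, rfl⟩

end Vale.Agent.P101
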