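import Vale.Agent.P101.NonScalar
import Vale.Agent.P101.Intertwine

/-!
# P101, Step 3: many orthogonal full positive elements
-/

namespace Vale.Agent.P101

open Finset

section Plateau

/-- The union of the intervals `[2i + 2Lk, 2i + 2Lk + 1]`. -/
def combSet (L i : ℕ) : Set ℝ :=
  {x | ∃ k : ℤ, 2 * (i : ℝ) + 2 * L * k ≤ x ∧ x ≤ 2 * (i : ℝ) + 2 * L * k + 1}

/-- The plateau function, equal to one near `combSet L i`. -/
noncomputable def plateau (L i : ℕ) (x : ℝ) : ℝ :=
  max 0 (min 1 (2 - 4 * Metric.infDist x (combSet L i)))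

theorem combSet_nonempty (L i : ℕ) : (combSet L i).Nonempty :=
  ⟨2 * (i : ℝ), 0, by simp, by simp⟩

theorem continuous_plateau (L i : ℕ) : Continuous (plateau L i) := by
  unfold plateau
  have := Metric.continuous_infDist_pt (combSet L i)
  fun_prop

theorem plateau_nonneg (L i : ℕ) (x : ℝ) : 0 ≤ plateau L i x := le_max_left _ _

theorem plateau_le_one (L i : ℕ) (x : ℝ) : plateau L i x ≤ 1 :=
  max_le zero_le_one (min_le_left _ _)

theorem plateau_eq_one (L i : ℕ) {x y : ℝ} (hy : y ∈ combSet L i) (h : |x - y| ≤ 1 / 4) :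
    plateau L i x = 1 := by
  have h1 : Metric.infDist x (combSet L i) ≤ 1 / 4 := by
    refine (Metric.infDist_le_dist_of_mem hy).trans ?_
    rwa [Real.dist_eq]
  unfold plateau
  rw [min_eq_left (by linarith)]
  exact max_eq_right zero_le_one

theorem plateau_mul (L : ℕ) {i j : ℕ} (hi : i < L) (hj : j < L) (hij : i ≠ j) (x : ℝ) :
    plateau L i x * plateau L j x = 0 := by
  by_contra hne
  have hni : plateau L i x ≠ 0 := left_ne_zero_of_mul hne
  have hnj : plateau L j x ≠ 0 := right_ne_zero_of_mul hne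
  have key : ∀ i, plateau L i x ≠ 0 → ∃ y ∈ combSet L i, |x - y| < 1 / 2 := by
    intro i hni
    have h1 : Metric.infDist x (combSet L i) < 1 / 2 := by
      by_contra hge
      push Not at hge
      apply hni
      unfold plateau
      rw [min_eq_right (by linarith)]
      exact max_eq_left (by linarith)
    obtain ⟨y, hy, hd⟩ := (Metric.infDist_lt_iff (combSet_nonempty L i)).1 h1
    exact ⟨y, hy, by rwa [Real.dist_eq] at hd⟩
  obtain ⟨y, ⟨k, hk1, hk2⟩, hy⟩ := key i hni
  obtain ⟨z, ⟨l, hl1, hl2⟩, hz⟩ := key j hnj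
  rw [abs_lt] at hy hz
  have hne' : (i : ℤ) + L * k ≠ (j : ℤ) + L * l := by
    intro h
    have h1 : ((i : ℤ) + L * k) % L = ((j : ℤ) + L * l) % L := by rw [h]
    rw [Int.add_mul_emod_self_left, Int.add_mul_emod_self_left,
      Int.emod_eq_of_lt (by positivity) (by exact_mod_cast hi),
      Int.emod_eq_of_lt (by positivity) (by exact_mod_cast hj)] at h1
    exact hij (by exact_mod_cast h1)
  rcases lt_or_gt_of_ne hne' with h | h
  · have h2 : (i : ℝ) + L * k + 1 ≤ (j : ℝ) + L * l := by exact_mod_cast h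
    linarith
  · have h2 : (j : ℝ) + L * l + 1 ≤ (i : ℝ) + L * k := by exact_mod_cast h
    linarith

end Plateau

/-- A discrete intermediate value theorem. -/
theorem discrete_ivt (V : ℕ → ℝ) {s α : ℝ} (hs : 0 ≤ s) (K : ℕ)
    (hstep : ∀ j < K, V (j + 1) ≤ V j + s) (h0 : V 0 ≤ α) (hK : α ≤ V K) :
    ∃ j ≤ K, α ≤ V j ∧ V j ≤ α + s := by
  classical
  have hex : ∃ j, α ≤ V j := ⟨K, hK⟩
  have hle : Nat.find hex ≤ K := Nat.find_min' hex hK
  refine ⟨Nat.find hex, hle, Nat.find_spec hex, ?_⟩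
  rcases Nat.eq_zero_or_pos (Nat.find hex) with h | h
  · rw [h]
    linarith
  · obtain ⟨j, hj⟩ := Nat.exists_eq_succ_of_ne_zero h.ne'
    have hlt : ¬ α ≤ V j := Nat.find_min hex (by omega)
    have h1 := hstep j (by omega)
    rw [hj]
    push Not at hlt
    change V (j + 1) ≤ α + s
    linarith

theorem CommGen.intertwine_list {ι : Type*} {E : Type*} [NormedRing E] [NormedAlgebra ℂ E]
    {D : ι → Subalgebra ℂ E} (hD : CommGen D) {v : ι → E}
    (hv : ∀ s, v s ∈ D s) {s : ι} {d d' : E} (hd : d ∈ D s) (hd' : d' ∈ D s)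
    (h : d * v s = v s * d') (l : List ι) (hl : l.Nodup) (hs : s ∈ l) :
    d * (l.map v).prod = (l.map v).prod * d' := by
  induction l with
  | nil => simp at hs
  | cons t l ih =>
    rw [List.nodup_cons] at hl
    rw [List.map_cons, List.prod_cons]
    by_cases hts : t = s
    · subst hts
      have h1 : d' * (l.map v).prod = (l.map v).prod * d' := hD.commute_list hv hd' l hl.1
      rw [← mul_assoc, h, mul_assoc, h1, mul_assoc]
    · have hs' : s ∈ l := by
        rcases List.mem_cons.1 hs with h | h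
        · exact absurd h.symm hts
        · exact h
      have h3 : d * v t = v t * d := hD.comm s t (Ne.symm hts) d hd _ (hv t)
      rw [← mul_assoc, h3, mul_assoc, ih hl.2 hs', mul_assoc]

variable {G : Type*} [CStarAlgebra G]

/-- Truncation to the support of a tent function. -/
noncomputable def trunc (m v : ℕ) (x : ℝ) : ℝ :=
  max (((v : ℝ) - 1) / m) (min (((v : ℝ) + 1) / m) x)

theorem continuous_trunc (m v : ℕ) : Continuous (trunc m v) := by
  unfold trunc
  fun_prop

theorem mul_tent {m : ℕ} (hm : 0 < m) (v : ℕ) (x : ℝ) :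
    x * tent m v x = tent m v x * trunc m v x := by
  have hmr : (0 : ℝ) < m := by exact_mod_cast hm
  by_cases h : 1 ≤ |m * x - v|
  · simp [tent_eq_zero m v x h]
  · push Not at h
    rw [abs_lt] at h
    have h1 : ((v : ℝ) - 1) / m ≤ x := by
      rw [div_le_iff₀ hmr]
      linarith
    have h2 : x ≤ ((v : ℝ) + 1) / m := by
      rw [le_div_iff₀ hmr]
      linarith
    have h3 : trunc m v x = x := by
      unfold trunc
      rw [min_eq_right h2, max_eq_right h1]
    rw [h3]
    ring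

theorem abs_trunc_sub_le {m : ℕ} (hm : 0 < m) (v : ℕ) (x : ℝ) :
    |trunc m v x - (v : ℝ) / m| ≤ 1 / m := by
  have hmr : (0 : ℝ) < m := by exact_mod_cast hm
  rw [abs_le]
  have f1 : ((v : ℝ) - 1) / m = (v : ℝ) / m - 1 / m := by ring
  have f2 : ((v : ℝ) + 1) / m = (v : ℝ) / m + 1 / m := by ring
  have f3 : (0 : ℝ) ≤ 1 / m := by positivity
  constructor
  · have : ((v : ℝ) - 1) / m ≤ trunc m v x := le_max_left _ _
    linarith
  · have : trunc m v x ≤ ((v : ℝ) + 1) / m := by
      refine max_le ?_ (min_le_left _ _)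
      rw [f1, f2]
      linarith
    linarith

theorem mul_cfc_tent {a : G} (ha : IsSelfAdjoint a) {m : ℕ} (hm : 0 < m) (v : ℕ) :
    a * cfc (tent m v) a = cfc (tent m v) a * cfc (trunc m v) a := by
  have ha' : a * cfc (tent m v) a = cfc (fun x : ℝ => x * tent m v x) a := by
    rw [cfc_mul (fun x : ℝ => x) (tent m v) a (by fun_prop)
      (continuous_tent m _).continuousOn, cfc_id' ℝ a]
  have hb' : cfc (tent m v) a * cfc (trunc m v) a
      = cfc (fun x : ℝ => tent m v x * trunc m v x) a := by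
    rw [cfc_mul (tent m v) (trunc m v) a (continuous_tent m _).continuousOn
      (continuous_trunc m v).continuousOn]
  rw [ha', hb']
  exact cfc_congr fun x _ => mul_tent hm v x

theorem norm_cfc_trunc_sub_le {a : G} (ha : IsSelfAdjoint a) {m : ℕ} (hm : 0 < m) (v : ℕ) :
    ‖cfc (trunc m v) a - algebraMap ℝ G ((v : ℝ) / m)‖ ≤ 1 / m := by
  rw [← cfc_const ((v : ℝ) / m) a, ← cfc_sub (trunc m v) (fun _ => (v : ℝ) / m) a
    (continuous_trunc m v).continuousOn]
  refine norm_cfc_le (by positivity) fun x _ => ?_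
  rw [Real.norm_eq_abs]
  exact abs_trunc_sub_le hm v x

theorem cfc_plateau_eq_one [Nontrivial G] {Z : G} (hZ : IsSelfAdjoint Z) {L i : ℕ} {y : ℝ}
    (hy : y ∈ combSet L i) (h : ‖Z - algebraMap ℝ G y‖ ≤ 1 / 4) :
    cfc (plateau L i) Z = 1 := by
  rw [← cfc_const_one ℝ Z]
  refine cfc_congr fun x hx => ?_
  refine plateau_eq_one L i hy ?_
  have h1 := norm_apply_le_norm_cfc (fun x : ℝ => x - y) Z hx
  rw [Real.norm_eq_abs] at h1
  refine h1.trans ?_
  rw [cfc_sub (fun x : ℝ => x) (fun _ => y) Z, cfc_id' ℝ Z, cfc_const y Z]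
  exact h

theorem isSelfAdjoint_finset_sum {κ : Type*} (s : Finset κ) (f : κ → G)
    (hf : ∀ r, IsSelfAdjoint (f r)) : IsSelfAdjoint (∑ r ∈ s, f r) := by
  classical
  induction s using Finset.induction_on with
  | empty => simp
  | insert r s hr ih =>
    rw [Finset.sum_insert hr]
    exact (hf r).add ih

/-- **Step 3**: if `K` commuting uniformly non-scalar elements with spectrum in `[0, 1]` are given
and `K δ ≥ 2 L + 1`, then suitable functions of their sum are `L` orthogonal full elements. -/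
theorem CommGen.isFull_plateau {K : ℕ} {D : Fin K → Subalgebra ℂ G} (hD : CommGen D)
    (a : Fin K → G) (ha : ∀ r, IsSelfAdjoint (a r))
    (hsp : ∀ r, spectrum ℝ (a r) ⊆ Set.Icc (0 : ℝ) 1)
    (haD : ∀ r (f : ℝ → ℝ), Continuous f → cfc f (a r) ∈ D r) {δ : ℝ} (hδ : 0 < δ)
    (hns : ∀ r, UniformNonScalar δ (a r)) {L : ℕ} (hK : 2 * (L : ℝ) + 1 ≤ K * δ) {i : ℕ}
    (hi : i < L) : IsFull (cfc (plateau L i) (∑ r, a r)) := by
  classical
  rw [isFull_iff]
  intro M hM hmem
  have hLr : (0 : ℝ) < L := by exact_mod_cast (Nat.zero_lt_of_lt hi)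
  have hKpos : 0 < K := by
    rcases Nat.eq_zero_or_pos K with h | h
    · rw [h] at hK
      simp at hK
      linarith
    · exact h
  -- the mesh
  obtain ⟨m, hm⟩ := exists_nat_gt (max (2 / δ) (4 * K))
  have hm1 : 2 / δ < m := (le_max_left _ _).trans_lt hm
  have hm2 : 4 * (K : ℝ) < m := (le_max_right _ _).trans_lt hm
  have hmr : (0 : ℝ) < m := lt_of_le_of_lt (by positivity) hm2
  have hm0 : 0 < m := by exact_mod_cast hmr
  have hmδ : 2 ≤ m * δ := by
    rw [div_lt_iff₀ hδ] at hm1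
    exact hm1.le
  have htents : ∀ r, ∃ i₀ i₁ : ℕ, i₀ ≤ i₁ ∧ i₁ ≤ m ∧ (m : ℝ) * δ ≤ (i₁ : ℝ) - i₀ ∧
      cfc (tent m i₀) (a r) ∉ M ∧ cfc (tent m i₁) (a r) ∉ M := fun r =>
    exists_two_tents (ha r) (hsp r) hm0 hmδ hM (fun x hx => hns r M hM x hx)
  choose i₀ i₁ h01 h1m hgap hi₀ hi₁ using htents
  -- the walk
  let w : ℕ → Fin K → ℕ := fun j r => if (r : ℕ) < j then i₁ r else i₀ r
  have hw : ∀ j r, cfc (tent m (w j r)) (a r) ∉ M := by
    intro j r
    simp only [w]
    split_ifs
    · exact hi₁ r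
    · exact hi₀ r
  let V : ℕ → ℝ := fun j => ∑ r, (w j r : ℝ)
  have hstep : ∀ j < K, V (j + 1) ≤ V j + m := by
    intro j hj
    have e : ∀ r : Fin K, (w (j + 1) r : ℝ) ≤ w j r + (if r = ⟨j, hj⟩ then (m : ℝ) else 0) := by
      intro r
      by_cases hr : r = ⟨j, hj⟩
      · subst hr
        simp only [w, if_true]
        have h1 : (i₁ ⟨j, hj⟩ : ℝ) ≤ m := by exact_mod_cast h1m ⟨j, hj⟩
        have h2 : (0 : ℝ) ≤ i₀ ⟨j, hj⟩ := Nat.cast_nonneg _
        simp
        linarith
      · have hne : (r : ℕ) ≠ j := fun h => hr (Fin.ext h)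
        have : (r : ℕ) < j + 1 ↔ (r : ℕ) < j := by omega
        simp [w, hr, this]
    calc V (j + 1) ≤ ∑ r : Fin K, ((w j r : ℝ) + (if r = ⟨j, hj⟩ then (m : ℝ) else 0)) :=
          Finset.sum_le_sum fun r _ => e r
      _ = V j + m := by
          rw [Finset.sum_add_distrib]
          simp [V]
  have hspan : V 0 + m * (2 * L + 1) ≤ V K := by
    have e : ∀ r : Fin K, (w 0 r : ℝ) + m * δ ≤ w K r := by
      intro r
      have := hgap r
      simp only [w, Nat.not_lt_zero, if_false, r.2, if_true]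
      linarith
    calc V 0 + m * (2 * L + 1) ≤ V 0 + m * (K * δ) := by
          have := mul_le_mul_of_nonneg_left hK hmr.le
          linarith
      _ = ∑ r : Fin K, ((w 0 r : ℝ) + m * δ) := by
          rw [Finset.sum_add_distrib]
          simp [V]
          ring
      _ ≤ V K := Finset.sum_le_sum fun r _ => e r
  -- the target
  have hden : (0 : ℝ) < 2 * L * m := by positivity
  set k : ℤ := ⌈(V 0 - 2 * i * m) / (2 * L * m)⌉ with hk
  have hk1 : (V 0 - 2 * i * m) / (2 * L * m) ≤ k := Int.le_ceil _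
  have hk2 : (k : ℝ) < (V 0 - 2 * i * m) / (2 * L * m) + 1 := Int.ceil_lt_add_one _
  rw [div_le_iff₀ hden] at hk1
  have hk3 : (k : ℝ) * (2 * L * m) < (V 0 - 2 * i * m) + 2 * L * m := by
    have := mul_lt_mul_of_pos_right hk2 hden
    rwa [add_mul, one_mul, div_mul_cancel₀ _ hden.ne'] at this
  obtain ⟨j, -, hj1, hj2⟩ := discrete_ivt V (α := (2 * i + 2 * L * k) * m) hmr.le K hstep
    (by nlinarith) (by nlinarith)
  -- the bump
  set v : Fin K → ℕ := w j with hv
  set b : Fin K → G := fun r => cfc (tent m (v r)) (a r) with hb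
  have hbD : ∀ r, b r ∈ D r := fun r => haD r _ (continuous_tent m _)
  set p : G := ((List.finRange K).map b).prod with hp
  have hpM : p ∉ M := by
    intro h
    obtain ⟨s, -, hs⟩ := hD.zp_list hM hbD _ (List.nodup_finRange K) h
    exact hw j s hs
  apply hpM
  -- the truncated elements
  have haD' : ∀ r, a r ∈ D r := by
    intro r
    have := haD r (fun x => x) continuous_id
    rwa [cfc_id' ℝ (a r)] at this
  have hXp : (∑ r, a r) * p = p * ∑ r, cfc (trunc m (v r)) (a r) := by
    rw [Finset.sum_mul, Finset.mul_sum]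
    refine Finset.sum_congr rfl fun r _ => ?_
    exact hD.intertwine_list hbD (haD' r) (haD r _ (continuous_trunc m (v r)))
      (mul_cfc_tent (ha r) hm0 (v r)) _ (List.nodup_finRange K) (List.mem_finRange r)
  have hXsa : IsSelfAdjoint (∑ r, a r) := isSelfAdjoint_finset_sum _ _ ha
  have hZsa : IsSelfAdjoint (∑ r, cfc (trunc m (v r)) (a r)) :=
    isSelfAdjoint_finset_sum _ _ fun r => cfc_predicate _ _
  have hint := cfc_intertwine hXsa hZsa hXp (plateau L i) (continuous_plateau L i)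
  have hVm : V j / m ∈ combSet L i := by
    refine ⟨k, ?_, ?_⟩
    · rw [le_div_iff₀ hmr]
      exact hj1
    · rw [div_le_iff₀ hmr]
      linarith
  have hnt : Nontrivial G := by
    by_contra h
    rw [not_nontrivial_iff_subsingleton] at h
    exact hpM ((Subsingleton.elim (0 : G) p) ▸ M.zero_mem)
  have hnorm : ‖∑ r, cfc (trunc m (v r)) (a r) - algebraMap ℝ G (V j / m)‖ ≤ 1 / 4 := by
    have e : algebraMap ℝ G (V j / m) = ∑ r, algebraMap ℝ G ((v r : ℝ) / m) := by
      rw [← map_sum, ← Finset.sum_div]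
    rw [e, ← Finset.sum_sub_distrib]
    calc ‖∑ r, (cfc (trunc m (v r)) (a r) - algebraMap ℝ G ((v r : ℝ) / m))‖
        ≤ ∑ r : Fin K, (1 / m : ℝ) :=
          norm_sum_le_of_le _ (fun r _ => norm_cfc_trunc_sub_le (ha r) hm0 (v r))
      _ = K / m := by simp [div_eq_mul_inv]
      _ ≤ 1 / 4 := by
        rw [div_le_div_iff₀ hmr (by norm_num)]
        linarith
  rw [cfc_plateau_eq_one hZsa hVm hnorm, mul_one] at hint
  rw [← hint]
  exact M.mul_mem_right _ _ hmem

end Vale.Agent.P101
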