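import Vale.Agent.P101.Char
import Vale.Agent.P101.ClaimA
import Vale.Agent.P101.Copies
import Vale.Agent.P101.Gen
import Vale.Agent.P101.Orth

/-!
# P101: orthogonal full positive elements in an algebra with commuting copies and no characters
-/

namespace Vale.Agent.P101

open Finset TopologicalSpace

section SelfAdjoint

variable {ι : Type*} {G : Type*} [CStarAlgebra G]

theorem CommGen.isSelfAdjoint_list_prod {D : ι → Subalgebra ℂ G} (hD : CommGen D) {v : ι → G}
    (hv : ∀ s, v s ∈ D s) (hsa : ∀ s, IsSelfAdjoint (v s)) (l : List ι) (hl : l.Nodup) :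
    IsSelfAdjoint (l.map v).prod := by
  induction l with
  | nil => simp
  | cons t l ih =>
    rw [List.nodup_cons] at hl
    rw [List.map_cons, List.prod_cons]
    have hc : Commute (v t) (l.map v).prod := hD.commute_list hv (hv t) l hl.1
    exact ((hsa t).commute_iff (ih hl.2)).1 hc

theorem CommGen.isSelfAdjoint_elemSum [Fintype ι] [DecidableEq ι] {D : ι → Subalgebra ℂ G}
    (hD : CommGen D) {k : ℕ → ι → G} (hk : ∀ j s, k j s ∈ D s)
    (hsa : ∀ j s, IsSelfAdjoint (k j s)) (L : List ι) (hL : L.Nodup) (n : ℕ) :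
    IsSelfAdjoint (elemSum L n k) := by
  refine isSelfAdjoint_finset_sum _ _ fun T => ?_
  refine hD.isSelfAdjoint_list_prod (fun s => ?_) (fun s => ?_) L hL
  · unfold termF
    split_ifs
    · exact hk _ s
    · exact (D s).one_mem
  · unfold termF
    split_ifs
    · exact hsa _ s
    · exact IsSelfAdjoint.one G

end SelfAdjoint

variable {B : Type*} [CStarAlgebra B]

theorem isSeparable_genAlg {ι : Type*} [Countable ι] {D : ι → StarSubalgebra ℂ B}
    (hD : ∀ s, IsSeparable (D s : Set B)) : IsSeparable (genAlg D : Set B) := by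
  have h1 : (⨆ s, D s : StarSubalgebra ℂ B) ≤ StarAlgebra.adjoin ℂ (⋃ s, (D s : Set B)) := by
    refine iSup_le fun s => ?_
    intro x hx
    exact StarAlgebra.subset_adjoin ℂ _ (Set.mem_iUnion.2 ⟨s, hx⟩)
  refine IsSeparable.mono
    (isSeparable_topologicalClosure_adjoin (IsSeparable.iUnion hD)) ?_
  exact StarSubalgebra.topologicalClosure_mono h1

theorem isSeparable_range {S : StarSubalgebra ℂ B} (hS : IsClosed (S : Set B))
    (hsep : IsSeparable (S : Set B)) (Φ : S →⋆ₐ[ℂ] B) : IsSeparable (Φ.range : Set B) := by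
  have hsepS : SeparableSpace S := hsep.separableSpace
  have h := (IsSeparable.of_separableSpace (Set.univ : Set S)).image (continuous_of_isClosed hS Φ)
  rw [Set.image_univ] at h
  refine IsSeparable.mono h ?_
  rintro _ ⟨x, rfl⟩
  exact ⟨x, rfl⟩

/-- **Step 1**: an element which is not a scalar modulo any maximal ideal. -/
theorem exists_nonscalar (hcc : HasCommutingCopies B) (hchar : IsEmpty (B →⋆ₐ[ℂ] ℂ)) :
    ∃ (E : StarSubalgebra ℂ B) (_ : IsClosed (E : Set B)), IsSeparable (E : Set B) ∧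
      ∃ a : E, IsSelfAdjoint a ∧ spectrum ℝ a ⊆ Set.Icc (0 : ℝ) 1 ∧
        ∀ M : TwoSidedIdeal E, IsCoatom M → ∀ c : ℂ, a - c • (1 : E) ∉ M := by
  classical
  obtain ⟨n, j, r, t, hsum⟩ := fullFam_commutators hchar
  -- the separable algebra generated by the data
  let x : Fin n → B := fun i => Complex.I • ((j i).1 : B)
  let y : Fin n → B := fun i => ((j i).2 : B)
  let S := (StarAlgebra.adjoin ℂ (Set.range x ∪ Set.range y ∪ Set.range r ∪ Set.range t)
    ).topologicalClosure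
  have hScl : IsClosed (S : Set B) := StarSubalgebra.isClosed_topologicalClosure _
  have hSsep : IsSeparable (S : Set B) := isSeparable_topologicalClosure_adjoin_finite
    ((((Set.finite_range x).union (Set.finite_range y)).union (Set.finite_range r)).union
      (Set.finite_range t))
  have hsub : Set.range x ∪ Set.range y ∪ Set.range r ∪ Set.range t ⊆ (S : Set B) :=
    (StarAlgebra.subset_adjoin ℂ _).trans (StarSubalgebra.le_topologicalClosure _)
  have hxS : ∀ i, x i ∈ S := fun i => hsub (Or.inl (Or.inl (Or.inl ⟨i, rfl⟩)))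
  have hyS : ∀ i, y i ∈ S := fun i => hsub (Or.inl (Or.inl (Or.inr ⟨i, rfl⟩)))
  have hrS : ∀ i, r i ∈ S := fun i => hsub (Or.inl (Or.inr ⟨i, rfl⟩))
  have htS : ∀ i, t i ∈ S := fun i => hsub (Or.inr ⟨i, rfl⟩)
  have hsum' : ∑ i, (⟨r i, hrS i⟩ : S) * ((⟨x i, hxS i⟩ : S) * ⟨y i, hyS i⟩
      - ⟨y i, hyS i⟩ * ⟨x i, hxS i⟩) * ⟨t i, htS i⟩ = 1 := by
    apply Subtype.ext
    have e := map_sum S.subtype (fun i => (⟨r i, hrS i⟩ : S) * ((⟨x i, hxS i⟩ : S) * ⟨y i, hyS i⟩
      - ⟨y i, hyS i⟩ * ⟨x i, hxS i⟩) * ⟨t i, htS i⟩) Finset.univ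
    exact e.trans hsum
  -- the copies
  let N : ℕ := n * (n - 1) / 2 + 1
  obtain ⟨Φ, hΦ, -⟩ := exists_commuting_copies hcc S hScl hSsep N
  let D : Fin N → StarSubalgebra ℂ B := fun s => (Φ s).range
  have hDc : ∀ s s', s ≠ s' → ∀ a ∈ D s, ∀ b ∈ D s', Commute a b := by
    rintro s s' hss _ ⟨a, rfl⟩ _ ⟨b, rfl⟩
    exact hΦ s s' hss a b
  have hgen : CommGen (inGen D) := commGen_inGen hDc
  have hE : IsClosed (genAlg D : Set B) := isClosed_genAlg D
  refine ⟨genAlg D, hE, isSeparable_genAlg fun s => isSeparable_range hScl hSsep (Φ s), ?_⟩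
  -- the elements
  have hmem : ∀ s (b : S), Φ s b ∈ genAlg D := fun s b => le_genAlg D s ⟨b, rfl⟩
  let F : Fin N → S → genAlg D := fun s b => ⟨Φ s b, hmem s b⟩
  have hFD : ∀ s b, F s b ∈ inGen D s := fun s b => mem_inGen.2 ⟨b, rfl⟩
  let X : ℕ → Fin N → genAlg D := fun i s => if h : i < n then F s ⟨x ⟨i, h⟩, hxS _⟩ else 0
  let Y : ℕ → Fin N → genAlg D := fun i s => if h : i < n then F s ⟨y ⟨i, h⟩, hyS _⟩ else 0
  have hXD : ∀ i s, X i s ∈ inGen D s := by
    intro i s
    simp only [X]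
    split_ifs
    · exact hFD s _
    · exact (inGen D s).zero_mem
  have hYD : ∀ i s, Y i s ∈ inGen D s := by
    intro i s
    simp only [Y]
    split_ifs
    · exact hFD s _
    · exact (inGen D s).zero_mem
  have hact : ∀ M : TwoSidedIdeal (genAlg D), IsCoatom M → ∀ s, ∃ i < n,
      X i s * Y i s - Y i s * X i s ∉ M := by
    intro M hM s
    by_contra hcon
    push Not at hcon
    apply one_notMem_of_isCoatom hM
    have e : ∑ i, F s ⟨r i, hrS i⟩ * (F s ⟨x i, hxS i⟩ * F s ⟨y i, hyS i⟩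
        - F s ⟨y i, hyS i⟩ * F s ⟨x i, hxS i⟩) * F s ⟨t i, htS i⟩ = 1 := by
      apply Subtype.ext
      have := congrArg (Φ s) hsum'
      simp only [map_sum, map_mul, map_sub, map_one] at this
      simpa [F] using this
    rw [← e]
    refine sum_mem fun i _ => ?_
    have := hcon i i.2
    simp only [X, Y, i.2, dif_pos, Fin.eta] at this
    exact M.mul_mem_right _ _ (M.mul_mem_left _ _ this)
  have hsaK : ∀ i s, IsSelfAdjoint (X i s * Y i s - Y i s * X i s) := by
    intro i s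
    by_cases h : i < n
    · have hx : star (X i s) = - X i s := by
        apply Subtype.ext
        simp only [X, h, dif_pos, F]
        have h1 : star (Φ s ⟨x ⟨i, h⟩, hxS _⟩) = Φ s (star ⟨x ⟨i, h⟩, hxS _⟩) := (map_star _ _).symm
        have h2 : star (⟨x ⟨i, h⟩, hxS _⟩ : S) = - ⟨x ⟨i, h⟩, hxS _⟩ := by
          apply Subtype.ext
          simp only [x]
          have := (j ⟨i, h⟩).1.2.star_eq
          change star (Complex.I • ((j ⟨i, h⟩).1 : B)) = - (Complex.I • ((j ⟨i, h⟩).1 : B))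
          rw [star_smul, this]
          simp
        change star (Φ s ⟨x ⟨i, h⟩, hxS _⟩) = - Φ s ⟨x ⟨i, h⟩, hxS _⟩
        rw [h1, h2, map_neg]
      have hy : star (Y i s) = Y i s := by
        apply Subtype.ext
        simp only [Y, h, dif_pos, F]
        have h1 : star (Φ s ⟨y ⟨i, h⟩, hyS _⟩) = Φ s (star ⟨y ⟨i, h⟩, hyS _⟩) := (map_star _ _).symm
        have h2 : star (⟨y ⟨i, h⟩, hyS _⟩ : S) = ⟨y ⟨i, h⟩, hyS _⟩ := by
          apply Subtype.ext
          exact (j ⟨i, h⟩).2.2.star_eq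
        change star (Φ s ⟨y ⟨i, h⟩, hyS _⟩) = Φ s ⟨y ⟨i, h⟩, hyS _⟩
        rw [h1, h2]
      unfold IsSelfAdjoint
      rw [star_sub, star_mul, star_mul, hx, hy]
      noncomm_ring
    · have hx : X i s = 0 := by simp [X, h]
      have hy : Y i s = 0 := by simp [Y, h]
      rw [hx, hy]
      simp
  have hKD : ∀ i s, X i s * Y i s - Y i s * X i s ∈ inGen D s := fun i s =>
    (inGen D s).sub_mem ((inGen D s).mul_mem (hXD i s) (hYD i s))
      ((inGen D s).mul_mem (hYD i s) (hXD i s))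
  set h : genAlg D := elemSum (List.finRange N) n (fun i s => X i s * Y i s - Y i s * X i s)
    with hh
  have hhsa : IsSelfAdjoint h :=
    hgen.isSelfAdjoint_elemSum hKD hsaK _ (List.nodup_finRange N) n
  have hhM : ∀ M : TwoSidedIdeal (genAlg D), IsCoatom M → ∀ c : ℂ, h - c • (1 : genAlg D) ∉ M := by
    intro M hM c
    exact hgen.claimA hM (List.finRange N) (List.nodup_finRange N) (fun s => List.mem_finRange s) n
      (by rw [Fintype.card_fin]; exact Nat.lt_succ_self _) X Y hXD hYD (hact M hM) c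
  obtain ⟨a, c, hc0, ha, hsp, e⟩ := exists_rescale hhsa
  refine ⟨a, ha, hsp, ?_⟩
  intro M hM d hd
  apply hhM M hM (((2 * c : ℝ) : ℂ) * d - c)
  have := smul_mem_ideal M ((2 * c : ℝ) : ℂ) hd
  have e2 : h - (((2 * c : ℝ) : ℂ) * d - c) • (1 : genAlg D)
      = ((2 * c : ℝ) : ℂ) • (a - d • (1 : genAlg D)) := by
    rw [e, smul_sub, smul_smul, sub_smul]
    abel
  rwa [e2]

variable [PartialOrder B] [StarOrderedRing B]

/-- **Steps 1 to 3**: arbitrarily many orthogonal full positive contractions. -/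
theorem exists_orthogonal_full (hcc : HasCommutingCopies B) (hchar : IsEmpty (B →⋆ₐ[ℂ] ℂ))
    (L : ℕ) : ∃ e : Fin L → B, (∀ i, 0 ≤ e i ∧ ‖e i‖ ≤ 1) ∧ (∀ i j, i ≠ j → e i * e j = 0) ∧
      ∀ i, IsFull (e i) := by
  classical
  rcases subsingleton_or_nontrivial B with hB | hB
  · refine ⟨fun _ => 0, fun i => ⟨le_rfl, by simp⟩, fun i j _ => by simp, fun i => ?_⟩
    exact ⟨0, Fin.elim0, Fin.elim0, Subsingleton.elim _ _⟩
  obtain ⟨E, hE, hEsep, a, ha, hsp, hns⟩ := exists_nonscalar hcc hchar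
  obtain ⟨δ, hδ, H⟩ := exists_uniformNonScalar a hns
  obtain ⟨K, hK⟩ := exists_nat_ge ((2 * (L : ℝ) + 1) / δ)
  have hKδ : 2 * (L : ℝ) + 1 ≤ K * δ := by
    rwa [div_le_iff₀ hδ] at hK
  obtain ⟨Φ, hΦ, -⟩ := exists_commuting_copies hcc E hE hEsep K
  let D : Fin K → StarSubalgebra ℂ B := fun s => (Φ s).range
  have hDc : ∀ s s', s ≠ s' → ∀ a ∈ D s, ∀ b ∈ D s', Commute a b := by
    rintro s s' hss _ ⟨a, rfl⟩ _ ⟨b, rfl⟩
    exact hΦ s s' hss a b
  have hgen : CommGen (inGen D) := commGen_inGen hDc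
  let Ψ : ∀ s, E →⋆ₐ[ℂ] genAlg D := fun s =>
    (Φ s).codRestrict (genAlg D) (fun x => le_genAlg D s ⟨x, rfl⟩)
  have hΨ : ∀ s x, ((Ψ s x : genAlg D) : B) = Φ s x := fun s x => rfl
  have hΨn : ∀ s x, ‖Ψ s x‖ ≤ ‖x‖ := fun s x => NonUnitalStarAlgHom.norm_apply_le (Ψ s) x
  have hΨc : ∀ s, Continuous (Ψ s) := fun s =>
    AddMonoidHomClass.continuous_of_bound (Ψ s) 1 fun x => by
      rw [one_mul]
      exact hΨn s x
  have hsa : ∀ s, IsSelfAdjoint (Ψ s a) := fun s => ha.map (Ψ s)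
  have hcfc : ∀ s (f : ℝ → ℝ), Continuous f → Ψ s (cfc f a) = cfc f (Ψ s a) := fun s f hf =>
    StarAlgHomClass.map_cfc (S := ℂ) (Ψ s) f a hf.continuousOn (hΨc s) ha (hsa s)
  have hfull : ∀ i < L, IsFull (cfc (plateau L i) (∑ s, Ψ s a)) := by
    intro i hi
    refine hgen.isFull_plateau (fun s => Ψ s a) hsa (fun s => ?_) (fun s f hf => ?_) hδ
      (fun s => ?_) hKδ hi
    · exact (AlgHom.spectrum_apply_subset ((Ψ s : E →⋆ₐ[ℂ] genAlg D).restrictScalars ℝ) a).trans hsp
    · rw [← hcfc s f hf]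
      exact mem_inGen.2 ⟨cfc f a, rfl⟩
    · exact H (genAlg D) (Ψ s : E →ₐ[ℂ] genAlg D) (hΨn s)
  have hincl : Continuous (genAlg D).subtype := continuous_subtype_val
  have hsum_sa : IsSelfAdjoint (∑ s, Ψ s a) := isSelfAdjoint_finset_sum _ _ hsa
  have hsum_sa' : IsSelfAdjoint ((genAlg D).subtype (∑ s, Ψ s a)) :=
    hsum_sa.map (genAlg D).subtype
  set Xb : B := (genAlg D).subtype (∑ s, Ψ s a) with hXb
  have hcoe : ∀ i, (genAlg D).subtype (cfc (plateau L i) (∑ s, Ψ s a)) = cfc (plateau L i) Xb :=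
    fun i => StarAlgHomClass.map_cfc (S := ℂ) (genAlg D).subtype (plateau L i) _
      (continuous_plateau L i).continuousOn hincl hsum_sa hsum_sa'
  refine ⟨fun i => cfc (plateau L i) Xb, fun i => ⟨?_, ?_⟩, fun i k hik => ?_, fun i => ?_⟩
  · exact cfc_nonneg fun x _ => plateau_nonneg L i x
  · refine norm_cfc_le zero_le_one fun x _ => ?_
    rw [Real.norm_eq_abs, abs_of_nonneg (plateau_nonneg L i x)]
    exact plateau_le_one L i x
  · rw [← cfc_mul (plateau L i) (plateau L k) Xb (continuous_plateau L i).continuousOn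
      (continuous_plateau L k).continuousOn, ← cfc_const_zero ℝ Xb]
    refine cfc_congr fun x _ => ?_
    exact plateau_mul L i.2 k.2 (fun h => hik (Fin.ext h)) x
  · obtain ⟨n, u, v, huv⟩ := hfull i i.2
    refine ⟨n, fun l => (genAlg D).subtype (u l), fun l => (genAlg D).subtype (v l), ?_⟩
    have := congrArg (genAlg D).subtype huv
    simp only [map_sum, map_mul, map_one] at this
    rw [hcoe] at this
    exact this

end Vale.Agent.P101
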