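import Vale.Agent.P101.Defs
import Vale.Agent.P101.Ultra

/-!
# P101: from the approximately inner half flip to the hypothesis of the intertwining argument
-/

open Filter Topology
open scoped BoundedContinuousFunction TensorProduct

namespace Vale.Agent.P101

universe u v w

/-- An almost unitary element is close to a unitary. -/
theorem exists_unitary_near {T : Type*} [CStarAlgebra T] (x : T) {δ : ℝ} (hδ : δ ≤ 1 / 2)
    (h1 : ‖star x * x - 1‖ ≤ δ) (h2 : ‖x * star x - 1‖ ≤ δ) :
    ∃ v ∈ unitary T, ‖v - x‖ ≤ 2 * δ := by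
  have hδ0 : 0 ≤ δ := (norm_nonneg _).trans h1
  rcases subsingleton_or_nontrivial T with hT | hT
  · refine ⟨1, one_mem _, ?_⟩
    rw [Subsingleton.elim (1 - x) 0, norm_zero]
    positivity
  set a : T := star x * x with ha
  have hasa : IsSelfAdjoint a := IsSelfAdjoint.star_mul_self x
  have hspec : ∀ t ∈ spectrum ℝ a, |t - 1| ≤ δ := by
    intro t ht
    have h3 : t - 1 ∈ spectrum ℝ (a - 1) := by
      have h5 := spectrum.sub_singleton_eq a (1 : ℝ)
      rw [map_one] at h5
      rw [← h5]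
      exact Set.sub_mem_sub ht rfl
    have h4 := spectrum.norm_le_norm_of_mem h3
    rw [Real.norm_eq_abs] at h4
    exact h4.trans h1
  have hpos : ∀ t ∈ spectrum ℝ a, 1 / 2 ≤ t := by
    intro t ht
    have := abs_le.1 (hspec t ht)
    linarith
  have hcont : ContinuousOn (fun t : ℝ => (√t)⁻¹) (spectrum ℝ a) := by
    apply ContinuousOn.inv₀ (Real.continuous_sqrt.continuousOn)
    intro t ht
    have := hpos t ht
    exact (Real.sqrt_pos.2 (by linarith)).ne'
  set h : T := cfc (fun t : ℝ => (√t)⁻¹) a with hh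
  have hhsa : IsSelfAdjoint h := cfc_predicate _ _
  have hhah : h * a * h = 1 := by
    have e1 : a = cfc (fun t : ℝ => t) a := (cfc_id' ℝ a).symm
    have e2 : h * a * h = cfc (fun t : ℝ => (√t)⁻¹ * t * (√t)⁻¹) a := by
      rw [cfc_mul (fun t : ℝ => (√t)⁻¹ * t) (fun t : ℝ => (√t)⁻¹) a
        (hcont.mul continuousOn_id) hcont, cfc_mul (fun t : ℝ => (√t)⁻¹) (fun t : ℝ => t) a
        hcont continuousOn_id, ← e1]
    rw [e2]
    have e3 : cfc (fun t : ℝ => (√t)⁻¹ * t * (√t)⁻¹) a = cfc (fun _ : ℝ => (1 : ℝ)) a := by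
      apply cfc_congr
      intro t ht
      have h5 := hpos t ht
      have h6 : 0 < √t := Real.sqrt_pos.2 (by linarith)
      have h7 : √t * √t = t := Real.mul_self_sqrt (by linarith)
      show (√t)⁻¹ * t * (√t)⁻¹ = 1
      field_simp
      nlinarith
    rw [e3, cfc_const_one ℝ a]
  have hcomm : Commute h a := by
    have h8 := cfc_commute_cfc (fun t : ℝ => (√t)⁻¹) (fun t : ℝ => t) a
    rw [cfc_id' ℝ a] at h8
    exact h8
  have hhu : IsUnit h := by
    rw [isUnit_iff_exists_and_exists]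
    refine ⟨⟨a * h, by rw [← mul_assoc]; exact hhah⟩, ⟨a * h, ?_⟩⟩
    rw [← hcomm.eq]
    exact hhah
  have hxu : IsUnit x := by
    rw [isUnit_iff_exists_and_exists]
    constructor
    · have h9 : IsUnit (x * star x) := by
        have := isUnit_one_sub_of_norm_lt_one (x := 1 - x * star x) (by
          rw [← norm_neg, neg_sub]
          linarith)
        rwa [sub_sub_cancel] at this
      obtain ⟨u, hu⟩ := h9
      refine ⟨star x * ↑u⁻¹, ?_⟩
      rw [← mul_assoc, ← hu, Units.mul_inv]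
    · refine ⟨h * h * star x, ?_⟩
      have : h * h * star x * x = h * (h * a) := by rw [ha]; noncomm_ring
      rw [this, hcomm.eq, ← mul_assoc]
      exact hhah
  have hvu : IsUnit (x * h) := hxu.mul hhu
  have hv1 : star (x * h) * (x * h) = 1 := by
    rw [star_mul, hhsa.star_eq]
    have : h * star x * (x * h) = h * a * h := by rw [ha]; noncomm_ring
    rw [this, hhah]
  have hv2 : (x * h) * star (x * h) = 1 := by
    have h10 : (x * h) * star (x * h) * (x * h) = 1 * (x * h) := by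
      rw [mul_assoc, hv1, mul_one, one_mul]
    exact hvu.mul_right_cancel h10
  refine ⟨x * h, ?_, ?_⟩
  · rw [Unitary.mem_iff]
    exact ⟨hv1, hv2⟩
  · have h11 : x * h - x = x * (h - 1) := by noncomm_ring
    have h12 : ‖h - 1‖ ≤ δ := by
      have e4 : h - 1 = cfc (fun t : ℝ => (√t)⁻¹ - 1) a := by
        rw [cfc_sub (fun t : ℝ => (√t)⁻¹) (fun _ : ℝ => (1 : ℝ)) a hcont continuousOn_const,
          cfc_const_one ℝ a]
      rw [e4]
      apply norm_cfc_le hδ0
      intro t ht
      have h5 := hpos t ht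
      have h13 := hspec t ht
      have h6 : 0 < √t := Real.sqrt_pos.2 (by linarith)
      have h7 : √t * √t = t := Real.mul_self_sqrt (by linarith)
      have h14 : 7 / 10 ≤ √t := Real.le_sqrt_of_sq_le (by norm_num; linarith)
      rw [Real.norm_eq_abs]
      have h15 : (√t)⁻¹ - 1 = (1 - t) / (√t * (1 + √t)) := by
        field_simp
        nlinarith
      rw [h15, abs_div, abs_of_pos (by positivity : 0 < √t * (1 + √t)), div_le_iff₀ (by positivity)]
      rw [abs_sub_comm] at h13
      have h16 : 1 ≤ √t * (1 + √t) := by nlinarith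
      nlinarith
    have h17 : ‖x‖ ≤ 2 := by
      have h18 : ‖x‖ * ‖x‖ = ‖a‖ := (CStarRing.norm_star_mul_self).symm
      have h19 : ‖a‖ ≤ 2 := by
        have : a = (a - 1) + 1 := by abel
        rw [this]
        refine (norm_add_le _ _).trans ?_
        rw [norm_one]
        linarith
      nlinarith [norm_nonneg x]
    rw [h11]
    refine (norm_mul_le _ _).trans ?_
    have := norm_nonneg (h - 1)
    nlinarith [norm_nonneg x]


section map

variable {A : Type u} {T : Type w} [CStarAlgebra A] [CStarAlgebra T] {ω : Ultrafilter ℕ}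

/-- The entrywise application of a star homomorphism to a bounded sequence. -/
noncomputable def seqMap (φ : A →⋆ₐ[ℂ] T) (y : ℕ →ᵇ A) : ℕ →ᵇ T :=
  BoundedContinuousFunction.ofNormedAddCommGroupDiscrete (fun n => φ (y n)) ‖y‖
    (fun n => (NonUnitalStarAlgHom.norm_apply_le φ (y n)).trans (y.norm_coe_le_norm n))

@[simp] theorem seqMap_apply (φ : A →⋆ₐ[ℂ] T) (y : ℕ →ᵇ A) (n : ℕ) : seqMap φ y n = φ (y n) := rfl

variable (ω) in
/-- The map induced on ultrapowers. -/
noncomputable def ultraMapFun (φ : A →⋆ₐ[ℂ] T) (x : Ultra ω A) : Ultra ω T :=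
  Ultra.mk ω (seqMap φ (Function.surjInv Ultra.mk_surjective x))

theorem ultraMapFun_mk (φ : A →⋆ₐ[ℂ] T) (y : ℕ →ᵇ A) :
    ultraMapFun ω φ (Ultra.mk ω y) = Ultra.mk ω (seqMap φ y) := by
  unfold ultraMapFun
  rw [Ultra.mk_eq_mk_iff]
  have h1 : Ultra.mk ω (Function.surjInv Ultra.mk_surjective (Ultra.mk ω y)) = Ultra.mk ω y :=
    Function.surjInv_eq Ultra.mk_surjective _
  rw [Ultra.mk_eq_mk_iff] at h1
  refine squeeze_zero (fun _ => norm_nonneg _) (fun n => ?_) h1
  rw [seqMap_apply, seqMap_apply, ← map_sub]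
  exact NonUnitalStarAlgHom.norm_apply_le φ _

variable (ω) in
/-- The star homomorphism induced on ultrapowers. -/
noncomputable def ultraMap (φ : A →⋆ₐ[ℂ] T) : Ultra ω A →⋆ₐ[ℂ] Ultra ω T where
  toFun := ultraMapFun ω φ
  map_one' := by
    rw [← map_one (Ultra.mk ω), ultraMapFun_mk, ← map_one (Ultra.mk ω)]
    congr 1
    ext n
    exact map_one φ
  map_zero' := by
    rw [← map_zero (Ultra.mk ω), ultraMapFun_mk, ← map_zero (Ultra.mk ω)]
    congr 1
    ext n
    exact map_zero φ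
  map_mul' := by
    intro x y
    obtain ⟨x, rfl⟩ := Ultra.mk_surjective x
    obtain ⟨y, rfl⟩ := Ultra.mk_surjective y
    rw [← map_mul, ultraMapFun_mk, ultraMapFun_mk, ultraMapFun_mk, ← map_mul]
    congr 1
    ext n
    exact map_mul φ _ _
  map_add' := by
    intro x y
    obtain ⟨x, rfl⟩ := Ultra.mk_surjective x
    obtain ⟨y, rfl⟩ := Ultra.mk_surjective y
    rw [← map_add, ultraMapFun_mk, ultraMapFun_mk, ultraMapFun_mk, ← map_add]
    congr 1
    ext n
    exact map_add φ _ _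
  commutes' := by
    intro c
    rw [Algebra.algebraMap_eq_smul_one, Algebra.algebraMap_eq_smul_one, ← map_one (Ultra.mk ω),
      ← map_smul, ultraMapFun_mk, ← map_one (Ultra.mk ω), ← map_smul]
    congr 1
    ext n
    show φ (c • (1 : A)) = c • (1 : T)
    rw [map_smul, map_one]
  map_star' := by
    intro x
    obtain ⟨x, rfl⟩ := Ultra.mk_surjective x
    rw [← map_star, ultraMapFun_mk, ultraMapFun_mk, ← map_star]
    congr 1
    ext n
    exact map_star φ _

theorem ultraMap_mk (φ : A →⋆ₐ[ℂ] T) (y : ℕ →ᵇ A) :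
    ultraMap ω φ (Ultra.mk ω y) = Ultra.mk ω (seqMap φ y) := ultraMapFun_mk φ y

/-- Unitaries in the ultrapower lift to sequences of unitaries. -/
theorem exists_unitary_lift (U : Ultra ω T) (hU : U ∈ unitary (Ultra ω T)) :
    ∃ y : ℕ →ᵇ T, Ultra.mk ω y = U ∧ ∀ n, y n ∈ unitary T := by
  classical
  obtain ⟨x, hx, -⟩ := Ultra.exists_rep U
  rw [Unitary.mem_iff] at hU
  have h1 : Tendsto (fun n => ‖star (x n) * x n - 1‖) ω (𝓝 0) := by
    have : Ultra.mk ω (star x * x) = Ultra.mk ω 1 := by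
      rw [map_mul, map_star, hx, map_one]
      exact hU.1
    rw [Ultra.mk_eq_mk_iff] at this
    exact this
  have h2 : Tendsto (fun n => ‖x n * star (x n) - 1‖) ω (𝓝 0) := by
    have : Ultra.mk ω (x * star x) = Ultra.mk ω 1 := by
      rw [map_mul, map_star, hx, map_one]
      exact hU.2
    rw [Ultra.mk_eq_mk_iff] at this
    exact this
  have h3 : ∀ n, ∃ v ∈ unitary T, ‖star (x n) * x n - 1‖ ≤ 1 / 2 → ‖x n * star (x n) - 1‖ ≤ 1 / 2 →
      ‖v - x n‖ ≤ 2 * max ‖star (x n) * x n - 1‖ ‖x n * star (x n) - 1‖ := by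
    intro n
    by_cases h4 : max ‖star (x n) * x n - 1‖ ‖x n * star (x n) - 1‖ ≤ 1 / 2
    · obtain ⟨v, hv, hv2⟩ := exists_unitary_near (x n) h4 (le_max_left _ _) (le_max_right _ _)
      exact ⟨v, hv, fun _ _ => hv2⟩
    · exact ⟨1, one_mem _, fun h5 h6 => (h4 (max_le h5 h6)).elim⟩
  choose v hv hvx using h3
  have hvn : ∀ n, ‖v n‖ ≤ 1 + ‖(1 : T)‖ := by
    intro n
    have h5 : ‖v n‖ * ‖v n‖ = ‖(1 : T)‖ := by
      rw [← CStarRing.norm_star_mul_self, (Unitary.mem_iff.1 (hv n)).1]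
    nlinarith [norm_nonneg (v n), norm_nonneg (1 : T)]
  let y : ℕ →ᵇ T :=
    BoundedContinuousFunction.ofNormedAddCommGroupDiscrete v (1 + ‖(1 : T)‖) hvn
  refine ⟨y, ?_, hv⟩
  rw [← hx, Ultra.mk_eq_mk_iff]
  have h6 : Tendsto (fun n => 2 * max ‖star (x n) * x n - 1‖ ‖x n * star (x n) - 1‖) ω
      (𝓝 (2 * max 0 0)) := (h1.max h2).const_mul 2
  rw [max_self, mul_zero] at h6
  refine squeeze_zero' (Eventually.of_forall fun _ => norm_nonneg _) ?_ h6
  filter_upwards [h1.eventually (ge_mem_nhds (by norm_num : (0 : ℝ) < 1 / 2)),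
    h2.eventually (ge_mem_nhds (by norm_num : (0 : ℝ) < 1 / 2))] with n hn1 hn2
  exact hvx n hn1 hn2

end map

/-- The half flip gives the hypothesis of the intertwining argument. -/
theorem approx_of_halfFlip {A : Type u} {Z : Type v} {T : Type w} [CStarAlgebra A]
    [CStarAlgebra Z] [CStarAlgebra T] {ιA : A →⋆ₐ[ℂ] T} {ιZ : Z →⋆ₐ[ℂ] T}
    (hT : IsCStarTensor A Z T ιA ιZ) (hflip : HasInnerHalfFlip.{v, w} Z) {ω : Ultrafilter ℕ}
    (ρ : Z →⋆ₐ[ℂ] centralSeq ω A) (F : Finset A) (G : Finset T) (ε : ℝ) (hε : 0 < ε) :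
    ∃ U ∈ unitary T, (∀ a ∈ F, ‖U * ιA a - ιA a * U‖ < ε) ∧
      ∀ b ∈ G, ∃ a : A, ‖star U * b * U - ιA a‖ < ε := by
  classical
  let π₁ : Z →⋆ₐ[ℂ] Ultra ω T := (Ultra.diag ω).comp ιZ
  let π₂ : Z →⋆ₐ[ℂ] Ultra ω T := (ultraMap ω ιA).comp ((centralSeq ω A).subtype.comp ρ)
  -- representatives
  have hrep : ∀ z : Z, ∃ r : ℕ →ᵇ A, Ultra.mk ω r = (ρ z : Ultra ω A) := fun z =>
    Ultra.mk_surjective _
  choose r hr using hrep
  have hπ₂ : ∀ z, π₂ z = Ultra.mk ω (seqMap ιA (r z)) := by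
    intro z
    show ultraMap ω ιA (ρ z : Ultra ω A) = _
    rw [← hr, ultraMap_mk]
  have hcomm : ∀ x y, Commute (π₁ x) (π₂ y) := by
    intro x y
    rw [hπ₂]
    show Commute (Ultra.mk ω (Ultra.const (ιZ x))) _
    rw [commute_iff_eq, ← map_mul, ← map_mul]
    congr 1
    ext n
    exact (hT.commute _ _).symm.eq
  -- approximate the elements of `G`
  have happ : ∀ b : T, ∃ S : Finset (A × Z), ‖∑ i ∈ S, ιA i.1 * ιZ i.2 - b‖ < ε / 4 := by
    intro b
    obtain ⟨t, ht⟩ := hT.dense.exists_dist_lt b (by positivity : 0 < ε / 4)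
    obtain ⟨S, rfl⟩ := TensorProduct.exists_finset t
    refine ⟨S, ?_⟩
    rw [dist_comm, dist_eq_norm, map_sum] at ht
    simpa using ht
  choose S hS using happ
  let K : ℝ := 1 + ∑ b ∈ G, ∑ i ∈ S b, ‖ιA i.1‖
  have hK : 0 < K := by
    have : 0 ≤ ∑ b ∈ G, ∑ i ∈ S b, ‖ιA i.1‖ :=
      Finset.sum_nonneg (fun _ _ => Finset.sum_nonneg (fun _ _ => norm_nonneg _))
    linarith
  obtain ⟨U, hUadj, hU, hUz⟩ := hflip (Ultra ω T) π₁ π₂ hcomm
    (G.biUnion (fun b => (S b).image Prod.snd)) (ε / (4 * K)) (by positivity)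
  -- `U` commutes with `A`
  have hUA : ∀ a, Commute U (Ultra.diag ω (ιA a)) := by
    intro a
    have h1 : (Algebra.adjoin ℂ (Set.range π₁ ∪ Set.range π₂)).topologicalClosure ≤
        Subalgebra.centralizer ℂ {Ultra.diag ω (ιA a)} := by
      apply Subalgebra.topologicalClosure_minimal
      · apply Algebra.adjoin_le
        rintro _ (⟨z, rfl⟩ | ⟨z, rfl⟩)
        · rw [SetLike.mem_coe, Subalgebra.mem_centralizer_iff]
          rintro _ rfl
          show Ultra.mk ω (Ultra.const (ιA a)) * Ultra.mk ω (Ultra.const (ιZ z)) =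
            Ultra.mk ω (Ultra.const (ιZ z)) * Ultra.mk ω (Ultra.const (ιA a))
          rw [← map_mul, ← map_mul, ← map_mul, ← map_mul, (hT.commute a z).eq]
        · rw [SetLike.mem_coe, Subalgebra.mem_centralizer_iff]
          rintro _ rfl
          have h2 : Ultra.diag ω (ιA a) = ultraMap ω ιA (Ultra.diag ω a) := by
            rw [Ultra.diag_apply, Ultra.diag_apply, ultraMap_mk]
            rfl
          rw [h2]
          show _ * ultraMap ω ιA (ρ z : Ultra ω A) = ultraMap ω ιA (ρ z : Ultra ω A) * _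
          rw [← map_mul, ← map_mul, (mem_centralSeq_iff.1 (ρ z).2 a).eq]
      · exact Set.isClosed_centralizer _
    have h3 := h1 hUadj
    rw [Subalgebra.mem_centralizer_iff] at h3
    exact (h3 _ rfl).symm
  -- lift `U`
  obtain ⟨y, hy, hyu⟩ := exists_unitary_lift U hU
  have hn1 : ∀ a ∈ F, ∀ᶠ n in (ω : Filter ℕ), ‖star (y n) * ιA a - ιA a * star (y n)‖ < ε := by
    intro a _
    have h4 : Ultra.mk ω (star y * Ultra.const (ιA a)) = Ultra.mk ω (Ultra.const (ιA a) * star y) := by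
      rw [map_mul, map_mul, map_star, hy, ← Ultra.diag_apply]
      have h5 := (hUA (star a)).star_star
      rw [← map_star, ← map_star, star_star] at h5
      exact h5.eq
    rw [Ultra.mk_eq_mk_iff] at h4
    exact h4.eventually (gt_mem_nhds hε)
  have hn2 : ∀ b ∈ G, ∀ᶠ n in (ω : Filter ℕ),
      ‖y n * b * star (y n) - ιA (∑ i ∈ S b, i.1 * r i.2 n)‖ < ε := by
    intro b hb
    let c : ℕ →ᵇ A := ∑ i ∈ S b, Ultra.const i.1 * r i.2
    have h4 : ‖Ultra.mk ω (y * Ultra.const b * star y - seqMap ιA c)‖ < ε := by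
      have h5 : Ultra.mk ω (seqMap ιA c) = ∑ i ∈ S b, Ultra.diag ω (ιA i.1) * π₂ i.2 := by
        rw [← ultraMap_mk, map_sum, map_sum]
        refine Finset.sum_congr rfl (fun i _ => ?_)
        rw [map_mul, map_mul, hπ₂, ultraMap_mk, ultraMap_mk]
        rfl
      have h6 : Ultra.mk ω (y * Ultra.const b * star y) = U * Ultra.diag ω b * star U := by
        rw [map_mul, map_mul, map_star, hy]
        rfl
      rw [map_sub, h5, h6]
      have h7 : U * Ultra.diag ω b * star U - ∑ i ∈ S b, Ultra.diag ω (ιA i.1) * π₂ i.2 =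
          - (U * Ultra.diag ω (∑ i ∈ S b, ιA i.1 * ιZ i.2 - b) * star U) +
          ∑ i ∈ S b, Ultra.diag ω (ιA i.1) * (U * π₁ i.2 * star U - π₂ i.2) := by
        have h8 : ∀ i ∈ S b, Ultra.diag ω (ιA i.1) * (U * π₁ i.2 * star U - π₂ i.2) =
            U * (Ultra.diag ω (ιA i.1 * ιZ i.2)) * star U - Ultra.diag ω (ιA i.1) * π₂ i.2 := by
          intro i _
          rw [mul_sub, map_mul]
          congr 1
          have := (hUA i.1).eq
          rw [← mul_assoc, ← mul_assoc, ← this]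
          simp only [mul_assoc]
          rfl
        rw [Finset.sum_congr rfl h8, Finset.sum_sub_distrib, map_sub, map_sum, ← Finset.sum_mul,
          ← Finset.mul_sum]
        noncomm_ring
      rw [h7]
      have hU1 : ‖U‖ ≤ 1 ∧ ‖star U‖ ≤ 1 := by
        rcases subsingleton_or_nontrivial (Ultra ω T) with hTs | hTs
        · rw [Subsingleton.elim U 0, star_zero, norm_zero]
          norm_num
        · rw [norm_star, CStarRing.norm_of_mem_unitary hU]
          norm_num
      have h9 : ‖- (U * Ultra.diag ω (∑ i ∈ S b, ιA i.1 * ιZ i.2 - b) * star U)‖ ≤ ε / 4 := by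
        rw [norm_neg]
        calc _ ≤ ‖U‖ * ‖Ultra.diag ω (∑ i ∈ S b, ιA i.1 * ιZ i.2 - b)‖ * ‖star U‖ :=
              norm_mul₃_le
          _ ≤ 1 * ‖Ultra.diag ω (∑ i ∈ S b, ιA i.1 * ιZ i.2 - b)‖ * 1 := by
              gcongr
              · exact hU1.1
              · exact hU1.2
          _ ≤ ε / 4 := by
              rw [one_mul, mul_one, Ultra.norm_diag]
              exact (hS b).le
      have h10 : ‖∑ i ∈ S b, Ultra.diag ω (ιA i.1) * (U * π₁ i.2 * star U - π₂ i.2)‖ ≤ ε / 4 := by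
        calc _ ≤ ∑ i ∈ S b, ‖ιA i.1‖ * (ε / (4 * K)) := by
              refine (norm_sum_le _ _).trans (Finset.sum_le_sum (fun i hi => ?_))
              refine (norm_mul_le _ _).trans ?_
              rw [Ultra.norm_diag]
              gcongr
              refine (hUz _ ?_).le
              rw [Finset.mem_biUnion]
              exact ⟨b, hb, Finset.mem_image_of_mem _ hi⟩
          _ = (∑ i ∈ S b, ‖ιA i.1‖) * (ε / (4 * K)) := by rw [Finset.sum_mul]
          _ ≤ K * (ε / (4 * K)) := by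
              gcongr
              have : ∑ i ∈ S b, ‖ιA i.1‖ ≤ ∑ b ∈ G, ∑ i ∈ S b, ‖ιA i.1‖ :=
                Finset.single_le_sum (f := fun b => ∑ i ∈ S b, ‖ιA i.1‖)
                  (fun _ _ => Finset.sum_nonneg (fun _ _ => norm_nonneg _)) hb
              linarith
          _ = ε / 4 := by field_simp
      refine (norm_add_le _ _).trans_lt ?_
      linarith
    have h11 := (Ultra.tendsto_norm_mk (ω := ω) (y * Ultra.const b * star y - seqMap ιA c)).eventually
      (gt_mem_nhds h4)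
    filter_upwards [h11] with n hn
    have h12 : (y * Ultra.const b * star y - seqMap ιA c) n =
        y n * b * star (y n) - ιA (∑ i ∈ S b, i.1 * r i.2 n) := by
      show y n * b * star (y n) - ιA (c n) = _
      congr 2
      simp only [c]
      rw [BoundedContinuousFunction.coe_sum, Finset.sum_apply]
      rfl
    rw [h12] at hn
    exact hn
  have hall1 := (Filter.eventually_all_finset F).2 hn1
  have hall2 := (Filter.eventually_all_finset G).2 hn2
  obtain ⟨n, hn, hn'⟩ := (hall1.and hall2).exists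
  refine ⟨star (y n), Unitary.star_mem (hyu n), hn,
    fun b hb => ⟨∑ i ∈ S b, i.1 * r i.2 n, ?_⟩⟩
  rw [star_star]
  exact hn' b hb

end Vale.Agent.P101
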