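import Mathlib
import Vale.Agent.P101.FinalOrth
import Vale.Agent.P101.Cover
import Vale.Agent.P101.DimHom
import Vale.Agent.P101.CC
import Vale.Agent.P101.LimitHom
import Vale.Agent.P101.ApproxEquiv
import Vale.Agent.P101.Flip

/-!
# P101: assembly
-/

open TopologicalSpace

namespace Vale.Agent.P101

universe u v w


theorem exists_crt {p q : ℕ} (hp : 0 < p) (hq : 0 < q) (h : Nat.Coprime p q) :
    ∃ n : ℕ, p ∣ n + 1 ∧ q ∣ n + 2 := by
  obtain ⟨k, hk1, hk2⟩ := Nat.chineseRemainder h 0 (q - 1)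
  have hpq : 0 < p * q := Nat.mul_pos hp hq
  refine ⟨k + p * q - 1, ?_, ?_⟩
  · have e : k + p * q - 1 + 1 = k + p * q := by omega
    rw [e]
    exact (Nat.dvd_add_right ((Nat.modEq_zero_iff_dvd).1 hk1)).2 (dvd_mul_right _ _)
  · have e : k + p * q - 1 + 2 = (k + 1) + p * q := by omega
    rw [e]
    refine (Nat.dvd_add_right ?_).2 (dvd_mul_left _ _)
    have h2 : k + 1 ≡ (q - 1) + 1 [MOD q] := hk2.add_right 1
    rw [Nat.sub_add_cancel hq] at h2
    exact (Nat.modEq_zero_iff_dvd).1 (h2.trans (Nat.modEq_zero_iff_dvd.2 dvd_rfl))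

/-- Abstract form: no characters and commuting copies give all prime dimension drop algebras. -/
theorem exists_dimDrop_hom_of_isEmpty {B : Type*} [CStarAlgebra B] (hcc : HasCommutingCopies B)
    (hchar : IsEmpty (B →⋆ₐ[ℂ] ℂ)) {p q : ℕ} (hp : 0 < p) (hq : 0 < q) (h : Nat.Coprime p q) :
    Nonempty (DimDrop p q →⋆ₐ[ℂ] B) := by
  let _ := CStarAlgebra.spectralOrder B
  have _ := CStarAlgebra.spectralOrderedRing B
  obtain ⟨n, hn1, hn2⟩ := exists_crt hp hq h
  obtain ⟨ψ, s, hψ, hs, hs'⟩ := exists_small_defect hcc (exists_orthogonal_full hcc hchar) n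
  exact exists_dimDrop_hom hψ hs hs' hn1 hn2

theorem separableSpace_of_isDimDropLimit {Z : Type v} [CStarAlgebra Z] (hZ : IsDimDropLimit Z) :
    SeparableSpace Z := by
  obtain ⟨S, -, hiso, hdense⟩ := hZ
  have h1 : IsSeparable (⋃ k, (S k : Set Z)) := by
    refine IsSeparable.iUnion fun k => ?_
    obtain ⟨p, q, -, -, -, ⟨e⟩⟩ := hiso k
    exact isSeparable_of_dimDrop (S k) e
  rw [← isSeparable_univ_iff, ← hdense.closure_eq]
  exact h1.closure

theorem continuous_starAlgHom {A : Type u} {T : Type w} [CStarAlgebra A] [CStarAlgebra T]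
    (φ : A →⋆ₐ[ℂ] T) : Continuous φ :=
  AddMonoidHomClass.continuous_of_bound φ 1 fun x => by
    rw [one_mul]
    exact NonUnitalStarAlgHom.norm_apply_le φ x

theorem separableSpace_of_isCStarTensor {A : Type u} {Z : Type v} {T : Type w} [CStarAlgebra A]
    [CStarAlgebra Z] [CStarAlgebra T] [SeparableSpace A] [SeparableSpace Z] {ιA : A →⋆ₐ[ℂ] T}
    {ιZ : Z →⋆ₐ[ℂ] T} (hT : IsCStarTensor A Z T ιA ιZ) : SeparableSpace T := by
  have hA : IsSeparable (Set.range ιA) := by
    rw [← Set.image_univ]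
    exact (IsSeparable.of_separableSpace Set.univ).image (continuous_starAlgHom ιA)
  have hZ : IsSeparable (Set.range ιZ) := by
    rw [← Set.image_univ]
    exact (IsSeparable.of_separableSpace Set.univ).image (continuous_starAlgHom ιZ)
  have h := isSeparable_topologicalClosure_adjoin (hA.union hZ)
  have h1 : Set.range (Algebra.TensorProduct.lift (ιA : A →ₐ[ℂ] T) (ιZ : Z →ₐ[ℂ] T)
      hT.commute : TensorProduct ℂ A Z →ₐ[ℂ] T)
      ⊆ (StarAlgebra.adjoin ℂ (Set.range ιA ∪ Set.range ιZ) : Set T) := by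
    rintro _ ⟨t, rfl⟩
    induction t using TensorProduct.induction_on with
    | zero => simp
    | tmul a z =>
      rw [Algebra.TensorProduct.lift_tmul]
      exact mul_mem (StarAlgebra.subset_adjoin ℂ _ (Or.inl ⟨a, rfl⟩))
        (StarAlgebra.subset_adjoin ℂ _ (Or.inr ⟨z, rfl⟩))
    | add x y hx hy =>
      rw [map_add]
      exact add_mem hx hy
  rw [← isSeparable_univ_iff]
  refine h.mono ?_
  rw [StarSubalgebra.topologicalClosure_coe]
  intro x _
  exact closure_mono h1 (hT.dense x)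

/-- The main theorem. -/
theorem character_question {A : Type u} [CStarAlgebra A] [SeparableSpace A]
    (ω : Ultrafilter ℕ) (hω : (ω : Filter ℕ) ≤ Filter.cofinite)
    (hchar : IsEmpty (centralSeq ω A →⋆ₐ[ℂ] ℂ)) :
    (∀ p q : ℕ, 0 < p → 0 < q → Nat.Coprime p q →
      Nonempty (DimDrop p q →⋆ₐ[ℂ] centralSeq ω A)) ∧
    (∀ (Z : Type v) [CStarAlgebra Z], IsDimDropLimit Z → Nonempty (Z →⋆ₐ[ℂ] centralSeq ω A)) ∧
    (∀ (Z : Type v) [CStarAlgebra Z], IsJiangSu.{v, w} Z →
      ∀ (T : Type w) [CStarAlgebra T] (ιA : A →⋆ₐ[ℂ] T) (ιZ : Z →⋆ₐ[ℂ] T),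
        IsCStarTensor A Z T ιA ιZ → Nonempty (A ≃⋆ₐ[ℂ] T)) := by
  have h1 : ∀ p q : ℕ, 0 < p → 0 < q → Nat.Coprime p q →
      Nonempty (DimDrop p q →⋆ₐ[ℂ] centralSeq ω A) := fun p q hp hq hpq =>
    exists_dimDrop_hom_of_isEmpty (hasCommutingCopies_centralSeq hω) hchar hp hq hpq
  have h2 : ∀ (Z : Type v) [CStarAlgebra Z], IsDimDropLimit Z →
      Nonempty (Z →⋆ₐ[ℂ] centralSeq ω A) := fun Z _ hZ =>
    exists_hom_of_isDimDropLimit hZ hω h1
  refine ⟨h1, h2, ?_⟩
  intro Z _ hZ T _ ιA ιZ hT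
  obtain ⟨ρ⟩ := h2 Z hZ.limit
  have := separableSpace_of_isDimDropLimit hZ.limit
  have := separableSpace_of_isCStarTensor hT
  have hinj : Function.Injective ιA := by
    have hnt : Nontrivial Z := by
      by_contra hcon
      rw [not_nontrivial_iff_subsingleton] at hcon
      exact hZ.infinite inferInstance
    have h3 : Function.Injective (algebraMap ℂ Z) := FaithfulSMul.algebraMap_injective ℂ Z
    have h4 := Algebra.TensorProduct.includeLeft_injective (R := ℂ) (S := ℂ) (A := A) h3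
    intro a b hab
    apply h4
    apply hT.injective
    simpa using hab
  exact exists_starAlgEquiv_of_approx ιA hinj fun F G ε hε =>
    approx_of_halfFlip hT hZ.halfFlip ρ F G ε hε

end Vale.Agent.P101
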