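import Mathlib
import Vale.Agent.P101.Statement
import Vale.Agent.P101.Assembly

/-!
# P101: transfer to the definitions used in the statement
-/

open Filter Topology TopologicalSpace
open scoped Kronecker TensorProduct BoundedContinuousFunction ComplexOrder

namespace Vale.Agent.P101

universe u v w

section Ultrapower

variable {ω : Ultrafilter ℕ} {A : Type u} [CStarAlgebra A]

theorem isUltrapower_mk : IsUltrapower ω (Ultra.mk ω : (ℕ →ᵇ A) →⋆ₐ[ℂ] Ultra ω A) :=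
  ⟨Ultra.mk_surjective, fun x => Ultra.mk_eq_zero_iff x⟩

variable {U : Type v} [CStarAlgebra U] {q : (ℕ →ᵇ A) →⋆ₐ[ℂ] U}

/-- auxiliary function from one ultrapower to another -/
noncomputable def ultraFun {U' : Type w} [CStarAlgebra U'] (q' : (ℕ →ᵇ A) →⋆ₐ[ℂ] U')
    (h' : IsUltrapower ω q') (q : (ℕ →ᵇ A) →⋆ₐ[ℂ] U) (x : U') : U :=
  q (Function.surjInv h'.surjective x)

theorem ultraFun_apply {U' : Type w} [CStarAlgebra U'] {q' : (ℕ →ᵇ A) →⋆ₐ[ℂ] U'}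
    (h' : IsUltrapower ω q') {q : (ℕ →ᵇ A) →⋆ₐ[ℂ] U} (h : IsUltrapower ω q) (y : ℕ →ᵇ A) :
    ultraFun q' h' q (q' y) = q y := by
  unfold ultraFun
  rw [← sub_eq_zero, ← map_sub, h.ker, ← h'.ker, map_sub, Function.surjInv_eq h'.surjective,
    sub_self]

/-- The canonical homomorphism between two models of the ultrapower. -/
noncomputable def ultraHom {U' : Type w} [CStarAlgebra U'] {q' : (ℕ →ᵇ A) →⋆ₐ[ℂ] U'}
    (h' : IsUltrapower ω q') {q : (ℕ →ᵇ A) →⋆ₐ[ℂ] U} (h : IsUltrapower ω q) : U' →⋆ₐ[ℂ] U where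
  toFun := ultraFun q' h' q
  map_one' := by
    rw [← map_one q', ultraFun_apply h' h, map_one]
  map_zero' := by
    rw [← map_zero q', ultraFun_apply h' h, map_zero]
  map_mul' x y := by
    obtain ⟨x, rfl⟩ := h'.surjective x
    obtain ⟨y, rfl⟩ := h'.surjective y
    rw [← map_mul, ultraFun_apply h' h, ultraFun_apply h' h, ultraFun_apply h' h, map_mul]
  map_add' x y := by
    obtain ⟨x, rfl⟩ := h'.surjective x
    obtain ⟨y, rfl⟩ := h'.surjective y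
    rw [← map_add, ultraFun_apply h' h, ultraFun_apply h' h, ultraFun_apply h' h, map_add]
  commutes' c := by
    rw [← AlgHomClass.commutes q', ultraFun_apply h' h, AlgHomClass.commutes]
  map_star' x := by
    obtain ⟨x, rfl⟩ := h'.surjective x
    rw [← map_star, ultraFun_apply h' h, ultraFun_apply h' h, map_star]

theorem ultraHom_apply {U' : Type w} [CStarAlgebra U'] {q' : (ℕ →ᵇ A) →⋆ₐ[ℂ] U'}
    (h' : IsUltrapower ω q') {q : (ℕ →ᵇ A) →⋆ₐ[ℂ] U} (h : IsUltrapower ω q) (y : ℕ →ᵇ A) :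
    ultraHom h' h (q' y) = q y := ultraFun_apply h' h y

theorem mem_centralAlg_iff (x : U) :
    x ∈ centralAlg q ↔ ∀ a : A, Commute (q (BoundedContinuousFunction.const ℕ a)) x := by
  rw [centralAlg, StarSubalgebra.mem_centralizer_iff]
  constructor
  · intro h a
    exact (h _ ⟨a, rfl⟩).1
  · rintro h _ ⟨a, rfl⟩
    refine ⟨h a, ?_⟩
    rw [← map_star]
    exact h (star a)

theorem ultraHom_mem {U' : Type w} [CStarAlgebra U'] {q' : (ℕ →ᵇ A) →⋆ₐ[ℂ] U'}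
    (h' : IsUltrapower ω q') {q : (ℕ →ᵇ A) →⋆ₐ[ℂ] U} (h : IsUltrapower ω q) {x : U'}
    (hx : x ∈ centralAlg q') : ultraHom h' h x ∈ centralAlg q := by
  rw [mem_centralAlg_iff] at hx ⊢
  intro a
  have := (hx a).map (ultraHom h' h)
  rwa [ultraHom_apply] at this

/-- The induced homomorphism between models of the central sequence algebra. -/
noncomputable def centralHom {U' : Type w} [CStarAlgebra U'] {q' : (ℕ →ᵇ A) →⋆ₐ[ℂ] U'}
    (h' : IsUltrapower ω q') {q : (ℕ →ᵇ A) →⋆ₐ[ℂ] U} (h : IsUltrapower ω q) :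
    centralAlg q' →⋆ₐ[ℂ] centralAlg q where
  toFun x := ⟨ultraHom h' h x, ultraHom_mem h' h x.2⟩
  map_one' := Subtype.ext (map_one _)
  map_zero' := Subtype.ext (map_zero _)
  map_mul' _ _ := Subtype.ext (map_mul _ _ _)
  map_add' _ _ := Subtype.ext (map_add _ _ _)
  commutes' c := Subtype.ext (AlgHomClass.commutes (ultraHom h' h) c)
  map_star' _ := Subtype.ext (map_star _ _)

theorem centralSeq_eq : centralSeq ω A = centralAlg (Ultra.mk ω : (ℕ →ᵇ A) →⋆ₐ[ℂ] Ultra ω A) :=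
  rfl

end Ultrapower

section DimDropTransfer

theorem IsDimDrop.exists_hom {p q : ℕ} {D : Type v} [CStarAlgebra D] (h : IsDimDrop p q D) :
    Nonempty (D ≃⋆ₐ[ℂ] DimDrop p q) := by
  obtain ⟨e, he, hr⟩ := h
  have hmem : ∀ x, e x ∈ DimDrop p q := fun x => by
    have : e x ∈ dimDropSet p q := hr ▸ ⟨x, rfl⟩
    exact this
  let f : D →⋆ₐ[ℂ] DimDrop p q :=
    { toFun := fun x => ⟨e x, hmem x⟩
      map_one' := Subtype.ext (map_one _)
      map_zero' := Subtype.ext (map_zero _)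
      map_mul' := fun x y => Subtype.ext (map_mul _ _ _)
      map_add' := fun x y => Subtype.ext (map_add _ _ _)
      commutes' := fun c => Subtype.ext (AlgHomClass.commutes e c)
      map_star' := fun x => Subtype.ext (map_star _ _) }
  refine ⟨StarAlgEquiv.ofBijective f ⟨fun x y hxy => he (congrArg Subtype.val hxy), ?_⟩⟩
  rintro ⟨g, hg⟩
  have : g ∈ Set.range e := by
    rw [hr]
    exact hg
  obtain ⟨x, rfl⟩ := this
  exact ⟨x, rfl⟩

theorem IsPrimeDimDropLimit.isDimDropLimit {Z : Type u} [CStarAlgebra Z]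
    (h : IsPrimeDimDropLimit Z) : IsDimDropLimit Z := by
  obtain ⟨D, hD, i, hpd, hinj, hmono, hdense⟩ := h
  refine ⟨fun k => (i k).range, ?_, ?_, ?_⟩
  · exact monotone_nat_of_le_succ fun k => hmono k
  · intro k
    obtain ⟨p, q, hp, hq, hpq, hdd⟩ := hpd k
    obtain ⟨e⟩ := hdd.exists_hom
    exact ⟨p, q, hp, hq, hpq, ⟨(StarAlgEquiv.ofInjective (i k) (hinj k)).symm.trans e⟩⟩
  · exact hdense

theorem HasHalfFlip.hasInnerHalfFlip {Z : Type u} [CStarAlgebra Z] (h : HasHalfFlip.{u, v} Z) :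
    HasInnerHalfFlip.{u, v} Z := by
  intro C _ π₁ π₂ hc F ε hε
  obtain ⟨W, hW, hWc, hF⟩ := h C π₁ π₂ hc F ε hε
  exact ⟨W, hWc, hW, hF⟩

theorem IsJiangSuAlgebra.isJiangSu {Z : Type u} [CStarAlgebra Z] (h : IsJiangSuAlgebra.{u, v} Z) :
    IsJiangSu.{u, v} Z := by
  refine ⟨h.infinite, h.simple, ?_, h.limit.isDimDropLimit, h.halfFlip.hasInnerHalfFlip⟩
  obtain ⟨τ, hτ, huniq⟩ := h.trace
  exact ⟨τ, ⟨hτ.map_one, hτ.nonneg, hτ.trace⟩, fun σ hσ =>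
    huniq σ ⟨hσ.map_one, hσ.nonneg, hσ.trace⟩⟩

theorem IsTensor.isCStarTensor {A : Type u} {Z : Type v} {T : Type w} [CStarAlgebra A]
    [CStarAlgebra Z] [CStarAlgebra T] {ιA : A →⋆ₐ[ℂ] T} {ιZ : Z →⋆ₐ[ℂ] T} (h : IsTensor ιA ιZ) :
    IsCStarTensor A Z T ιA ιZ :=
  ⟨h.commute, h.injective, h.dense⟩

end DimDropTransfer

/-- The main theorem, in the form of the hand-in. -/
theorem character_question' {A : Type u} [CStarAlgebra A] [SeparableSpace A]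
    (ω : Ultrafilter ℕ) (hω : (ω : Filter ℕ) ≤ Filter.cofinite) {U : Type u} [CStarAlgebra U]
    {q : (ℕ →ᵇ A) →⋆ₐ[ℂ] U} (hq : IsUltrapower ω q) (hchar : IsEmpty (centralAlg q →⋆ₐ[ℂ] ℂ)) :
    (∀ (D : Type v) [CStarAlgebra D], IsPrimeDimDrop D → Nonempty (D →⋆ₐ[ℂ] centralAlg q)) ∧
    (∀ (Z : Type v) [CStarAlgebra Z], IsPrimeDimDropLimit Z →
      Nonempty (Z →⋆ₐ[ℂ] centralAlg q)) ∧
    (∀ (Z : Type v) [CStarAlgebra Z], IsJiangSuAlgebra.{v, w} Z →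
      ∀ (T : Type w) [CStarAlgebra T] (ιA : A →⋆ₐ[ℂ] T) (ιZ : Z →⋆ₐ[ℂ] T),
        IsTensor ιA ιZ → Nonempty (A ≃⋆ₐ[ℂ] T)) := by
  have hmk : IsUltrapower ω (Ultra.mk ω : (ℕ →ᵇ A) →⋆ₐ[ℂ] Ultra ω A) := isUltrapower_mk
  have hle : centralAlg (Ultra.mk ω : (ℕ →ᵇ A) →⋆ₐ[ℂ] Ultra ω A) ≤ centralSeq ω A :=
    centralSeq_eq.ge
  have hge : centralSeq ω A ≤ centralAlg (Ultra.mk ω : (ℕ →ᵇ A) →⋆ₐ[ℂ] Ultra ω A) :=
    centralSeq_eq.le
  let j : centralAlg q →⋆ₐ[ℂ] centralSeq ω A :=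
    (StarSubalgebra.inclusion hle).comp (centralHom hq hmk)
  let j' : centralSeq ω A →⋆ₐ[ℂ] centralAlg q :=
    (centralHom hmk hq).comp (StarSubalgebra.inclusion hge)
  have hchar' : IsEmpty (centralSeq ω A →⋆ₐ[ℂ] ℂ) :=
    ⟨fun χ => hchar.false (StarAlgHom.comp χ j)⟩
  obtain ⟨h1, h2, h3⟩ := character_question.{u, v, w} ω hω hchar'
  refine ⟨?_, ?_, ?_⟩
  · intro D _ hD
    obtain ⟨p, r, hp, hr, hpr, hdd⟩ := hD
    obtain ⟨e⟩ := hdd.exists_hom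
    obtain ⟨f⟩ := h1 p r hp hr hpr
    exact ⟨j'.comp (StarAlgHom.comp f (e : D →⋆ₐ[ℂ] DimDrop p r))⟩
  · intro Z _ hZ
    obtain ⟨f⟩ := h2 Z hZ.isDimDropLimit
    exact ⟨j'.comp f⟩
  · intro Z _ hZ T _ ιA ιZ hT
    exact h3 Z hZ.isJiangSu T ιA ιZ hT.isCStarTensor

end Vale.Agent.P101
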