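import Mathlib

/-!
# P101: factorisation of `0 ≤ d ≤ v⋆ v`
-/

open Filter Topology

namespace Vale.Agent.P101

namespace Factor

/-- regularised inverse square root. -/
noncomputable def g (ε x : ℝ) : ℝ := (√(|x| + ε))⁻¹

theorem continuous_g {ε : ℝ} (hε : 0 < ε) : Continuous (g ε) := by
  unfold g
  refine Continuous.inv₀ (by fun_prop) fun x => ?_
  exact (Real.sqrt_pos.2 (by positivity)).ne'

theorem g_bound {ε x : ℝ} (hε : 0 < ε) (hx : 0 ≤ x) : |x * g ε x - √x| ≤ √ε := by
  unfold g
  rw [abs_of_nonneg hx]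
  set S := √(x + ε) with hS
  set r := √x with hr
  set e := √ε with he
  have hSpos : 0 < S := Real.sqrt_pos.2 (by positivity)
  have hr0 : 0 ≤ r := Real.sqrt_nonneg _
  have he0 : 0 ≤ e := Real.sqrt_nonneg _
  have hr2 : r * r = x := Real.mul_self_sqrt hx
  have he2 : e * e = ε := Real.mul_self_sqrt hε.le
  have h1 : S ≤ r + e := by
    rw [hS]
    refine Real.sqrt_le_iff.mpr ⟨by positivity, ?_⟩
    nlinarith [mul_nonneg hr0 he0]
  have h2 : r ≤ S := Real.sqrt_le_sqrt (by linarith)
  have h3 : x * S⁻¹ - r = -(r * S⁻¹ * (S - r)) := by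
    field_simp
    nlinarith
  rw [h3, abs_neg, abs_of_nonneg (mul_nonneg (by positivity) (by linarith))]
  have h4 : r * S⁻¹ ≤ 1 := by
    rw [← div_eq_mul_inv]
    exact (div_le_one hSpos).mpr h2
  calc r * S⁻¹ * (S - r) ≤ 1 * (S - r) := mul_le_mul_of_nonneg_right h4 (by linarith)
    _ ≤ e := by linarith

theorem g_sq {ε x : ℝ} (hε : 0 < ε) (hx : 0 ≤ x) : g ε x * g ε x = (x + ε)⁻¹ := by
  unfold g
  rw [abs_of_nonneg hx, ← mul_inv, Real.mul_self_sqrt (by positivity)]

set_option linter.unusedSectionVars false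

variable {B : Type*} [CStarAlgebra B] [PartialOrder B] [StarOrderedRing B]

theorem spec_nonneg {h : B} (hh : 0 ≤ h) {x : ℝ} (hx : x ∈ spectrum ℝ h) : 0 ≤ x :=
  spectrum_nonneg_of_nonneg hh hx

theorem cfc_mul' {h : B} {f₁ f₂ : ℝ → ℝ} (h1 : Continuous f₁) (h2 : Continuous f₂) :
    cfc f₁ h * cfc f₂ h = cfc (fun x => f₁ x * f₂ x) h :=
  (cfc_mul f₁ f₂ h h1.continuousOn h2.continuousOn).symm

theorem star_cfc {h : B} (f : ℝ → ℝ) : star (cfc f h) = cfc f h :=
  (cfc_predicate (p := IsSelfAdjoint) f h).star_eq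

/-- the approximations. -/
noncomputable def s (v d : B) (ε : ℝ) : B := v * cfc (g ε) (star v * v) * CFC.sqrt d

theorem norm_sub_le {v d : B} (hd : 0 ≤ d) (h : d ≤ star v * v) {ε δ : ℝ} (hε : 0 < ε)
    (hδ : 0 < δ) : ‖s v d ε - s v d δ‖ ≤ √ε + √δ := by
  set H := star v * v with hH
  have hH0 : 0 ≤ H := star_mul_self_nonneg v
  set c := CFC.sqrt d with hc
  have hcc : c * c = d := CFC.sqrt_mul_sqrt_self d hd
  have hcs : star c = c := (IsSelfAdjoint.of_nonneg (CFC.sqrt_nonneg d)).star_eq
  have hgε := continuous_g hε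
  have hgδ := continuous_g hδ
  set e := cfc (fun x => g ε x - g δ x) H with he
  have he' : e = cfc (g ε) H - cfc (g δ) H := by
    rw [he]
    exact cfc_sub (g ε) (g δ) H hgε.continuousOn hgδ.continuousOn
  have hes : star e = e := star_cfc _
  set r := cfc (fun x : ℝ => √x) H with hr
  have hrs : star r = r := star_cfc _
  have hrr : r * r = H := by
    rw [hr, cfc_mul' Real.continuous_sqrt Real.continuous_sqrt]
    conv_rhs => rw [← cfc_id' ℝ H]
    exact cfc_congr fun x hx => Real.mul_self_sqrt (spec_nonneg hH0 hx)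
  have hdiff : s v d ε - s v d δ = v * e * c := by
    unfold s
    rw [← hH, ← hc, he']
    noncomm_ring
  set y := r * e * c with hy
  have h1 : star (v * e * c) * (v * e * c) = star y * y := by
    rw [hy]
    simp only [star_mul, hcs, hes, hrs]
    calc c * (e * star v) * (v * e * c) = c * e * (star v * v) * e * c := by noncomm_ring
      _ = c * e * (r * r) * e * c := by rw [← hH, hrr]
      _ = _ := by noncomm_ring
  have h2 : ‖v * e * c‖ = ‖y‖ := by
    have h3 : ‖v * e * c‖ * ‖v * e * c‖ = ‖y‖ * ‖y‖ := by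
      rw [← CStarRing.norm_star_mul_self, ← CStarRing.norm_star_mul_self, h1]
    nlinarith [norm_nonneg (v * e * c), norm_nonneg y, mul_self_nonneg (‖v * e * c‖ - ‖y‖),
      mul_self_inj (norm_nonneg (v * e * c)) (norm_nonneg y) |>.mp h3]
  set k := cfc (fun x => x * (g ε x - g δ x)) H with hk
  have hk' : r * e * r = k := by
    have hc1 : Continuous fun x => g ε x - g δ x := hgε.sub hgδ
    have hc2 : Continuous fun x => √x * (g ε x - g δ x) := Real.continuous_sqrt.mul hc1
    have e1 : r * e = cfc (fun x => √x * (g ε x - g δ x)) H :=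
      cfc_mul' Real.continuous_sqrt hc1
    have e2 : cfc (fun x => √x * (g ε x - g δ x)) H * r =
        cfc (fun x => √x * (g ε x - g δ x) * √x) H := cfc_mul' hc2 Real.continuous_sqrt
    rw [e1, e2, hk]
    refine cfc_congr fun x hx => ?_
    have := Real.mul_self_sqrt (spec_nonneg hH0 hx)
    show √x * (g ε x - g δ x) * √x = x * (g ε x - g δ x)
    calc √x * (g ε x - g δ x) * √x = (√x * √x) * (g ε x - g δ x) := by ring
      _ = _ := by rw [this]
  have h4 : y * star y ≤ k * k := by
    have h5 : y * star y = star (e * r) * d * (e * r) := by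
      rw [hy]
      simp only [star_mul, hcs, hes, hrs]
      rw [← hcc]
      noncomm_ring
    have h6 : k * k = star (e * r) * H * (e * r) := by
      rw [← hk', ← hrr]
      simp only [star_mul, hes, hrs]
      noncomm_ring
    rw [h5, h6]
    exact star_left_conjugate_le_conjugate h _
  have h7 : ‖y‖ * ‖y‖ ≤ ‖k‖ * ‖k‖ := by
    rw [← CStarRing.norm_self_mul_star]
    exact (CStarAlgebra.norm_le_norm_of_nonneg_of_le (mul_star_self_nonneg y) h4).trans
      (norm_mul_le _ _)
  have h8 : ‖y‖ ≤ ‖k‖ := (mul_self_le_mul_self_iff (norm_nonneg _) (norm_nonneg _)).mpr h7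
  have h9 : ‖k‖ ≤ √ε + √δ := by
    refine norm_cfc_le (by positivity) fun x hx => ?_
    have hx0 := spec_nonneg hH0 hx
    have h10 := g_bound hε hx0
    have h11 := g_bound hδ hx0
    rw [Real.norm_eq_abs]
    calc |x * (g ε x - g δ x)| = |(x * g ε x - √x) - (x * g δ x - √x)| := by
          congr 1; ring
      _ ≤ |x * g ε x - √x| + |x * g δ x - √x| := abs_sub _ _
      _ ≤ √ε + √δ := add_le_add h10 h11
  rw [hdiff, h2]
  exact h8.trans h9

theorem norm_defect_le {v d : B} (hd : 0 ≤ d) (h : d ≤ star v * v) {ε : ℝ} (hε : 0 < ε) :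
    ‖star (s v d ε) * s v d ε - d‖ ≤ ε := by
  set H := star v * v with hH
  have hH0 : 0 ≤ H := star_mul_self_nonneg v
  set c := CFC.sqrt d with hc
  have hcc : c * c = d := CFC.sqrt_mul_sqrt_self d hd
  have hcs : star c = c := (IsSelfAdjoint.of_nonneg (CFC.sqrt_nonneg d)).star_eq
  have hgε := continuous_g hε
  set b := cfc (g ε) H with hb
  have hbs : star b = b := star_cfc _
  have hid : cfc (fun x : ℝ => x) H = H := cfc_id' ℝ H
  have hc1 : Continuous fun x => g ε x * x := hgε.mul continuous_id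
  have hc2 : Continuous fun x => g ε x * x * g ε x := hc1.mul hgε
  have e1 : b * H * b = cfc (fun x => g ε x * x * g ε x) H := by
    have h1 : b * H = cfc (fun x => g ε x * x) H := by
      conv_lhs => rw [← hid]
      rw [hb]
      exact cfc_mul' hgε continuous_id
    rw [h1]
    exact cfc_mul' hc1 hgε
  have e2 : b * b = cfc (fun x => g ε x * g ε x) H := cfc_mul' hgε hgε
  have hpt : ∀ x, 0 ≤ x → g ε x * x * g ε x = 1 - ε * (g ε x * g ε x) := by
    intro x hx
    have h1 := g_sq hε hx
    have h2 : g ε x * x * g ε x = x * (g ε x * g ε x) := by ring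
    rw [h2, h1]
    have : x + ε ≠ 0 := by positivity
    field_simp
    ring
  have e3 : b * H * b = 1 - ε • (b * b) := by
    rw [e1, e2, ← cfc_const_mul ε (fun x => g ε x * g ε x) H (hgε.mul hgε).continuousOn,
      ← cfc_const_one ℝ H, ← cfc_sub (fun _ => (1 : ℝ)) (fun x => ε * (g ε x * g ε x)) H
        continuousOn_const (continuous_const.mul (hgε.mul hgε)).continuousOn]
    exact cfc_congr fun x hx => hpt x (spec_nonneg hH0 hx)
  have hs : s v d ε = v * b * c := rfl
  have e4 : star (s v d ε) * s v d ε - d = -(ε • (star (b * c) * (b * c))) := by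
    rw [hs]
    simp only [star_mul, hcs, hbs]
    have h1 : c * (b * star v) * (v * b * c) = c * (b * H * b) * c := by
      rw [hH]; noncomm_ring
    rw [h1, e3, mul_sub, sub_mul, mul_one, hcc, mul_smul_comm, smul_mul_assoc]
    have h2 : c * b * (b * c) = c * (b * b) * c := by noncomm_ring
    rw [h2]
    abel
  rw [e4, norm_neg, norm_smul, Real.norm_eq_abs, abs_of_pos hε]
  have h5 : ‖star (b * c) * (b * c)‖ ≤ 1 := by
    rw [CStarRing.norm_star_mul_self, ← CStarRing.norm_self_mul_star]
    have h6 : (b * c) * star (b * c) = star b * d * b := by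
      simp only [star_mul, hcs, hbs]
      rw [← hcc]
      noncomm_ring
    have h7 : star b * d * b ≤ star b * H * b := star_left_conjugate_le_conjugate h _
    rw [h6]
    have h8 : 0 ≤ star b * d * b := star_left_conjugate_nonneg hd b
    refine (CStarAlgebra.norm_le_norm_of_nonneg_of_le h8 h7).trans ?_
    rw [hbs, e1]
    refine norm_cfc_le zero_le_one fun x hx => ?_
    have hx0 := spec_nonneg hH0 hx
    rw [hpt x hx0, g_sq hε hx0, Real.norm_eq_abs]
    have h9 : 1 - ε * (x + ε)⁻¹ = x * (x + ε)⁻¹ := by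
      have : x + ε ≠ 0 := by positivity
      field_simp
      ring
    rw [h9, abs_of_nonneg (by positivity), ← div_eq_mul_inv, div_le_one (by positivity)]
    linarith
  calc ε * ‖star (b * c) * (b * c)‖ ≤ ε * 1 := mul_le_mul_of_nonneg_left h5 hε.le
    _ = ε := mul_one _

end Factor

open Factor

variable {B : Type*} [CStarAlgebra B] [PartialOrder B] [StarOrderedRing B]

theorem exists_factor_of_le {v d : B} (hd : 0 ≤ d) (h : d ≤ star v * v) :
    ∃ s : B, star s * s = d ∧ ∀ p : B, p * v = v → p * s = s := by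
  let ε : ℕ → ℝ := fun k => (1 / ((k : ℝ) + 1)) ^ 2
  have hε : ∀ k, 0 < ε k := fun k => by
    show 0 < (1 / ((k : ℝ) + 1)) ^ 2
    positivity
  have hsq : ∀ k, √(ε k) = 1 / ((k : ℝ) + 1) := fun k =>
    Real.sqrt_sq (by positivity)
  let S : ℕ → B := fun k => Factor.s v d (ε k)
  have hcauchy : CauchySeq S := by
    rw [Metric.cauchySeq_iff']
    intro δ hδ
    obtain ⟨N, hN⟩ := exists_nat_one_div_lt (show (0 : ℝ) < δ / 2 by linarith)
    refine ⟨N, fun n hn => ?_⟩
    rw [dist_eq_norm]
    have h1 := norm_sub_le hd h (hε n) (hε N)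
    rw [hsq, hsq] at h1
    have h2 : 1 / ((n : ℝ) + 1) ≤ 1 / ((N : ℝ) + 1) := by
      apply one_div_le_one_div_of_le (by positivity)
      have : (N : ℝ) ≤ n := by exact_mod_cast hn
      linarith
    show ‖Factor.s v d (ε n) - Factor.s v d (ε N)‖ < δ
    linarith
  obtain ⟨s, hs⟩ := cauchySeq_tendsto_of_complete hcauchy
  refine ⟨s, ?_, ?_⟩
  · have h1 : Tendsto (fun k => star (S k) * S k - d) atTop (𝓝 (star s * s - d)) :=
      (hs.star.mul hs).sub_const d
    have h2 : Tendsto (fun k => star (S k) * S k - d) atTop (𝓝 0) := by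
      refine squeeze_zero_norm (a := ε) (fun k => norm_defect_le hd h (hε k)) ?_
      have h3 : Tendsto (fun k : ℕ => (1 / ((k : ℝ) + 1)) ^ 2) atTop (𝓝 ((0 : ℝ) ^ 2)) :=
        (tendsto_one_div_add_atTop_nhds_zero_nat (𝕜 := ℝ)).pow 2
      rw [zero_pow two_ne_zero] at h3
      exact h3
    exact sub_eq_zero.mp (tendsto_nhds_unique h1 h2)
  · intro p hp
    have h1 : Tendsto (fun k => p * S k) atTop (𝓝 (p * s)) := hs.const_mul p
    have h2 : (fun k => p * S k) = S := by
      funext k
      show p * (v * _ * _) = v * _ * _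
      rw [← mul_assoc, ← mul_assoc, hp]
    rw [h2] at h1
    exact tendsto_nhds_unique h1 hs

end Vale.Agent.P101
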