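import Mathlib

/-!
# P101: the algebra behind the join of two commuting order zero maps
-/

open scoped BigOperators

namespace Vale.Agent.P101

namespace JoinAlg

variable {R A : Type*} [CommRing R] [Ring A] [Algebra R A] {n : ℕ}

/-- the relations between the two families. -/
structure Dat (p X : Fin n → Fin n → A) (q r : R) : Prop where
  pp : ∀ i j k l, p i j * p k l = if j = k then q • p i l else 0
  XX : ∀ i j k l, X i j * X k l = if j = k then r • X i l else 0
  Xp : ∀ i j k l, X i j * p k l = p k l * X i j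
  sp : ∑ a, p a a = q • (1 : A)
  sX : ∑ a, X a a = r • (1 : A)

/-- `L i j = ∑ k, p k j X i k`. -/
def L (p X : Fin n → Fin n → A) (i j : Fin n) : A := ∑ k, p k j * X i k

/-- `M i j = ∑ k, p i k X k j`. -/
def M (p X : Fin n → Fin n → A) (i j : Fin n) : A := ∑ k, p i k * X k j

/-- `G = ∑ p k l X l k`. -/
def G (p X : Fin n → Fin n → A) : A := ∑ a, L p X a a

variable {p X : Fin n → Fin n → A} {q r : R}

theorem G_eq (p X : Fin n → Fin n → A) : G p X = ∑ a, M p X a a := by
  unfold G L M
  exact Finset.sum_comm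

namespace Dat

variable (h : Dat p X q r)
include h

theorem pL (i j k l : Fin n) : p i j * L p X k l = q • (p i l * X k j) := by
  unfold L
  simp only [Finset.mul_sum, ← mul_assoc, h.pp, ite_mul, zero_mul, Finset.sum_ite_eq,
    Finset.mem_univ, if_true, smul_mul_assoc]

theorem pM (i j k l : Fin n) : p i j * M p X k l = if j = k then q • M p X i l else 0 := by
  unfold M
  by_cases hjk : j = k
  · simp only [Finset.mul_sum, ← mul_assoc, h.pp, hjk, if_true, smul_mul_assoc, Finset.smul_sum]
  · simp only [Finset.mul_sum, ← mul_assoc, h.pp, hjk, if_false, zero_mul,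
      Finset.sum_const_zero]

theorem XL (i j k l : Fin n) : X i j * L p X k l = if j = k then r • L p X i l else 0 := by
  unfold L
  have : ∀ m, X i j * (p m l * X k m) = p m l * (X i j * X k m) := by
    intro m
    rw [← mul_assoc, h.Xp, mul_assoc]
  by_cases hjk : j = k
  · subst hjk
    simp only [Finset.mul_sum, this, h.XX, if_true, mul_smul_comm, Finset.smul_sum]
  · simp only [Finset.mul_sum, this, h.XX, hjk, if_false, mul_zero, Finset.sum_const_zero]

theorem XM (i j k l : Fin n) : X i j * M p X k l = r • (p k j * X i l) := by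
  unfold M
  have : ∀ m, X i j * (p k m * X m l) = p k m * (X i j * X m l) := by
    intro m
    rw [← mul_assoc, h.Xp, mul_assoc]
  simp only [Finset.mul_sum, this, h.XX, mul_ite, mul_zero, Finset.sum_ite_eq,
    Finset.mem_univ, if_true, mul_smul_comm]

theorem Lp (i j k l : Fin n) : L p X i j * p k l = if j = k then q • L p X i l else 0 := by
  unfold L
  have : ∀ m, p m j * X i m * p k l = p m j * p k l * X i m := by
    intro m
    rw [mul_assoc, h.Xp, mul_assoc]
  by_cases hjk : j = k
  · subst hjk
    simp only [Finset.sum_mul, this, h.pp, if_true, smul_mul_assoc, Finset.smul_sum]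
  · simp only [Finset.sum_mul, this, h.pp, hjk, if_false, zero_mul, Finset.sum_const_zero]

theorem LX (i j k l : Fin n) : L p X i j * X k l = r • (p k j * X i l) := by
  unfold L
  simp only [Finset.sum_mul, mul_assoc, h.XX, mul_ite, mul_zero, Finset.sum_ite_eq',
    Finset.mem_univ, if_true, mul_smul_comm]

theorem Mp (i j k l : Fin n) : M p X i j * p k l = q • (p i l * X k j) := by
  unfold M
  have : ∀ m, p i m * X m j * p k l = p i m * p k l * X m j := by
    intro m
    rw [mul_assoc, h.Xp, mul_assoc]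
  simp only [Finset.sum_mul, this, h.pp, ite_mul, zero_mul, Finset.sum_ite_eq',
    Finset.mem_univ, if_true, smul_mul_assoc]

theorem MX (i j k l : Fin n) : M p X i j * X k l = if j = k then r • M p X i l else 0 := by
  unfold M
  by_cases hjk : j = k
  · simp only [Finset.sum_mul, mul_assoc, h.XX, hjk, if_true, mul_smul_comm, Finset.smul_sum]
  · simp only [Finset.sum_mul, mul_assoc, h.XX, hjk, if_false, mul_zero,
      Finset.sum_const_zero]

theorem LL (i j k l : Fin n) : L p X i j * L p X k l = (q * r) • (p k l * X i j) := by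
  conv_lhs => rw [L.eq_def p X k l]
  simp only [Finset.mul_sum, ← mul_assoc, h.Lp, ite_mul, zero_mul, Finset.sum_ite_eq,
    Finset.mem_univ, if_true, smul_mul_assoc, h.LX, smul_smul]

theorem MM (i j k l : Fin n) : M p X i j * M p X k l = (q * r) • (p i j * X k l) := by
  conv_lhs => rw [M.eq_def p X k l]
  simp only [Finset.mul_sum, ← mul_assoc, h.Mp]
  simp only [smul_mul_assoc, mul_assoc, h.XX, mul_ite, mul_zero, Finset.sum_ite_eq,
    Finset.mem_univ, if_true, mul_smul_comm, smul_smul, smul_ite, smul_zero]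

theorem LM (i j k l : Fin n) :
    L p X i j * M p X k l = if j = k then (q * q * r) • X i l else 0 := by
  conv_lhs => rw [M.eq_def p X k l]
  by_cases hjk : j = k
  · simp only [Finset.mul_sum, ← mul_assoc, h.Lp, hjk, if_true, smul_mul_assoc, h.LX,
      smul_smul]
    rw [← Finset.smul_sum, ← Finset.sum_mul, h.sp, smul_mul_assoc, one_mul, smul_smul]
    congr 1
    ring
  · simp only [Finset.mul_sum, ← mul_assoc, h.Lp, hjk, if_false, zero_mul,
      Finset.sum_const_zero]

theorem ML (i j k l : Fin n) :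
    M p X i j * L p X k l = if j = k then (q * r * r) • p i l else 0 := by
  conv_lhs => rw [L.eq_def p X k l]
  by_cases hjk : j = k
  · simp only [Finset.mul_sum, ← mul_assoc, h.Mp]
    simp only [smul_mul_assoc, mul_assoc, h.XX, hjk, if_true, mul_smul_comm, smul_smul]
    rw [← Finset.smul_sum, ← Finset.mul_sum, h.sX, mul_smul_comm, mul_one, smul_smul]
    congr 1
    ring
  · simp only [Finset.mul_sum, ← mul_assoc, h.Mp]
    simp only [smul_mul_assoc, mul_assoc, h.XX, hjk, if_false, mul_zero, smul_zero,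
      Finset.sum_const_zero]

theorem pG (i j : Fin n) : p i j * G p X = q • M p X i j := by
  rw [G_eq, Finset.mul_sum]
  simp only [h.pM, Finset.sum_ite_eq, Finset.mem_univ, if_true]

theorem XG (i j : Fin n) : X i j * G p X = r • L p X i j := by
  unfold G
  rw [Finset.mul_sum]
  simp only [h.XL, Finset.sum_ite_eq, Finset.mem_univ, if_true]

theorem LG (i j : Fin n) : L p X i j * G p X = (q * q * r) • X i j := by
  rw [G_eq, Finset.mul_sum]
  simp only [h.LM, Finset.sum_ite_eq, Finset.mem_univ, if_true]

theorem MG (i j : Fin n) : M p X i j * G p X = (q * r * r) • p i j := by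
  unfold G
  rw [Finset.mul_sum]
  simp only [h.ML, Finset.sum_ite_eq, Finset.mem_univ, if_true]

theorem GX (i j : Fin n) : G p X * X i j = r • M p X i j := by
  rw [G_eq, Finset.sum_mul]
  simp only [h.MX, Finset.sum_ite_eq', Finset.mem_univ, if_true]

theorem GG : G p X * G p X = (q * q * r * r) • (1 : A) := by
  conv_lhs => rw [G.eq_def p X]
  rw [Finset.sum_mul]
  have : ∀ a, L p X a a * ∑ a, L p X a a = (q * q * r) • X a a := fun a => h.LG a a
  simp only [this]
  rw [← Finset.smul_sum, h.sX, smul_smul]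

end Dat

/-- the join. -/
def Psi (p X : Fin n → Fin n → A) (r ρ c s ι : R) (i j : Fin n) : A :=
  (ρ * (1 - r) + c * c * r) • p i j + (s * s) • X i j + (ι * s * c) • L p X i j
    - (ι * s * c) • M p X i j

/-- the partial unitary. -/
def W (p X : Fin n → Fin n → A) (c s ι : R) : A := s • (1 : A) - (ι * c) • G p X

/-- the scalar relations. -/
structure Rel (q r ρ c s ι : R) : Prop where
  cs : c * c + s * s = 1
  cq : c * q = c
  ρq : ρ * q = ρ
  ρc : ρ * c = ρ
  ρs : ρ * s = 0
  ιι : ι * ι = -1

theorem Psi_mul (h : Dat p X q r) {ρ c s ι : R} (H : Rel q r ρ c s ι) (i j k l : Fin n) :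
    Psi p X r ρ c s ι i j * Psi p X r ρ c s ι k l =
      if j = k then (ρ * (1 - r) + r) • Psi p X r ρ c s ι i l else 0 := by
  obtain ⟨h1, h2, h3, h4, h5, h6⟩ := H
  unfold Psi
  by_cases hjk : j = k
  · subst hjk
    simp only [add_mul, mul_add, sub_mul, mul_sub, smul_mul_assoc, mul_smul_comm, h.pp, h.XX,
      h.Xp, h.pL, h.pM, h.XL, h.XM, h.Lp, h.LX, h.Mp, h.MX, h.LL, h.MM, h.LM, h.ML, if_true]
    match_scalars
    all_goals clear h
    all_goals grind
  · simp only [add_mul, mul_add, sub_mul, mul_sub, smul_mul_assoc, mul_smul_comm, h.pp, h.XX,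
      h.Xp, h.pL, h.pM, h.XL, h.XM, h.Lp, h.LX, h.Mp, h.MX, h.LL, h.MM, h.LM, h.ML, hjk,
      if_false, smul_zero]
    match_scalars
    all_goals clear h
    all_goals grind

theorem Psi_sum (h : Dat p X q r) {ρ c s ι : R} (H : Rel q r ρ c s ι) :
    ∑ a, Psi p X r ρ c s ι a a = (ρ * (1 - r) + r) • (1 : A) := by
  obtain ⟨h1, h2, h3, h4, h5, h6⟩ := H
  unfold Psi
  rw [Finset.sum_sub_distrib, Finset.sum_add_distrib, Finset.sum_add_distrib,
    ← Finset.smul_sum, ← Finset.smul_sum, ← Finset.smul_sum, ← Finset.smul_sum, h.sp, h.sX,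
    ← G_eq, ← G.eq_def p X]
  match_scalars
  all_goals clear h
  all_goals grind

theorem W_star_mul (h : Dat p X q r) {ρ c s ι : R} (H : Rel q r ρ c s ι) :
    (s • (1 : A) + (ι * c) • G p X) * W p X c s ι = (s * s + c * c * r * r) • (1 : A) := by
  obtain ⟨h1, h2, h3, h4, h5, h6⟩ := H
  unfold W
  simp only [add_mul, mul_sub, smul_mul_assoc, mul_smul_comm, h.GG, one_mul, mul_one]
  match_scalars
  all_goals clear h
  all_goals grind

theorem Psi_W (h : Dat p X q r) {ρ c s ι : R} (H : Rel q r ρ c s ι) (i j : Fin n) :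
    Psi p X r ρ c s ι i j * W p X c s ι - W p X c s ι * X i j =
      (1 - r) • ((s * c * c * r) • p i j - (s * c * c) • X i j + (ι * c * s * s) • L p X i j
        - (ι * c * (s * s + ρ)) • M p X i j) := by
  obtain ⟨h1, h2, h3, h4, h5, h6⟩ := H
  unfold Psi W
  simp only [add_mul, sub_mul, mul_sub, smul_mul_assoc, mul_smul_comm, h.pG, h.XG, h.LG, h.MG,
    h.GX, one_mul, mul_one]
  match_scalars
  all_goals clear h
  all_goals grind

theorem Psi_sub {ρ c s ι : R} (H : Rel q r ρ c s ι) (i j : Fin n) :
    Psi p X r ρ c s ι i j - p i j =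
      (1 - ρ) • ((r - 1) • p i j) + s • (s • X i j - (s * r) • p i j + (ι * c) • L p X i j
        - (ι * c) • M p X i j) := by
  obtain ⟨h1, h2, h3, h4, h5, h6⟩ := H
  unfold Psi
  match_scalars
  all_goals grind

end JoinAlg

end Vale.Agent.P101
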