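import Vale.Agent.P101.Defs
import Vale.Agent.P101.Factor
import Vale.Agent.P101.JoinAlg

/-!
# P101: the join of two commuting order zero maps
-/

open scoped BigOperators

namespace Vale.Agent.P101

set_option linter.unusedSectionVars false

variable {B : Type*} [CStarAlgebra B] [PartialOrder B] [StarOrderedRing B]

/-- the cut-off function: `0` on `(-∞,1/2]`, `1` on `[3/4,∞)`. -/
noncomputable def g0 (x : ℝ) : ℝ := max 0 (min 1 (4 * x - 2))

namespace Join

/-! ### real functions -/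

/-- `1 / max x (1/4)`. -/
noncomputable def lam (x : ℝ) : ℝ := (max x (1 / 4))⁻¹
/-- `1` on `[1/4, ∞)`. -/
noncomputable def qf (x : ℝ) : ℝ := x * lam x
/-- `1 / max x (1/2)`. -/
noncomputable def rh (x : ℝ) : ℝ := (max x (1 / 2))⁻¹
/-- `1` on `[1/2, ∞)`. -/
noncomputable def rf (x : ℝ) : ℝ := x * rh x
/-- clamp to `[0,1]`. -/
noncomputable def cl (x : ℝ) : ℝ := max 0 (min 1 x)
/-- `0` on `(-∞,1/3]`, `1` on `[2/3,∞)`. -/
noncomputable def cf (x : ℝ) : ℝ := Real.sin (Real.pi / 2 * cl (3 * x - 1))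
/-- `1` on `(-∞,1/3]`, `0` on `[2/3,∞)`. -/
noncomputable def sf (x : ℝ) : ℝ := Real.cos (Real.pi / 2 * cl (3 * x - 1))
/-- `0` on `(-∞,2/3]`, `1` on `[5/6,∞)`. -/
noncomputable def ρf (x : ℝ) : ℝ := cl (6 * x - 4)

theorem continuous_lam : Continuous lam := by
  unfold lam
  refine Continuous.inv₀ (by fun_prop) fun x => ?_
  have : (1 / 4 : ℝ) ≤ max x (1 / 4) := le_max_right _ _
  linarith

theorem continuous_rh : Continuous rh := by
  unfold rh
  refine Continuous.inv₀ (by fun_prop) fun x => ?_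
  have : (1 / 2 : ℝ) ≤ max x (1 / 2) := le_max_right _ _
  linarith

theorem continuous_cl : Continuous cl := by
  unfold cl
  fun_prop

theorem continuous_qf : Continuous qf := continuous_id.mul continuous_lam
theorem continuous_rf : Continuous rf := continuous_id.mul continuous_rh
theorem continuous_cf : Continuous cf := by
  have := continuous_cl
  unfold cf
  fun_prop
theorem continuous_sf : Continuous sf := by
  have := continuous_cl
  unfold sf
  fun_prop
theorem continuous_ρf : Continuous ρf := by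
  have := continuous_cl
  unfold ρf
  fun_prop
theorem continuous_g0 : Continuous g0 := by
  unfold g0
  fun_prop

theorem cl_of_nonpos {x : ℝ} (h : x ≤ 0) : cl x = 0 := by
  unfold cl
  rw [max_eq_left]
  exact (min_le_right _ _).trans h

theorem cl_of_one_le {x : ℝ} (h : 1 ≤ x) : cl x = 1 := by
  unfold cl
  rw [min_eq_left h, max_eq_right zero_le_one]

theorem cl_nonneg (x : ℝ) : 0 ≤ cl x := le_max_left _ _
theorem cl_le_one (x : ℝ) : cl x ≤ 1 := max_le zero_le_one (min_le_left _ _)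

theorem lam_of_le {x : ℝ} (h : 1 / 4 ≤ x) : lam x = x⁻¹ := by
  unfold lam
  rw [max_eq_left h]

theorem qf_of_le {x : ℝ} (h : 1 / 4 ≤ x) : qf x = 1 := by
  unfold qf
  rw [lam_of_le h, mul_inv_cancel₀]
  linarith

theorem rf_of_le {x : ℝ} (h : 1 / 2 ≤ x) : rf x = 1 := by
  unfold rf rh
  rw [max_eq_left h, mul_inv_cancel₀]
  linarith

theorem rf_nonneg {x : ℝ} (h : 0 ≤ x) : 0 ≤ rf x := by
  unfold rf rh
  positivity

theorem rf_le_one {x : ℝ} (_h : 0 ≤ x) : rf x ≤ 1 := by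
  unfold rf rh
  rw [← div_eq_mul_inv]
  exact div_le_one_of_le₀ (le_max_left _ _) (by positivity)

theorem cf_of_le {x : ℝ} (h : x ≤ 1 / 3) : cf x = 0 := by
  unfold cf
  rw [cl_of_nonpos (by linarith), mul_zero, Real.sin_zero]

theorem cf_of_ge {x : ℝ} (h : 2 / 3 ≤ x) : cf x = 1 := by
  unfold cf
  rw [cl_of_one_le (by linarith), mul_one, Real.sin_pi_div_two]

theorem sf_of_ge {x : ℝ} (h : 2 / 3 ≤ x) : sf x = 0 := by
  unfold sf
  rw [cl_of_one_le (by linarith), mul_one, Real.cos_pi_div_two]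

theorem ρf_of_le {x : ℝ} (h : x ≤ 2 / 3) : ρf x = 0 := by
  unfold ρf
  exact cl_of_nonpos (by linarith)

theorem ρf_of_ge {x : ℝ} (h : 5 / 6 ≤ x) : ρf x = 1 := by
  unfold ρf
  exact cl_of_one_le (by linarith)

theorem cs_rel (x : ℝ) : cf x * cf x + sf x * sf x = 1 := by
  unfold cf sf
  have := Real.sin_sq_add_cos_sq (Real.pi / 2 * cl (3 * x - 1))
  nlinarith [this]

theorem cq_rel (x : ℝ) : cf x * qf x = cf x := by
  rcases le_total x (1 / 3) with h | h
  · rw [cf_of_le h, zero_mul]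
  · rw [qf_of_le (by linarith), mul_one]

theorem ρq_rel (x : ℝ) : ρf x * qf x = ρf x := by
  rcases le_total x (2 / 3) with h | h
  · rw [ρf_of_le h, zero_mul]
  · rw [qf_of_le (by linarith), mul_one]

theorem ρc_rel (x : ℝ) : ρf x * cf x = ρf x := by
  rcases le_total x (2 / 3) with h | h
  · rw [ρf_of_le h, zero_mul]
  · rw [cf_of_ge h, mul_one]

theorem ρs_rel (x : ℝ) : ρf x * sf x = 0 := by
  rcases le_total x (2 / 3) with h | h
  · rw [ρf_of_le h, zero_mul]
  · rw [sf_of_ge h, mul_zero]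

theorem rg_rel (x : ℝ) : rf x * g0 x = g0 x := by
  rcases le_total x (1 / 2) with h | h
  · have : g0 x = 0 := by
      unfold g0
      rw [max_eq_left]
      exact (min_le_right _ _).trans (by linarith)
    rw [this, mul_zero]
  · rw [rf_of_le h, one_mul]

/-! ### functional calculus -/

theorem cfc_kill {t y : B} (ht : IsSelfAdjoint t) (hy : t * y = y) {f : ℝ → ℝ}
    (hf : Continuous f) (h0 : ∀ x, 5 / 6 ≤ x → f x = 0) : cfc f t * y = 0 := by
  let k : ℝ → ℝ := fun x => f x * (max (1 - x) (1 / 6))⁻¹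
  have hk : Continuous k := by
    refine hf.mul (Continuous.inv₀ (by fun_prop) fun x => ?_)
    have : (1 / 6 : ℝ) ≤ max (1 - x) (1 / 6) := le_max_right _ _
    linarith
  have h1 : cfc f t = cfc k t * (1 - t) := by
    have h2 : (1 : B) - t = cfc (fun x : ℝ => 1 - x) t := by
      rw [cfc_sub (fun _ => (1 : ℝ)) (fun x => x) t continuousOn_const continuousOn_id,
        cfc_const_one ℝ t, cfc_id' ℝ t]
    rw [h2, Factor.cfc_mul' hk (by fun_prop)]
    refine cfc_congr fun x _ => ?_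
    show f x = f x * (max (1 - x) (1 / 6))⁻¹ * (1 - x)
    rcases le_total (5 / 6) x with h | h
    · rw [h0 x h]
      ring
    · rw [max_eq_left (by linarith)]
      rcases eq_or_ne (1 - x) 0 with h3 | h3
      · linarith
      · field_simp
  rw [h1, mul_assoc, sub_mul, one_mul, hy, sub_self, mul_zero]

theorem cfc_fix {t y : B} (ht : IsSelfAdjoint t) (hy : t * y = y) {f : ℝ → ℝ}
    (hf : Continuous f) (h1 : ∀ x, 5 / 6 ≤ x → f x = 1) : cfc f t * y = y := by
  have h2 : cfc (fun x => f x - 1) t * y = 0 :=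
    cfc_kill ht hy (hf.sub continuous_const) fun x hx => by rw [h1 x hx, sub_self]
  rw [cfc_sub f (fun _ => (1 : ℝ)) t hf.continuousOn continuousOn_const, cfc_const_one ℝ t,
    sub_mul, one_mul] at h2
  exact sub_eq_zero.mp h2

/-! ### the centralizer -/

/-- the centralizer of two elements. -/
abbrev D (t₁ t₂ : B) : Subring B := Subring.centralizer {t₁, t₂}

theorem mem_D {t₁ t₂ b : B} (h₁ : Commute t₁ b) (h₂ : Commute t₂ b) : b ∈ D t₁ t₂ := by
  rw [Subring.mem_centralizer_iff]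
  intro g hg
  rcases hg with rfl | hg
  · exact h₁
  · rw [Set.mem_singleton_iff.mp hg]
    exact h₂

theorem commute_left {t₁ t₂ : B} (b : D t₁ t₂) : Commute t₁ (b : B) :=
  (Subring.mem_centralizer_iff.mp b.2) t₁ (Or.inl rfl)

theorem commute_right {t₁ t₂ : B} (b : D t₁ t₂) : Commute t₂ (b : B) :=
  (Subring.mem_centralizer_iff.mp b.2) t₂ (Or.inr rfl)

/-- an element of the centralizer commuting with the whole centralizer. -/
def mkC {t₁ t₂ : B} (z : B) (h₁ : Commute t₁ z) (h₂ : Commute t₂ z)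
    (h : ∀ b : D t₁ t₂, Commute z (b : B)) : Subring.center (D t₁ t₂) :=
  ⟨⟨z, mem_D h₁ h₂⟩, Subring.mem_center_iff.mpr fun b => Subtype.ext (h b).symm⟩

/-- functional calculus of `t₁` in the center. -/
noncomputable def z₁ {t₁ t₂ : B} (h : Commute t₁ t₂) (f : ℝ → ℝ) :
    Subring.center (D t₁ t₂) :=
  mkC (cfc f t₁) ((Commute.refl t₁).cfc_real f).symm (h.cfc_real f).symm
    fun b => (commute_left b).cfc_real f

/-- functional calculus of `t₂` in the center. -/
noncomputable def z₂ {t₁ t₂ : B} (h : Commute t₁ t₂) (f : ℝ → ℝ) :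
    Subring.center (D t₁ t₂) :=
  mkC (cfc f t₂) (h.symm.cfc_real f).symm ((Commute.refl t₂).cfc_real f).symm
    fun b => (commute_right b).cfc_real f

/-- `i` in the center. -/
noncomputable def iC (t₁ t₂ : B) : Subring.center (D t₁ t₂) :=
  mkC (algebraMap ℂ B Complex.I) (Algebra.commutes _ _).symm (Algebra.commutes _ _).symm
    fun _ => Algebra.commutes _ _

/-- the inclusion of the center into `B`. -/
def toB {t₁ t₂ : B} (z : Subring.center (D t₁ t₂)) : B := ((z : D t₁ t₂) : B)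

section coe
variable {t₁ t₂ : B}

theorem toB_z₁ (h : Commute t₁ t₂) (f : ℝ → ℝ) : toB (z₁ h f) = cfc f t₁ := rfl
theorem toB_z₂ (h : Commute t₁ t₂) (f : ℝ → ℝ) : toB (z₂ h f) = cfc f t₂ := rfl
theorem toB_iC : toB (iC t₁ t₂) = algebraMap ℂ B Complex.I := rfl
theorem toB_mul (z w : Subring.center (D t₁ t₂)) : toB (z * w) = toB z * toB w := rfl
theorem toB_add (z w : Subring.center (D t₁ t₂)) : toB (z + w) = toB z + toB w := rfl
theorem toB_sub (z w : Subring.center (D t₁ t₂)) : toB (z - w) = toB z - toB w := rfl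
theorem toB_one : toB (1 : Subring.center (D t₁ t₂)) = 1 := rfl
theorem toB_zero : toB (0 : Subring.center (D t₁ t₂)) = 0 := rfl
theorem toB_neg (z : Subring.center (D t₁ t₂)) : toB (-z) = -toB z := rfl
theorem coe_smul' (z : Subring.center (D t₁ t₂)) (b : D t₁ t₂) :
    ((z • b : D t₁ t₂) : B) = toB z * (b : B) := rfl
theorem toB_inj {z w : Subring.center (D t₁ t₂)} (h : toB z = toB w) : z = w :=
  Subtype.ext (Subtype.ext h)
theorem toB_commute (z : Subring.center (D t₁ t₂)) (b : D t₁ t₂) :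
    Commute (toB z) (b : B) := by
  have := Subring.mem_center_iff.mp z.2 b
  exact (congrArg Subtype.val this).symm

theorem smul_coe_mul_eq_zero {z : Subring.center (D t₁ t₂)} {b : D t₁ t₂} {x : B}
    (h : toB z * x = 0) : ((z • b : D t₁ t₂) : B) * x = 0 := by
  rw [coe_smul', (toB_commute _ _).eq, mul_assoc, h, mul_zero]

end coe

section rel
variable {t₁ t₂ : B} (h : Commute t₁ t₂)

theorem z₁_mul {f g : ℝ → ℝ} (hf : Continuous f) (hg : Continuous g) :
    z₁ h f * z₁ h g = z₁ h fun x => f x * g x := toB_inj (Factor.cfc_mul' hf hg)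

theorem z₂_mul {f g : ℝ → ℝ} (hf : Continuous f) (hg : Continuous g) :
    z₂ h f * z₂ h g = z₂ h fun x => f x * g x := toB_inj (Factor.cfc_mul' hf hg)

theorem rel (h₁ : IsSelfAdjoint t₁) : JoinAlg.Rel (z₁ h qf) (z₂ h rf) (z₁ h ρf) (z₁ h cf)
    (z₁ h sf) (iC t₁ t₂) where
  cs := by
    rw [z₁_mul h continuous_cf continuous_cf, z₁_mul h continuous_sf continuous_sf]
    apply toB_inj
    rw [toB_add, toB_z₁, toB_z₁, toB_one, ← cfc_const_one ℝ t₁,
      ← cfc_add (fun x => cf x * cf x) (fun x => sf x * sf x) (a := t₁)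
        (continuous_cf.mul continuous_cf).continuousOn
        (continuous_sf.mul continuous_sf).continuousOn]
    exact cfc_congr fun x _ => cs_rel x
  cq := by
    rw [z₁_mul h continuous_cf continuous_qf]
    congr 1
    exact funext cq_rel
  ρq := by
    rw [z₁_mul h continuous_ρf continuous_qf]
    congr 1
    exact funext ρq_rel
  ρc := by
    rw [z₁_mul h continuous_ρf continuous_cf]
    congr 1
    exact funext ρc_rel
  ρs := by
    rw [z₁_mul h continuous_ρf continuous_sf]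
    apply toB_inj
    rw [toB_z₁, toB_zero, ← cfc_const_zero ℝ t₁]
    exact cfc_congr fun x _ => ρs_rel x
  ιι := by
    apply toB_inj
    rw [toB_mul, toB_iC, toB_neg, toB_one, ← map_mul, Complex.I_mul_I, map_neg, map_one]

end rel

theorem comm_t {n : ℕ} {φ : Fin n → Fin n → B} (hφ : IsOZ φ) (i j : Fin n) :
    Commute (∑ a, φ a a) (φ i j) := by
  have h1 : φ i j * ∑ a, φ a a = (∑ a, φ a a) * φ i j := by
    rw [Finset.mul_sum]
    simp only [hφ.mul_apply, Finset.sum_ite_eq, Finset.mem_univ, if_true]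
  exact h1.symm

theorem half {R A : Type*} [CommRing R] [Ring A] [Algebra R A] {n : ℕ}
    (φ : Fin n → Fin n → A) (τ lam : R)
    (h : ∀ i j k l, φ i j * φ k l = if j = k then τ • φ i l else 0) (i j k l : Fin n) :
    (lam • φ i j) * (lam • φ k l) = if j = k then (τ * lam) • (lam • φ i l) else 0 := by
  rw [smul_mul_smul_comm, h]
  split_ifs
  · rw [smul_smul, smul_smul]
    congr 1
    ring
  · rw [smul_zero]

section main
variable {n : ℕ} {φ χ : Fin n → Fin n → B} (hφ : IsOZ φ) (hχ : IsOZ χ)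
  (hc : ∀ i j k l, Commute (φ i j) (χ k l))

/-- total weight. -/
abbrev tt (φ : Fin n → Fin n → B) : B := ∑ a, φ a a

include hc in
theorem comm_tχ (k l : Fin n) : Commute (tt φ) (χ k l) :=
  Commute.sum_left _ _ _ fun a _ => hc a a k l

include hc in
theorem comm_φt (i j : Fin n) : Commute (φ i j) (tt χ) :=
  Commute.sum_right _ _ _ fun a _ => hc i j a a

include hc in
theorem comm_tt : Commute (tt φ) (tt χ) :=
  Commute.sum_left _ _ _ fun a _ => comm_φt hc a a

/-- `φ` in the centralizer. -/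
def φD (i j : Fin n) : D (tt φ) (tt χ) :=
  ⟨φ i j, mem_D (comm_t hφ i j) (comm_φt hc i j).symm⟩

/-- `χ` in the centralizer. -/
def χD (i j : Fin n) : D (tt φ) (tt χ) :=
  ⟨χ i j, mem_D (comm_tχ hc i j) (comm_t hχ i j)⟩

/-- the weight in the center. -/
noncomputable def τ₁ : Subring.center (D (tt φ) (tt χ)) := z₁ (comm_tt hc) fun x => x

/-- the weight in the center. -/
noncomputable def τ₂ : Subring.center (D (tt φ) (tt χ)) := z₂ (comm_tt hc) fun x => x

theorem toB_τ₁ (hφ : IsOZ φ) : toB (τ₁ hc) = tt φ := by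
  have : IsSelfAdjoint (tt φ) := .of_nonneg hφ.nonneg
  exact cfc_id' ℝ (tt φ)

theorem toB_τ₂ (hχ : IsOZ χ) : toB (τ₂ hc) = tt χ := by
  have : IsSelfAdjoint (tt χ) := .of_nonneg hχ.nonneg
  exact cfc_id' ℝ (tt χ)

/-- the normalised family. -/
noncomputable def pD (i j : Fin n) : D (tt φ) (tt χ) := z₁ (comm_tt hc) lam • φD hφ hc i j

/-- the normalised family. -/
noncomputable def XD (i j : Fin n) : D (tt φ) (tt χ) := z₂ (comm_tt hc) rh • χD hχ hc i j

theorem φD_mul (i j k l : Fin n) :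
    φD hφ hc i j * φD hφ hc k l = if j = k then τ₁ hc • φD hφ hc i l else 0 := by
  apply Subtype.ext
  show φ i j * φ k l = _
  rw [hφ.mul_apply]
  split_ifs
  · rw [coe_smul', toB_τ₁ hc hφ]
    rfl
  · rfl

theorem χD_mul (i j k l : Fin n) :
    χD hχ hc i j * χD hχ hc k l = if j = k then τ₂ hc • χD hχ hc i l else 0 := by
  apply Subtype.ext
  show χ i j * χ k l = _
  rw [hχ.mul_apply]
  split_ifs
  · rw [coe_smul', toB_τ₂ hc hχ]
    rfl
  · rfl

theorem q_eq : z₁ (comm_tt hc) qf = τ₁ hc * z₁ (comm_tt hc) lam :=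
  (z₁_mul (comm_tt hc) continuous_id continuous_lam).symm

theorem r_eq : z₂ (comm_tt hc) rf = τ₂ hc * z₂ (comm_tt hc) rh :=
  (z₂_mul (comm_tt hc) continuous_id continuous_rh).symm

theorem dat : JoinAlg.Dat (pD hφ hc) (XD hχ hc) (z₁ (comm_tt hc) qf) (z₂ (comm_tt hc) rf) where
  pp := by
    intro i j k l
    rw [q_eq]
    exact half (φD hφ hc) (τ₁ hc) (z₁ (comm_tt hc) lam) (φD_mul hφ hc) i j k l
  XX := by
    intro i j k l
    rw [r_eq]
    exact half (χD hχ hc) (τ₂ hc) (z₂ (comm_tt hc) rh) (χD_mul hχ hc) i j k l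
  Xp := by
    intro i j k l
    unfold XD pD
    have h1 : χD hχ hc i j * φD hφ hc k l = φD hφ hc k l * χD hχ hc i j :=
      Subtype.ext (hc k l i j).symm
    simp only [smul_mul_assoc, mul_smul_comm, h1]
    rw [smul_comm]
  sp := by
    unfold pD
    rw [← Finset.smul_sum, q_eq]
    have h1 : ∑ a, φD hφ hc a a = τ₁ hc • (1 : D (tt φ) (tt χ)) := by
      apply Subtype.ext
      rw [coe_smul', toB_τ₁ hc hφ]
      show ((∑ a, φD hφ hc a a : D (tt φ) (tt χ)) : B) = tt φ * 1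
      rw [mul_one, AddSubmonoidClass.coe_finsetSum]
      rfl
    rw [h1, smul_smul, mul_comm]
  sX := by
    unfold XD
    rw [← Finset.smul_sum, r_eq]
    have h1 : ∑ a, χD hχ hc a a = τ₂ hc • (1 : D (tt φ) (tt χ)) := by
      apply Subtype.ext
      rw [coe_smul', toB_τ₂ hc hχ]
      show ((∑ a, χD hχ hc a a : D (tt φ) (tt χ)) : B) = tt χ * 1
      rw [mul_one, AddSubmonoidClass.coe_finsetSum]
      rfl
    rw [h1, smul_smul, mul_comm]

/-! ### star -/

theorem star_toB_mul {t₁ t₂ : B} {z z' w w' : Subring.center (D t₁ t₂)}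
    (h : star (toB z) = toB z') (h' : star (toB w) = toB w') :
    star (toB (z * w)) = toB (z' * w') := by
  rw [toB_mul, star_mul, h, h', ← toB_mul, mul_comm]

theorem star_coe_smul {t₁ t₂ : B} {z z' : Subring.center (D t₁ t₂)} {b b' : D t₁ t₂}
    (h : star (toB z) = toB z') (h' : star (b : B) = b') :
    star ((z • b : D t₁ t₂) : B) = ((z' • b' : D t₁ t₂) : B) := by
  rw [coe_smul', coe_smul', star_mul, h, h']
  exact (toB_commute z' b').symm

theorem star_z₁ {t₁ t₂ : B} (h : Commute t₁ t₂) (f : ℝ → ℝ) :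
    star (toB (z₁ h f)) = toB (z₁ h f) := Factor.star_cfc f

theorem star_z₂ {t₁ t₂ : B} (h : Commute t₁ t₂) (f : ℝ → ℝ) :
    star (toB (z₂ h f)) = toB (z₂ h f) := Factor.star_cfc f

theorem star_iC {t₁ t₂ : B} : star (toB (iC t₁ t₂)) = toB (-iC t₁ t₂) := by
  rw [toB_neg, toB_iC, ← algebraMap_star_comm]
  simp

theorem star_pD (i j : Fin n) : star (pD hφ hc i j : B) = pD hφ hc j i :=
  star_coe_smul (star_z₁ _ _) (hφ.star_apply i j)

theorem star_XD (i j : Fin n) : star (XD hχ hc i j : B) = XD hχ hc j i :=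
  star_coe_smul (star_z₂ _ _) (hχ.star_apply i j)

/-- `L` in the centralizer. -/
noncomputable def LD (i j : Fin n) : D (tt φ) (tt χ) := JoinAlg.L (pD hφ hc) (XD hχ hc) i j

/-- `M` in the centralizer. -/
noncomputable def MD (i j : Fin n) : D (tt φ) (tt χ) := JoinAlg.M (pD hφ hc) (XD hχ hc) i j

/-- `G` in the centralizer. -/
noncomputable def GD : D (tt φ) (tt χ) := JoinAlg.G (pD hφ hc) (XD hχ hc)

theorem star_L (i j : Fin n) : star (LD hφ hχ hc i j : B) = MD hφ hχ hc j i := by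
  unfold LD MD JoinAlg.L JoinAlg.M
  rw [AddSubmonoidClass.coe_finsetSum, AddSubmonoidClass.coe_finsetSum, star_sum]
  refine Finset.sum_congr rfl fun k _ => ?_
  show star ((pD hφ hc k j : B) * (XD hχ hc i k : B)) = (pD hφ hc j k : B) * (XD hχ hc k i : B)
  rw [star_mul, star_pD, star_XD]
  exact congrArg Subtype.val ((dat hφ hχ hc).Xp k i j k)

theorem star_M (i j : Fin n) : star (MD hφ hχ hc i j : B) = LD hφ hχ hc j i := by
  rw [← star_L, star_star]

theorem star_G : star (GD hφ hχ hc : B) = GD hφ hχ hc := by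
  have h1 : (GD hφ hχ hc : B) = ∑ k, (LD hφ hχ hc k k : B) := by
    unfold GD JoinAlg.G
    rw [AddSubmonoidClass.coe_finsetSum]
    rfl
  have h2 : (GD hφ hχ hc : B) = ∑ k, (MD hφ hχ hc k k : B) := by
    unfold GD
    rw [JoinAlg.G_eq, AddSubmonoidClass.coe_finsetSum]
    rfl
  rw [h2, star_sum]
  rw [h1] at h2
  rw [← h2]
  exact Finset.sum_congr rfl fun k _ => star_M hφ hχ hc k k

/-- the join, in the centralizer. -/
noncomputable def ΨD (i j : Fin n) : D (tt φ) (tt χ) :=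
  JoinAlg.Psi (pD hφ hc) (XD hχ hc) (z₂ (comm_tt hc) rf) (z₁ (comm_tt hc) ρf)
    (z₁ (comm_tt hc) cf) (z₁ (comm_tt hc) sf) (iC (tt φ) (tt χ)) i j

/-- the partial unitary, in the centralizer. -/
noncomputable def WD : D (tt φ) (tt χ) :=
  JoinAlg.W (pD hφ hc) (XD hχ hc) (z₁ (comm_tt hc) cf) (z₁ (comm_tt hc) sf)
    (iC (tt φ) (tt χ))

theorem relφ (hφ : IsOZ φ) : JoinAlg.Rel (z₁ (comm_tt hc) qf) (z₂ (comm_tt hc) rf)
    (z₁ (comm_tt hc) ρf) (z₁ (comm_tt hc) cf) (z₁ (comm_tt hc) sf) (iC (tt φ) (tt χ)) :=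
  rel (comm_tt hc) (.of_nonneg hφ.nonneg)

theorem star_ΨD (i j : Fin n) : star (ΨD hφ hχ hc i j : B) = ΨD hφ hχ hc j i := by
  have hρ := star_z₁ (comm_tt hc) ρf
  have hcc := star_z₁ (comm_tt hc) cf
  have hss := star_z₁ (comm_tt hc) sf
  have hr := star_z₂ (comm_tt hc) rf
  have h1r : star (toB (1 - z₂ (comm_tt hc) rf)) = toB (1 - z₂ (comm_tt hc) rf) := by
    rw [toB_sub, toB_one, star_sub, star_one, hr]
  have ha : star (toB (z₁ (comm_tt hc) ρf * (1 - z₂ (comm_tt hc) rf) +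
      z₁ (comm_tt hc) cf * z₁ (comm_tt hc) cf * z₂ (comm_tt hc) rf)) =
      toB (z₁ (comm_tt hc) ρf * (1 - z₂ (comm_tt hc) rf) +
      z₁ (comm_tt hc) cf * z₁ (comm_tt hc) cf * z₂ (comm_tt hc) rf) := by
    rw [toB_add, star_add, star_toB_mul hρ h1r, star_toB_mul (star_toB_mul hcc hcc) hr]
  have hb := star_toB_mul hss hss
  have he := star_toB_mul (star_toB_mul (star_iC (t₁ := tt φ) (t₂ := tt χ)) hss) hcc
  have h1 := star_coe_smul ha (star_pD hφ hc i j)
  have h2 := star_coe_smul hb (star_XD hχ hc i j)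
  have h3 := star_coe_smul he (star_L hφ hχ hc i j)
  have h4 := star_coe_smul he (star_M hφ hχ hc i j)
  unfold ΨD JoinAlg.Psi
  unfold LD MD at h3 h4
  rw [AddSubgroupClass.coe_sub, AddMemClass.coe_add, AddMemClass.coe_add, star_sub, star_add,
    star_add, h1, h2, h3, h4, AddSubgroupClass.coe_sub, AddMemClass.coe_add,
    AddMemClass.coe_add]
  simp only [neg_mul, neg_smul, NegMemClass.coe_neg]
  abel

theorem star_WD : star (WD hφ hχ hc : B) =
    ((z₁ (comm_tt hc) sf • (1 : D (tt φ) (tt χ)) + (iC (tt φ) (tt χ) * z₁ (comm_tt hc) cf) •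
      JoinAlg.G (pD hφ hc) (XD hχ hc) : D (tt φ) (tt χ)) : B) := by
  have h1 := star_coe_smul (star_z₁ (comm_tt hc) sf)
    (b := (1 : D (tt φ) (tt χ))) (b' := 1) (star_one _)
  have h2 := star_coe_smul (star_toB_mul (star_iC (t₁ := tt φ) (t₂ := tt χ))
    (star_z₁ (comm_tt hc) cf)) (star_G hφ hχ hc)
  unfold WD JoinAlg.W
  unfold GD at h2
  rw [AddSubgroupClass.coe_sub, star_sub, h1, h2, AddMemClass.coe_add]
  simp only [neg_mul, neg_smul, NegMemClass.coe_neg]
  abel

/-! ### commutation -/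

theorem commute_toB_mul {t₁ t₂ x : B} {z w : Subring.center (D t₁ t₂)}
    (h : Commute x (toB z)) (h' : Commute x (toB w)) : Commute x (toB (z * w)) :=
  h.mul_right h'

theorem commute_coe_smul {t₁ t₂ x : B} {z : Subring.center (D t₁ t₂)} {b : D t₁ t₂}
    (h : Commute x (toB z)) (h' : Commute x (b : B)) : Commute x ((z • b : D t₁ t₂) : B) :=
  h.mul_right h'

section comm
variable {x : B} (hx : ∀ i j, Commute x (φ i j) ∧ Commute x (χ i j))
include hx

theorem cx_z₁ (f : ℝ → ℝ) : Commute x (toB (z₁ (comm_tt hc) f)) := by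
  have h1 : Commute x (tt φ) := Commute.sum_right _ _ _ fun a _ => (hx a a).1
  exact (h1.symm.cfc_real f).symm

theorem cx_z₂ (f : ℝ → ℝ) : Commute x (toB (z₂ (comm_tt hc) f)) := by
  have h1 : Commute x (tt χ) := Commute.sum_right _ _ _ fun a _ => (hx a a).2
  exact (h1.symm.cfc_real f).symm

theorem cx_iC : Commute x (toB (iC (tt φ) (tt χ))) := (Algebra.commutes _ _).symm

theorem cx_p (i j : Fin n) : Commute x (pD hφ hc i j : B) :=
  commute_coe_smul (cx_z₁ hc hx _) (hx i j).1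

theorem cx_X (i j : Fin n) : Commute x (XD hχ hc i j : B) :=
  commute_coe_smul (cx_z₂ hc hx _) (hx i j).2

theorem cx_L (i j : Fin n) : Commute x (LD hφ hχ hc i j : B) := by
  unfold LD JoinAlg.L
  rw [AddSubmonoidClass.coe_finsetSum]
  exact Commute.sum_right _ _ _ fun k _ => (cx_p hφ hc hx k j).mul_right (cx_X hχ hc hx i k)

theorem cx_M (i j : Fin n) : Commute x (MD hφ hχ hc i j : B) := by
  unfold MD JoinAlg.M
  rw [AddSubmonoidClass.coe_finsetSum]
  exact Commute.sum_right _ _ _ fun k _ => (cx_p hφ hc hx i k).mul_right (cx_X hχ hc hx k j)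

theorem cx_G : Commute x (GD hφ hχ hc : B) := by
  unfold GD JoinAlg.G
  rw [AddSubmonoidClass.coe_finsetSum]
  exact Commute.sum_right _ _ _ fun k _ => cx_L hφ hχ hc hx k k

theorem cx_Ψ (i j : Fin n) : Commute x (ΨD hφ hχ hc i j : B) := by
  have hρ := cx_z₁ hc hx ρf
  have hcc := cx_z₁ hc hx cf
  have hss := cx_z₁ hc hx sf
  have hr := cx_z₂ hc hx rf
  have hi := cx_iC hx
  have h1r : Commute x (toB (1 - z₂ (comm_tt hc) rf)) := (Commute.one_right x).sub_right hr
  have he := commute_toB_mul (commute_toB_mul hi hss) hcc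
  have ha : Commute x (toB (z₁ (comm_tt hc) ρf * (1 - z₂ (comm_tt hc) rf) +
      z₁ (comm_tt hc) cf * z₁ (comm_tt hc) cf * z₂ (comm_tt hc) rf)) :=
    (commute_toB_mul hρ h1r).add_right (commute_toB_mul (commute_toB_mul hcc hcc) hr)
  have h1 := commute_coe_smul ha (cx_p hφ hc hx i j)
  have h2 := commute_coe_smul (commute_toB_mul hss hss) (cx_X hχ hc hx i j)
  have h3 := commute_coe_smul he (cx_L hφ hχ hc hx i j)
  have h4 := commute_coe_smul he (cx_M hφ hχ hc hx i j)
  exact ((h1.add_right h2).add_right h3).sub_right h4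

theorem cx_W : Commute x (WD hφ hχ hc : B) := by
  have h1 := commute_coe_smul (cx_z₁ hc hx sf) (b := (1 : D (tt φ) (tt χ)))
    (Commute.one_right x)
  have h2 := commute_coe_smul (commute_toB_mul (cx_iC hx) (cx_z₁ hc hx cf))
    (cx_G hφ hχ hc hx)
  exact h1.sub_right h2

end comm

/-! ### the weight -/

theorem ΨD_sum : ∑ a, (ΨD hφ hχ hc a a : B) =
    toB (z₁ (comm_tt hc) ρf * (1 - z₂ (comm_tt hc) rf) + z₂ (comm_tt hc) rf) := by
  have h := JoinAlg.Psi_sum (dat hφ hχ hc) (relφ hc hφ)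
  have h1 := congrArg Subtype.val h
  rw [AddSubmonoidClass.coe_finsetSum] at h1
  refine h1.trans ?_
  show ((_ • (1 : D (tt φ) (tt χ)) : D (tt φ) (tt χ)) : B) = _
  rw [coe_smul']
  exact mul_one _

theorem toB_nonneg_z₁ {f : ℝ → ℝ} (hf : ∀ x ∈ spectrum ℝ (tt φ), 0 ≤ f x) :
    0 ≤ toB (z₁ (comm_tt hc) f) := cfc_nonneg hf

theorem toB_nonneg_z₂ {f : ℝ → ℝ} (hf : ∀ x ∈ spectrum ℝ (tt χ), 0 ≤ f x) :
    0 ≤ toB (z₂ (comm_tt hc) f) := cfc_nonneg hf

theorem one_sub_z₁ (hφ : IsOZ φ) {f : ℝ → ℝ} (hf : Continuous f) :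
    1 - z₁ (comm_tt hc) f = z₁ (comm_tt hc) fun x => 1 - f x := by
  have : IsSelfAdjoint (tt φ) := .of_nonneg hφ.nonneg
  apply toB_inj
  rw [toB_sub, toB_one, toB_z₁, toB_z₁,
    cfc_sub (fun _ => (1 : ℝ)) f (tt φ) continuousOn_const hf.continuousOn,
    cfc_const_one ℝ (tt φ)]

theorem one_sub_z₂ (hχ : IsOZ χ) {f : ℝ → ℝ} (hf : Continuous f) :
    1 - z₂ (comm_tt hc) f = z₂ (comm_tt hc) fun x => 1 - f x := by
  have : IsSelfAdjoint (tt χ) := .of_nonneg hχ.nonneg
  apply toB_inj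
  rw [toB_sub, toB_one, toB_z₂, toB_z₂,
    cfc_sub (fun _ => (1 : ℝ)) f (tt χ) continuousOn_const hf.continuousOn,
    cfc_const_one ℝ (tt χ)]

include hχ in
theorem T_nonneg : 0 ≤ toB (z₁ (comm_tt hc) ρf * (1 - z₂ (comm_tt hc) rf) +
    z₂ (comm_tt hc) rf) := by
  rw [one_sub_z₂ hc hχ continuous_rf, toB_add]
  refine add_nonneg ?_ ?_
  · refine Commute.mul_nonneg (toB_nonneg_z₁ hc fun x _ => cl_nonneg _)
      (toB_nonneg_z₂ hc fun x hx => ?_) ?_
    · have := rf_le_one (spectrum_nonneg_of_nonneg hχ.nonneg hx)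
      linarith
    · exact toB_commute _ (z₂ (comm_tt hc) _ : D (tt φ) (tt χ))
  · exact toB_nonneg_z₂ hc fun x hx => rf_nonneg (spectrum_nonneg_of_nonneg hχ.nonneg hx)

include hφ hχ in
theorem T_le_one : toB (z₁ (comm_tt hc) ρf * (1 - z₂ (comm_tt hc) rf) +
    z₂ (comm_tt hc) rf) ≤ 1 := by
  have h1 : z₁ (comm_tt hc) ρf * (1 - z₂ (comm_tt hc) rf) + z₂ (comm_tt hc) rf =
      1 - (1 - z₁ (comm_tt hc) ρf) * (1 - z₂ (comm_tt hc) rf) := by ring
  rw [h1, toB_sub, toB_one, sub_le_self_iff, one_sub_z₂ hc hχ continuous_rf,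
    one_sub_z₁ hc hφ continuous_ρf]
  refine Commute.mul_nonneg (toB_nonneg_z₁ hc fun x _ => ?_)
      (toB_nonneg_z₂ hc fun x hx => ?_) ?_
  · have := cl_le_one (6 * x - 4)
    show 0 ≤ 1 - cl (6 * x - 4)
    linarith
  · have := rf_le_one (spectrum_nonneg_of_nonneg hχ.nonneg hx)
    linarith
  · exact toB_commute _ (z₂ (comm_tt hc) _ : D (tt φ) (tt χ))

theorem isOZ_ΨD : IsOZ (fun i j => (ΨD hφ hχ hc i j : B)) where
  star_apply := star_ΨD hφ hχ hc
  mul_apply := by
    intro i j k l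
    have h := JoinAlg.Psi_mul (dat hφ hχ hc) (relφ hc hφ) i j k l
    have h1 := congrArg Subtype.val h
    rw [ΨD_sum]
    refine h1.trans ?_
    by_cases hjk : j = k
    · rw [if_pos hjk, if_pos hjk]
      rfl
    · rw [if_neg hjk, if_neg hjk]
      rfl
  nonneg := by
    rw [ΨD_sum]
    exact T_nonneg hχ hc
  le_one := by
    rw [ΨD_sum]
    exact T_le_one hφ hχ hc

end main

end Join

open Join in
theorem IsOZ.join {n : ℕ} {φ χ : Fin n → Fin n → B} (hφ : IsOZ φ) (hχ : IsOZ χ)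
    (hc : ∀ i j k l, Commute (φ i j) (χ k l)) :
    ∃ (ψ : Fin n → Fin n → B) (W : B), IsOZ ψ ∧
      (∀ x, (∀ i j, Commute x (φ i j) ∧ Commute x (χ i j)) →
        (∀ i j, Commute x (ψ i j)) ∧ Commute x W) ∧
      (∀ x, (∑ a, φ a a) * x = x → ∀ i j, ψ i j * x = φ i j * x) ∧
      (∀ x, (∑ a, χ a a) * x = x → star W * (W * x) = x ∧
        ∀ i j, ψ i j * (W * x) = W * (χ i j * x)) ∧
      (∑ a, ψ a a) * cfc g0 (∑ a, χ a a) = cfc g0 (∑ a, χ a a) := by
  have hs₁ : IsSelfAdjoint (tt φ) := .of_nonneg hφ.nonneg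
  have hs₂ : IsSelfAdjoint (tt χ) := .of_nonneg hχ.nonneg
  refine ⟨fun i j => (ΨD hφ hχ hc i j : B), (WD hφ hχ hc : B), isOZ_ΨD hφ hχ hc,
    fun x hx => ⟨cx_Ψ hφ hχ hc hx, cx_W hφ hχ hc hx⟩, ?_, ?_, ?_⟩
  · intro x hx i j
    have hsx : toB (z₁ (comm_tt hc) sf) * x = 0 :=
      cfc_kill hs₁ hx continuous_sf fun y hy => sf_of_ge (by linarith)
    have hρx : toB (1 - z₁ (comm_tt hc) ρf) * x = 0 := by
      rw [one_sub_z₁ hc hφ continuous_ρf]
      exact cfc_kill hs₁ hx (continuous_const.sub continuous_ρf) fun y hy => by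
        rw [ρf_of_ge hy, sub_self]
    have hlx : toB (z₁ (comm_tt hc) lam) * x = x := by
      have h1 : toB (z₁ (comm_tt hc) qf) * x = x :=
        cfc_fix hs₁ hx continuous_qf fun y hy => qf_of_le (by linarith)
      rw [q_eq hc, mul_comm, toB_mul, toB_τ₁ hc hφ, mul_assoc, hx] at h1
      exact h1
    have h1 := congrArg Subtype.val (JoinAlg.Psi_sub (p := pD hφ hc) (X := XD hχ hc)
      (relφ hc hφ) i j)
    rw [AddSubgroupClass.coe_sub, AddMemClass.coe_add] at h1
    have h2 := congrArg (fun y => y * x) h1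
    rw [add_mul, smul_coe_mul_eq_zero hρx, smul_coe_mul_eq_zero hsx, add_zero, sub_mul,
      sub_eq_zero] at h2
    refine h2.trans ?_
    show ((z₁ (comm_tt hc) lam • φD hφ hc i j : D (tt φ) (tt χ)) : B) * x = φ i j * x
    rw [coe_smul', (toB_commute _ _).eq, mul_assoc, hlx]
    rfl
  · intro x hx
    have hrx' : toB (z₂ (comm_tt hc) rf) * x = x :=
      cfc_fix hs₂ hx continuous_rf fun y hy => rf_of_le (by linarith)
    have hrx : toB (1 - z₂ (comm_tt hc) rf) * x = 0 := by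
      rw [toB_sub, toB_one, sub_mul, one_mul, hrx', sub_self]
    have hlx : toB (z₂ (comm_tt hc) rh) * x = x := by
      have h1 := hrx'
      rw [r_eq hc, mul_comm, toB_mul, toB_τ₂ hc hχ, mul_assoc, hx] at h1
      exact h1
    constructor
    · rw [← mul_assoc, star_WD]
      have h1 := congrArg Subtype.val (JoinAlg.W_star_mul (dat hφ hχ hc) (relφ hc hφ))
      have h2 : ∀ y : B, y = toB (z₁ (comm_tt hc) sf * z₁ (comm_tt hc) sf +
          z₁ (comm_tt hc) cf * z₁ (comm_tt hc) cf * z₂ (comm_tt hc) rf *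
            z₂ (comm_tt hc) rf) * 1 → y * x = x := by
        intro y hy
        have h3 : z₁ (comm_tt hc) sf * z₁ (comm_tt hc) sf +
            z₁ (comm_tt hc) cf * z₁ (comm_tt hc) cf * z₂ (comm_tt hc) rf *
            z₂ (comm_tt hc) rf = 1 - z₁ (comm_tt hc) cf * z₁ (comm_tt hc) cf *
              (1 + z₂ (comm_tt hc) rf) * (1 - z₂ (comm_tt hc) rf) := by
          linear_combination (relφ hc hφ).cs
        rw [hy, h3, mul_one, toB_sub, toB_one, toB_mul, sub_mul, mul_assoc, hrx, mul_zero,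
          one_mul, sub_zero]
      exact h2 _ h1
    · intro i j
      have h1 := congrArg Subtype.val (JoinAlg.Psi_W (dat hφ hχ hc) (relφ hc hφ) i j)
      rw [AddSubgroupClass.coe_sub, coe_smul'] at h1
      have h2 := congrArg (fun y => y * x) h1
      rw [(toB_commute (1 - z₂ (comm_tt hc) rf) _).eq, mul_assoc, hrx, mul_zero, sub_mul,
        sub_eq_zero] at h2
      have h3 : (ΨD hφ hχ hc i j : B) * (WD hφ hχ hc : B) * x =
          (WD hφ hχ hc : B) * (XD hχ hc i j : B) * x := h2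
      rw [← mul_assoc]
      show (ΨD hφ hχ hc i j : B) * (WD hφ hχ hc : B) * x = _
      rw [h3, mul_assoc]
      congr 1
      show ((z₂ (comm_tt hc) rh • χD hχ hc i j : D (tt φ) (tt χ)) : B) * x = χ i j * x
      rw [coe_smul', (toB_commute _ _).eq, mul_assoc, hlx]
      rfl
  · have h1 : (z₁ (comm_tt hc) ρf * (1 - z₂ (comm_tt hc) rf) + z₂ (comm_tt hc) rf) *
        z₂ (comm_tt hc) g0 = z₂ (comm_tt hc) g0 := by
      have h2 : z₂ (comm_tt hc) rf * z₂ (comm_tt hc) g0 = z₂ (comm_tt hc) g0 := by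
        rw [z₂_mul (comm_tt hc) continuous_rf continuous_g0]
        congr 1
        exact funext rg_rel
      linear_combination (1 - z₁ (comm_tt hc) ρf) * h2
    rw [ΨD_sum hφ hχ hc]
    exact congrArg toB h1

end Vale.Agent.P101
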