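import Vale.Agent.P101.Wielandt

/-!
# P101, Step 2: uniform non-scalarity modulo maximal ideals, and spectral bumps
-/

namespace Vale.Agent.P101

open Finset Topology

section Uniform

variable {E : Type*} [NormedRing E] [NormedAlgebra ℂ E] [CompleteSpace E]

omit [NormedAlgebra ℂ E] in
theorem one_le_qn_one {M : TwoSidedIdeal E} (hM : IsCoatom M) : 1 ≤ qn M (1 : E) := by
  by_contra hlt
  push Not at hlt
  have hpos : 0 < 1 - qn M (1 : E) := by linarith
  obtain ⟨m, hm, h⟩ := qn_exists M (1 : E) hpos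
  have h1 : ‖1 - m‖ < 1 := by linarith
  apply one_sub_notMem hM h1
  simpa using hm

omit [NormedAlgebra ℂ E] [CompleteSpace E] in
theorem qn_add_le (M : TwoSidedIdeal E) (z w : E) : qn M (z + w) ≤ qn M z + qn M w := by
  refine le_of_forall_pos_le_add fun ε hε => ?_
  have hε' : 0 < ε / 2 := by positivity
  obtain ⟨m, hm, hlt⟩ := qn_exists M z hε'
  obtain ⟨m', hm', hlt'⟩ := qn_exists M w hε'
  have h1 := qn_le M (z + w) (M.add_mem hm hm')
  have e : z + w - (m + m') = (z - m) + (w - m') := by abel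
  rw [e] at h1
  have := norm_add_le (z - m) (w - m')
  linarith

omit [NormedAlgebra ℂ E] [CompleteSpace E] in
theorem qn_zero (M : TwoSidedIdeal E) : qn M (0 : E) = 0 := by
  refine le_antisymm ?_ (qn_nonneg M _)
  simpa using qn_le M (0 : E) M.zero_mem

omit [NormedAlgebra ℂ E] [CompleteSpace E] in
theorem qn_sum_le (M : TwoSidedIdeal E) {κ : Type*} (s : Finset κ) (f : κ → E) :
    qn M (∑ i ∈ s, f i) ≤ ∑ i ∈ s, qn M (f i) := by
  classical
  induction s using Finset.induction_on with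
  | empty => simp [qn_zero]
  | insert a s ha ih =>
    rw [Finset.sum_insert ha, Finset.sum_insert ha]
    exact (qn_add_le M _ _).trans (by linarith)

omit [NormedAlgebra ℂ E] [CompleteSpace E] in
theorem qn_le_norm (M : TwoSidedIdeal E) (z : E) : qn M z ≤ ‖z‖ := by
  simpa using qn_le M z M.zero_mem

/-- `b` is at distance at least `δ` from all the scalars of `[0, 1]` modulo every maximal ideal. -/
def UniformNonScalar (δ : ℝ) (b : E) : Prop :=
  ∀ M : TwoSidedIdeal E, IsCoatom M → ∀ r ∈ Set.Icc (0 : ℝ) 1, δ ≤ qn M (b - (r : ℂ) • (1 : E))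

omit [CompleteSpace E] in
/-- **Step 2**: an element which is not a scalar modulo any maximal ideal is uniformly non-scalar,
also in all the algebras to which `E` maps. -/
theorem exists_uniformNonScalar (a : E)
    (h : ∀ M : TwoSidedIdeal E, IsCoatom M → ∀ c : ℂ, a - c • (1 : E) ∉ M) :
    ∃ δ : ℝ, 0 < δ ∧ ∀ (G : Type*) [NormedRing G] [NormedAlgebra ℂ G] [CompleteSpace G]
      [NormOneClass G] (Φ : E →ₐ[ℂ] G), (∀ x, ‖Φ x‖ ≤ ‖x‖) → UniformNonScalar δ (Φ a) := by
  have key : ∃ δ : ℝ, 0 < δ ∧ ∀ r ∈ Set.Icc (0 : ℝ) 1, ∀ (G : Type _) [NormedRing G]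
      [NormedAlgebra ℂ G] [CompleteSpace G] [NormOneClass G] (Φ : E →ₐ[ℂ] G),
      (∀ x, ‖Φ x‖ ≤ ‖x‖) → ∀ M : TwoSidedIdeal G, IsCoatom M →
      δ ≤ qn M (Φ a - (r : ℂ) • (1 : G)) := by
    refine isCompact_Icc.induction_on (p := fun s : Set ℝ => ∃ δ : ℝ, 0 < δ ∧ ∀ r ∈ s,
      ∀ (G : Type _) [NormedRing G] [NormedAlgebra ℂ G] [CompleteSpace G] [NormOneClass G]
      (Φ : E →ₐ[ℂ] G), (∀ x, ‖Φ x‖ ≤ ‖x‖) → ∀ M : TwoSidedIdeal G, IsCoatom M →
      δ ≤ qn M (Φ a - (r : ℂ) • (1 : G))) ?_ ?_ ?_ ?_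
    · exact ⟨1, one_pos, fun r hr => absurd hr (Set.notMem_empty r)⟩
    · rintro s t hst ⟨C, hC, H⟩
      exact ⟨C, hC, fun r hr => H r (hst hr)⟩
    · rintro s t ⟨C, hC, H⟩ ⟨C', hC', H'⟩
      refine ⟨min C C', lt_min hC hC', ?_⟩
      rintro r (hr | hr) G _ _ _ _ Φ hΦ M hM
      · exact (min_le_left _ _).trans (H r hr G Φ hΦ M hM)
      · exact (min_le_right _ _).trans (H' r hr G Φ hΦ M hM)
    · intro r₀ _
      obtain ⟨n, u, v, h1⟩ := (isFull_iff (a - (r₀ : ℂ) • (1 : E))).2 (fun M hM => h M hM _)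
      set B : ℝ := ∑ i, ‖u i‖ * ‖v i‖ with hB
      have hB0 : 0 ≤ B := Finset.sum_nonneg fun i _ => by positivity
      have hη : 0 < 1 / (2 * (B + 1)) := by positivity
      refine ⟨Metric.ball r₀ (1 / (2 * (B + 1))),
        mem_nhdsWithin_of_mem_nhds (Metric.ball_mem_nhds _ hη), 1 / (2 * (B + 1)), hη, ?_⟩
      intro r hr G _ _ _ _ Φ hΦ M hM
      rw [Metric.mem_ball, Real.dist_eq] at hr
      have h2 : 1 ≤ (B + 1) * qn M (Φ a - (r₀ : ℂ) • (1 : G)) := by
        have e : ∑ i, Φ (u i) * (Φ a - (r₀ : ℂ) • (1 : G)) * Φ (v i) = 1 := by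
          have := congrArg Φ h1
          simpa only [map_sum, map_mul, map_sub, map_smul, map_one] using this
        calc (1 : ℝ) ≤ qn M (1 : G) := one_le_qn_one hM
          _ = qn M (∑ i, Φ (u i) * (Φ a - (r₀ : ℂ) • (1 : G)) * Φ (v i)) := by rw [e]
          _ ≤ ∑ i, qn M (Φ (u i) * (Φ a - (r₀ : ℂ) • (1 : G)) * Φ (v i)) := qn_sum_le M _ _
          _ ≤ ∑ i, (‖u i‖ * ‖v i‖) * qn M (Φ a - (r₀ : ℂ) • (1 : G)) := by
            refine Finset.sum_le_sum fun i _ => ?_
            have hq := qn_nonneg M (Φ a - (r₀ : ℂ) • (1 : G))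
            calc qn M (Φ (u i) * (Φ a - (r₀ : ℂ) • (1 : G)) * Φ (v i))
                ≤ qn M (Φ (u i) * (Φ a - (r₀ : ℂ) • (1 : G))) * ‖Φ (v i)‖ := qn_mul_right M _ _
              _ ≤ (‖Φ (u i)‖ * qn M (Φ a - (r₀ : ℂ) • (1 : G))) * ‖Φ (v i)‖ :=
                mul_le_mul_of_nonneg_right (qn_mul_left M _ _) (norm_nonneg _)
              _ = (‖Φ (u i)‖ * ‖Φ (v i)‖) * qn M (Φ a - (r₀ : ℂ) • (1 : G)) := by ring
              _ ≤ (‖u i‖ * ‖v i‖) * qn M (Φ a - (r₀ : ℂ) • (1 : G)) :=
                mul_le_mul_of_nonneg_right (mul_le_mul (hΦ _) (hΦ _) (norm_nonneg _)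
                  (norm_nonneg _)) hq
          _ = B * qn M (Φ a - (r₀ : ℂ) • (1 : G)) := by rw [← Finset.sum_mul]
          _ ≤ (B + 1) * qn M (Φ a - (r₀ : ℂ) • (1 : G)) := by
            have hq := qn_nonneg M (Φ a - (r₀ : ℂ) • (1 : G))
            linarith
      have h3 : qn M (Φ a - (r₀ : ℂ) • (1 : G)) ≤ qn M (Φ a - (r : ℂ) • (1 : G)) + |r - r₀| := by
        have e : Φ a - (r₀ : ℂ) • (1 : G)
            = (Φ a - (r : ℂ) • (1 : G)) + ((r - r₀ : ℝ) : ℂ) • (1 : G) := by
          rw [Complex.ofReal_sub, sub_smul]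
          abel
        rw [e]
        refine (qn_add_le M _ _).trans ?_
        have : qn M (((r - r₀ : ℝ) : ℂ) • (1 : G)) ≤ |r - r₀| := by
          refine (qn_le_norm M _).trans ?_
          rw [norm_smul, norm_one, mul_one, Complex.norm_real, Real.norm_eq_abs]
        linarith
      have h4 : 1 / (B + 1) ≤ qn M (Φ a - (r₀ : ℂ) • (1 : G)) := by
        rw [div_le_iff₀ (by positivity)]
        linarith
      have h5 : 1 / (B + 1) = 1 / (2 * (B + 1)) + 1 / (2 * (B + 1)) := by
        field_simp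
        norm_num
      linarith
  obtain ⟨δ, hδ, H⟩ := key
  exact ⟨δ, hδ, fun G _ _ _ _ Φ hΦ M hM r hr => H r hr G Φ hΦ M hM⟩

end Uniform

section Tent

/-- The step functions whose differences are the tent functions. -/
noncomputable def ramp (m : ℕ) (i : ℝ) (x : ℝ) : ℝ := min 1 (max 0 (m * x - i))

/-- The tent function of height one, centre `i / m` and support of radius `1 / m`. -/
noncomputable def tent (m : ℕ) (i : ℕ) (x : ℝ) : ℝ := ramp m ((i : ℝ) - 1) x - ramp m i x

theorem continuous_tent (m i : ℕ) : Continuous (tent m i) := by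
  unfold tent ramp
  fun_prop

theorem tent_nonneg (m i : ℕ) (x : ℝ) : 0 ≤ tent m i x := by
  unfold tent ramp
  rw [sub_nonneg]
  exact min_le_min le_rfl (max_le_max le_rfl (by linarith))

theorem tent_eq_zero (m i : ℕ) (x : ℝ) (h : 1 ≤ |m * x - i|) : tent m i x = 0 := by
  unfold tent ramp
  rcases le_abs.1 h with h | h
  · rw [min_eq_left, min_eq_left, sub_self]
    · exact le_max_of_le_right h
    · exact le_max_of_le_right (by linarith)
  · rw [max_eq_left, max_eq_left, sub_self] <;> linarith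

theorem sum_tent (m : ℕ) {x : ℝ} (hx : x ∈ Set.Icc (0 : ℝ) 1) :
    ∑ i ∈ range (m + 1), tent m i x = 1 := by
  have e : ∀ i ∈ range (m + 1), tent m i x
      = (fun j : ℕ => ramp m ((j : ℝ) - 1) x) i - (fun j : ℕ => ramp m ((j : ℝ) - 1) x) (i + 1) := by
    intro i _
    simp only [tent]
    push_cast
    rw [add_sub_cancel_right]
  rw [Finset.sum_congr rfl e, Finset.sum_range_sub']
  have hm : (0 : ℝ) ≤ m := Nat.cast_nonneg m
  have h1 : ramp m (((0 : ℕ) : ℝ) - 1) x = 1 := by
    unfold ramp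
    apply min_eq_left
    apply le_max_of_le_right
    have := mul_nonneg hm hx.1
    push_cast
    linarith
  have h2 : ramp m (((m + 1 : ℕ) : ℝ) - 1) x = 0 := by
    unfold ramp
    rw [max_eq_left]
    · exact min_eq_right (by norm_num)
    · push_cast
      nlinarith [hx.2]
  simp only [h1, h2, sub_zero]

end Tent

section Bump

variable {G : Type*} [CStarAlgebra G]

/-- Two spectral bumps at distance at least `δ` survive modulo every maximal ideal. -/
theorem exists_two_tents {a : G} (ha : IsSelfAdjoint a) (hsp : spectrum ℝ a ⊆ Set.Icc (0 : ℝ) 1)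
    {δ : ℝ} {m : ℕ} (hm : 0 < m) (hmδ : 2 ≤ m * δ)
    {M : TwoSidedIdeal G} (hM : IsCoatom M)
    (hns : ∀ r ∈ Set.Icc (0 : ℝ) 1, δ ≤ qn M (a - (r : ℂ) • (1 : G))) :
    ∃ i₀ i₁ : ℕ, i₀ ≤ i₁ ∧ i₁ ≤ m ∧ (m : ℝ) * δ ≤ (i₁ : ℝ) - i₀ ∧
      cfc (tent m i₀) a ∉ M ∧ cfc (tent m i₁) a ∉ M := by
  classical
  have hmr : (0 : ℝ) < m := by exact_mod_cast hm
  set I := (range (m + 1)).filter (fun i => cfc (tent m i) a ∉ M) with hI
  have hsum : ∑ i ∈ range (m + 1), cfc (tent m i) a = 1 := by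
    rw [← cfc_sum (tent m) a (range (m + 1)) (fun i _ => (continuous_tent m i).continuousOn)]
    rw [← cfc_const_one ℝ a]
    refine cfc_congr fun x hx => ?_
    simpa using sum_tent m (hsp hx)
  have hne : I.Nonempty := by
    by_contra hcon
    rw [Finset.not_nonempty_iff_eq_empty] at hcon
    apply one_notMem_of_isCoatom hM
    rw [← hsum]
    refine sum_mem fun i hi => ?_
    by_contra hni
    have : i ∈ I := mem_filter.2 ⟨hi, hni⟩
    rw [hcon] at this
    simp at this
  refine ⟨I.min' hne, I.max' hne, I.min'_le _ (I.max'_mem hne), ?_, ?_,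
    (mem_filter.1 (I.min'_mem hne)).2, (mem_filter.1 (I.max'_mem hne)).2⟩
  · have := mem_range.1 (mem_filter.1 (I.max'_mem hne)).1
    omega
  set i₀ := I.min' hne with hi₀
  set i₁ := I.max' hne with hi₁
  have h01 : i₀ ≤ i₁ := I.min'_le _ (I.max'_mem hne)
  have h1m : i₁ ≤ m := by
    have := mem_range.1 (mem_filter.1 (I.max'_mem hne)).1
    omega
  have h01r : (i₀ : ℝ) ≤ i₁ := by exact_mod_cast h01
  have h1mr : (i₁ : ℝ) ≤ m := by exact_mod_cast h1m
  have h0r : (0 : ℝ) ≤ i₀ := Nat.cast_nonneg _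
  set lam : ℝ := ((i₀ : ℝ) + i₁) / (2 * m) with hlam
  have hlamI : lam ∈ Set.Icc (0 : ℝ) 1 := by
    constructor
    · positivity
    · rw [hlam, div_le_one (by positivity)]
      linarith
  have hδ := hns lam hlamI
  set ρ : ℝ := ((i₁ : ℝ) - i₀) / (2 * m) + 1 / m with hρ
  have hρ0 : 0 ≤ ρ := by
    have : 0 ≤ (i₁ : ℝ) - i₀ := by linarith
    positivity
  have hle : qn M (a - (lam : ℂ) • (1 : G)) ≤ ρ := by
    have e0 : a - (lam : ℂ) • (1 : G) = cfc (fun x : ℝ => x - lam) a := by
      rw [cfc_sub (fun x : ℝ => x) (fun _ => lam) a, cfc_id' ℝ a, cfc_const lam a]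
      congr 1
      rw [Algebra.algebraMap_eq_smul_one]
      exact (RCLike.real_smul_eq_coe_smul (K := ℂ) lam (1 : G)).symm
    have hcont : ∀ s : Finset ℕ, Continuous (fun x : ℝ => ∑ i ∈ s, tent m i x) := by
      intro s
      exact continuous_finsetSum _ fun i _ => continuous_tent m i
    have e1 : cfc (fun x : ℝ => x - lam) a
        - cfc (fun x : ℝ => (x - lam) * ∑ i ∈ I, tent m i x) a
        = cfc (fun x : ℝ => x - lam) a
          * ∑ i ∈ (range (m + 1)).filter (fun i => ¬ cfc (tent m i) a ∉ M), cfc (tent m i) a := by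
      have h1 : cfc (fun x : ℝ => (x - lam) * ∑ i ∈ I, tent m i x) a
          = cfc (fun x : ℝ => x - lam) a * ∑ i ∈ I, cfc (tent m i) a := by
        rw [cfc_mul (fun x : ℝ => x - lam) (fun x => ∑ i ∈ I, tent m i x) a (by fun_prop)
          (hcont I).continuousOn]
        congr 1
        have := cfc_sum (tent m) a I (fun i _ => (continuous_tent m i).continuousOn)
        rw [← this]
        refine cfc_congr fun x _ => ?_
        simp
      have h2 := Finset.sum_filter_add_sum_filter_not (range (m + 1))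
        (fun i => cfc (tent m i) a ∉ M) (fun i => cfc (tent m i) a)
      rw [hsum] at h2
      rw [h1, ← hI] at *
      rw [← hI] at h2
      have h3 : ∑ i ∈ (range (m + 1)).filter (fun i => ¬ cfc (tent m i) a ∉ M), cfc (tent m i) a
          = 1 - ∑ i ∈ I, cfc (tent m i) a := by
        rw [← h2]
        abel
      rw [h3, mul_sub, mul_one]
    have hmem : a - (lam : ℂ) • (1 : G)
        - cfc (fun x : ℝ => (x - lam) * ∑ i ∈ I, tent m i x) a ∈ M := by
      rw [e0, e1]
      refine M.mul_mem_left _ _ (sum_mem fun i hi => ?_)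
      exact not_not.1 (mem_filter.1 hi).2
    rw [qn_congr M hmem]
    refine (qn_le_norm M _).trans ?_
    refine norm_cfc_le hρ0 fun x hx => ?_
    have hx01 := hsp hx
    rw [Real.norm_eq_abs, abs_mul, Finset.abs_sum_of_nonneg (fun i _ => tent_nonneg m i x),
      Finset.mul_sum]
    calc ∑ i ∈ I, |x - lam| * tent m i x ≤ ∑ i ∈ I, ρ * tent m i x := by
          refine Finset.sum_le_sum fun i hi => ?_
          by_cases h : 1 ≤ |m * x - i|
          · rw [tent_eq_zero m i x h]
            simp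
          · refine mul_le_mul_of_nonneg_right ?_ (tent_nonneg m i x)
            push Not at h
            have hi0 : (i₀ : ℝ) ≤ i := by exact_mod_cast I.min'_le i hi
            have hi1 : (i : ℝ) ≤ i₁ := by exact_mod_cast I.le_max' i hi
            rw [abs_lt] at h
            have key : |x - lam| * (2 * m) ≤ ρ * (2 * m) := by
              have e1 : ρ * (2 * m) = (i₁ - i₀) + 2 := by
                rw [hρ]
                field_simp
              have e2 : |x - lam| * (2 * m) = |2 * (m * x) - (i₀ + i₁)| := by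
                rw [← abs_of_pos (show (0 : ℝ) < 2 * m by positivity), ← abs_mul, hlam]
                congr 1
                field_simp
              rw [e1, e2, abs_le]
              constructor <;> linarith
            exact le_of_mul_le_mul_right key (by positivity)
      _ = ρ * ∑ i ∈ I, tent m i x := by rw [Finset.mul_sum]
      _ ≤ ρ * 1 := by
          refine mul_le_mul_of_nonneg_left ?_ hρ0
          rw [← sum_tent m hx01]
          exact Finset.sum_le_sum_of_subset_of_nonneg (Finset.filter_subset _ _)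
            (fun i _ _ => tent_nonneg m i x)
      _ = ρ := mul_one ρ
  have hfin : δ ≤ ρ := hδ.trans hle
  have h5 : (m : ℝ) * δ ≤ m * ρ := mul_le_mul_of_nonneg_left hfin hmr.le
  have h6 : (m : ℝ) * ρ = ((i₁ : ℝ) - i₀) / 2 + 1 := by
    rw [hρ]
    field_simp
  linarith

end Bump

end Vale.Agent.P101
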