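import Vale.Agent.P101.ZP

/-!
# P101: a commutator in one of the algebras is not central modulo a maximal ideal
-/

namespace Vale.Agent.P101

section QuotNorm

variable {E : Type*} [NormedRing E]

/-- The quotient norm of `z` modulo `M`. -/
noncomputable def qn (M : TwoSidedIdeal E) (z : E) : ℝ := Metric.infDist z (M : Set E)

theorem ideal_nonempty (M : TwoSidedIdeal E) : (M : Set E).Nonempty := ⟨0, M.zero_mem⟩

theorem qn_nonneg (M : TwoSidedIdeal E) (z : E) : 0 ≤ qn M z := Metric.infDist_nonneg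

theorem qn_exists (M : TwoSidedIdeal E) (z : E) {ε : ℝ} (hε : 0 < ε) :
    ∃ m ∈ M, ‖z - m‖ < qn M z + ε := by
  have : Metric.infDist z (M : Set E) < qn M z + ε := by
    unfold qn
    linarith
  obtain ⟨m, hm, h⟩ := (Metric.infDist_lt_iff (ideal_nonempty M)).1 this
  exact ⟨m, hm, by rwa [← dist_eq_norm]⟩

theorem qn_le (M : TwoSidedIdeal E) (z : E) {m : E} (hm : m ∈ M) : qn M z ≤ ‖z - m‖ := by
  rw [← dist_eq_norm]
  exact Metric.infDist_le_dist_of_mem hm

theorem qn_le_of_sub_mem (M : TwoSidedIdeal E) {z w : E} (h : z - w ∈ M) : qn M z ≤ qn M w := by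
  refine le_of_forall_pos_le_add fun ε hε => ?_
  obtain ⟨m, hm, hlt⟩ := qn_exists M w hε
  have h2 : m + (z - w) ∈ M := M.add_mem hm h
  have := qn_le M z h2
  have e : z - (m + (z - w)) = w - m := by abel
  rw [e] at this
  linarith

theorem qn_congr (M : TwoSidedIdeal E) {z w : E} (h : z - w ∈ M) : qn M z = qn M w := by
  refine le_antisymm (qn_le_of_sub_mem M h) (qn_le_of_sub_mem M ?_)
  have := M.neg_mem h
  rwa [neg_sub] at this

theorem qn_mul_left (M : TwoSidedIdeal E) (a z : E) : qn M (a * z) ≤ ‖a‖ * qn M z := by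
  refine le_of_forall_pos_le_add fun ε hε => ?_
  have hε' : 0 < ε / (‖a‖ + 1) := by positivity
  obtain ⟨m, hm, hlt⟩ := qn_exists M z hε'
  have h1 := qn_le M (a * z) (M.mul_mem_left a m hm)
  rw [← mul_sub] at h1
  have h2 := norm_mul_le a (z - m)
  have h3 : ‖a‖ * ‖z - m‖ ≤ ‖a‖ * (qn M z + ε / (‖a‖ + 1)) :=
    mul_le_mul_of_nonneg_left hlt.le (norm_nonneg a)
  have h4 : ‖a‖ * (ε / (‖a‖ + 1)) ≤ ε := by
    rw [mul_div_assoc', div_le_iff₀ (by positivity)]
    nlinarith [norm_nonneg a]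
  rw [mul_add] at h3
  linarith

theorem qn_mul_right (M : TwoSidedIdeal E) (z a : E) : qn M (z * a) ≤ qn M z * ‖a‖ := by
  refine le_of_forall_pos_le_add fun ε hε => ?_
  have hε' : 0 < ε / (‖a‖ + 1) := by positivity
  obtain ⟨m, hm, hlt⟩ := qn_exists M z hε'
  have h1 := qn_le M (z * a) (M.mul_mem_right m a hm)
  rw [← sub_mul] at h1
  have h2 := norm_mul_le (z - m) a
  have h3 : ‖z - m‖ * ‖a‖ ≤ (qn M z + ε / (‖a‖ + 1)) * ‖a‖ :=
    mul_le_mul_of_nonneg_right hlt.le (norm_nonneg a)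
  have h4 : (ε / (‖a‖ + 1)) * ‖a‖ ≤ ε := by
    rw [div_mul_eq_mul_div, div_le_iff₀ (by positivity)]
    nlinarith [norm_nonneg a]
  rw [add_mul] at h3
  linarith

theorem qn_sub_le (M : TwoSidedIdeal E) (z w : E) : qn M (z - w) ≤ qn M z + qn M w := by
  refine le_of_forall_pos_le_add fun ε hε => ?_
  have hε' : 0 < ε / 2 := by positivity
  obtain ⟨m, hm, hlt⟩ := qn_exists M z hε'
  obtain ⟨m', hm', hlt'⟩ := qn_exists M w hε'
  have h1 := qn_le M (z - w) (M.sub_mem hm hm')
  have e : z - w - (m - m') = (z - m) - (w - m') := by abel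
  rw [e] at h1
  have := norm_sub_le (z - m) (w - m')
  linarith

theorem qn_nsmul [NormedAlgebra ℂ E] (M : TwoSidedIdeal E) (n : ℕ) (z : E) :
    qn M ((n : ℂ) • z) = n * qn M z := by
  rcases Nat.eq_zero_or_pos n with rfl | hn
  · simp only [Nat.cast_zero, zero_smul, zero_mul]
    refine le_antisymm ?_ (qn_nonneg M _)
    simpa using qn_le M (0 : E) M.zero_mem
  have hn' : (n : ℂ) ≠ 0 := by exact_mod_cast hn.ne'
  have hnr : (0 : ℝ) < n := by exact_mod_cast hn
  refine le_antisymm ?_ ?_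
  · refine le_of_forall_pos_le_add fun ε hε => ?_
    have hε' : 0 < ε / n := by positivity
    obtain ⟨m, hm, hlt⟩ := qn_exists M z hε'
    have h1 := qn_le M ((n : ℂ) • z) (smul_mem_ideal M (n : ℂ) hm)
    rw [← smul_sub, norm_smul] at h1
    have h2 : ‖(n : ℂ)‖ = n := by simp
    rw [h2] at h1
    have h3 : (n : ℝ) * ‖z - m‖ ≤ n * (qn M z + ε / n) :=
      mul_le_mul_of_nonneg_left hlt.le hnr.le
    have h4 : (n : ℝ) * (qn M z + ε / n) = n * qn M z + ε := by field_simp
    linarith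
  · refine le_of_forall_pos_le_add fun ε hε => ?_
    obtain ⟨m, hm, hlt⟩ := qn_exists M ((n : ℂ) • z) hε
    have h1 := qn_le M z (smul_mem_ideal M ((n : ℂ)⁻¹) hm)
    have e : z - (n : ℂ)⁻¹ • m = (n : ℂ)⁻¹ • ((n : ℂ) • z - m) := by
      rw [smul_sub, smul_smul, inv_mul_cancel₀ hn', one_smul]
    rw [e, norm_smul, norm_inv] at h1
    have h2 : ‖(n : ℂ)‖ = n := by simp
    rw [h2] at h1
    have h3 : (n : ℝ) * qn M z ≤ n * ((n : ℝ)⁻¹ * ‖(n : ℂ) • z - m‖) :=
      mul_le_mul_of_nonneg_left h1 hnr.le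
    rw [← mul_assoc, mul_inv_cancel₀ hnr.ne', one_mul] at h3
    linarith

theorem mem_of_qn_eq_zero {M : TwoSidedIdeal E} (hM : IsClosed (M : Set E)) {z : E}
    (h : qn M z = 0) : z ∈ M := by
  have : z ∈ closure (M : Set E) :=
    (Metric.mem_closure_iff_infDist_zero (ideal_nonempty M)).2 h
  rwa [hM.closure_eq] at this

end QuotNorm

variable {ι : Type*} {E : Type*} [NormedRing E] [NormedAlgebra ℂ E] [CompleteSpace E]

/-- Wielandt's argument modulo a maximal ideal: a commutator which is central modulo a maximal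
ideal belongs to it. -/
theorem commutator_mem_of_central {M : TwoSidedIdeal E} (hM : IsCoatom M) {x y : E}
    (hc : ∀ e : E, e * (x * y - y * x) - (x * y - y * x) * e ∈ M) : x * y - y * x ∈ M := by
  by_contra hk
  set k := x * y - y * x with hkdef
  clear_value k
  -- `k` has a left inverse modulo `M`
  obtain ⟨e, he⟩ : ∃ e, 1 - e * k ∈ M := by
    let J : TwoSidedIdeal E := TwoSidedIdeal.mk' {z | ∃ e, z - e * k ∈ M}
      ⟨0, by simp [M.zero_mem]⟩
      (fun {a b} ⟨e, he⟩ ⟨e', he'⟩ => ⟨e + e', by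
        have := M.add_mem he he'
        have h2 : a + b - (e + e') * k = a - e * k + (b - e' * k) := by noncomm_ring
        rwa [h2]⟩)
      (fun {a} ⟨e, he⟩ => ⟨-e, by
        have := M.neg_mem he
        have h2 : -a - (-e) * k = -(a - e * k) := by noncomm_ring
        rwa [h2]⟩)
      (fun {a b} ⟨e, he⟩ => ⟨a * e, by
        have := M.mul_mem_left a _ he
        have h2 : a * b - (a * e) * k = a * (b - e * k) := by noncomm_ring
        rwa [h2]⟩)
      (fun {a b} ⟨e, he⟩ => ⟨e * b, by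
        have h1 := M.mul_mem_right _ b he
        have h3 := M.mul_mem_left e _ (hc b)
        have h4 := M.sub_mem h1 h3
        have h2 : a * b - (e * b) * k = (a - e * k) * b - e * (b * k - k * b) := by noncomm_ring
        rwa [h2]⟩)
    have hJ : ∀ z, z ∈ J ↔ ∃ e, z - e * k ∈ M := fun z => TwoSidedIdeal.mem_mk' ..
    have hlt : M < J := by
      refine lt_of_le_of_ne ?_ ?_
      · intro z hz
        exact (hJ z).2 ⟨0, by simpa using hz⟩
      · intro hMJ
        apply hk
        rw [hMJ]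
        exact (hJ k).2 ⟨1, by simp [M.zero_mem]⟩
    exact (hJ 1).1 (J.one_mem_iff.2 (hM.2 J hlt))
  -- the commutator with powers of `y`
  have hpow : ∀ m : ℕ, x * y ^ (m + 1) - y ^ (m + 1) * x - ((m + 1 : ℕ) : ℂ) • (k * y ^ m) ∈ M := by
    intro m
    induction m with
    | zero =>
      simp [hkdef, M.zero_mem]
    | succ m ih =>
      have h1 := M.mul_mem_right _ y ih
      have h2 := hc (y ^ (m + 1))
      have h3 := M.add_mem h1 h2
      have e1 : x * y ^ (m + 1 + 1) - y ^ (m + 1 + 1) * x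
          - ((m + 1 + 1 : ℕ) : ℂ) • (k * y ^ (m + 1))
          = (x * y ^ (m + 1) - y ^ (m + 1) * x - ((m + 1 : ℕ) : ℂ) • (k * y ^ m)) * y
            + (y ^ (m + 1) * k - k * y ^ (m + 1)) := by
        have : ((m + 1 + 1 : ℕ) : ℂ) • (k * y ^ (m + 1))
            = ((m + 1 : ℕ) : ℂ) • (k * y ^ (m + 1)) + k * y ^ (m + 1) := by
          rw [Nat.cast_succ (m + 1), add_smul, one_smul]
        have e2 : y ^ (m + 1) * k = y ^ (m + 1) * x * y - y ^ (m + 1) * y * x := by
          rw [hkdef]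
          noncomm_ring
        have e3 : k * y ^ m * y = k * y ^ (m + 1) := by rw [mul_assoc, ← pow_succ]
        rw [this, sub_mul, smul_mul_assoc, e2, e3, sub_mul, pow_succ y (m + 1), ← mul_assoc]
        abel
      rw [e1]
      exact h3
  -- some power of `y` is in `M`
  have hex : ∃ m : ℕ, y ^ m ∈ M := by
    obtain ⟨m, hm⟩ := exists_nat_gt (‖e‖ * (2 * ‖x‖ * ‖y‖))
    refine ⟨m, mem_of_qn_eq_zero (isClosed_of_isCoatom hM) ?_⟩
    have hq := qn_nonneg M (y ^ m)
    have h1 : qn M (y ^ m) ≤ ‖e‖ * qn M (k * y ^ m) := by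
      refine le_trans (le_of_eq ?_) (qn_mul_left M e (k * y ^ m))
      apply qn_congr
      have := M.mul_mem_right _ (y ^ m) he
      have e2 : y ^ m - e * (k * y ^ m) = (1 - e * k) * y ^ m := by noncomm_ring
      rwa [e2]
    have h2 : ((m + 1 : ℕ) : ℝ) * qn M (k * y ^ m) ≤ 2 * ‖x‖ * ‖y‖ * qn M (y ^ m) := by
      rw [← qn_nsmul, ← qn_congr M (hpow m)]
      refine (qn_sub_le M _ _).trans ?_
      have a1 := qn_mul_left M x (y ^ (m + 1))
      have a2 := qn_mul_right M (y ^ (m + 1)) x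
      have a3 : qn M (y ^ (m + 1)) ≤ ‖y‖ * qn M (y ^ m) := by
        rw [pow_succ']
        exact qn_mul_left M y (y ^ m)
      have a4 : ‖x‖ * qn M (y ^ (m + 1)) ≤ ‖x‖ * (‖y‖ * qn M (y ^ m)) :=
        mul_le_mul_of_nonneg_left a3 (norm_nonneg x)
      nlinarith
    by_contra hne
    have hpos : 0 < qn M (y ^ m) := lt_of_le_of_ne hq (Ne.symm hne)
    have h3 : ((m + 1 : ℕ) : ℝ) * qn M (y ^ m)
        ≤ ‖e‖ * (2 * ‖x‖ * ‖y‖ * qn M (y ^ m)) := by
      calc ((m + 1 : ℕ) : ℝ) * qn M (y ^ m)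
          ≤ ((m + 1 : ℕ) : ℝ) * (‖e‖ * qn M (k * y ^ m)) :=
            mul_le_mul_of_nonneg_left h1 (by positivity)
        _ = ‖e‖ * (((m + 1 : ℕ) : ℝ) * qn M (k * y ^ m)) := by ring
        _ ≤ _ := mul_le_mul_of_nonneg_left h2 (norm_nonneg e)
    have h4 : ((m + 1 : ℕ) : ℝ) ≤ ‖e‖ * (2 * ‖x‖ * ‖y‖) := by
      have : ((m + 1 : ℕ) : ℝ) * qn M (y ^ m) ≤ (‖e‖ * (2 * ‖x‖ * ‖y‖)) * qn M (y ^ m) := by
        linarith
      exact le_of_mul_le_mul_right this hpos
    push_cast at h4
    linarith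
  -- descend to `1`
  have hdesc : ∀ m : ℕ, y ^ (m + 1) ∈ M → y ^ m ∈ M := by
    intro m hm
    have h1 := hpow m
    have h2 : x * y ^ (m + 1) - y ^ (m + 1) * x ∈ M :=
      M.sub_mem (M.mul_mem_left _ _ hm) (M.mul_mem_right _ _ hm)
    have h3 : ((m + 1 : ℕ) : ℂ) • (k * y ^ m) ∈ M := by
      have := M.sub_mem h2 h1
      rwa [sub_sub_cancel] at this
    have hne : ((m + 1 : ℕ) : ℂ) ≠ 0 := by exact_mod_cast Nat.succ_ne_zero m
    have h4 : k * y ^ m ∈ M := by
      have := smul_mem_ideal M (((m + 1 : ℕ) : ℂ)⁻¹) h3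
      rwa [smul_smul, inv_mul_cancel₀ hne, one_smul] at this
    have h5 := M.mul_mem_left e _ h4
    have h6 := M.mul_mem_right _ (y ^ m) he
    have h7 := M.add_mem h5 h6
    have : e * (k * y ^ m) + (1 - e * k) * y ^ m = y ^ m := by noncomm_ring
    rwa [this] at h7
  obtain ⟨m, hm⟩ := hex
  have h0 : y ^ 0 ∈ M := by
    induction m with
    | zero => exact hm
    | succ m ih => exact ih (hdesc m hm)
  rw [pow_zero] at h0
  exact one_notMem_of_isCoatom hM h0

/-- If `k = xy - yx` with `x, y ∈ D s` is not in the maximal ideal `M` then it does not commute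
modulo `M` with some element of `D s`. -/
theorem CommGen.exists_commutator_notMem {D : ι → Subalgebra ℂ E} (hD : CommGen D)
    {M : TwoSidedIdeal E} (hM : IsCoatom M) {s : ι} {x y : E} (hx : x ∈ D s) (hy : y ∈ D s)
    (hk : x * y - y * x ∉ M) :
    ∃ d ∈ D s, d * (x * y - y * x) - (x * y - y * x) * d ∉ M := by
  by_contra hcon
  push Not at hcon
  apply hk
  refine commutator_mem_of_central hM ?_
  have hks : x * y - y * x ∈ D s := (D s).sub_mem ((D s).mul_mem hx hy) ((D s).mul_mem hy hx)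
  generalize x * y - y * x = k at hks hcon
  let S : Subalgebra ℂ E :=
    { carrier := {e | e * k - k * e ∈ M}
      mul_mem' := by
        intro a b ha hb
        have h1 := M.mul_mem_left a _ hb
        have h2 := M.mul_mem_right _ b ha
        have h3 := M.add_mem h1 h2
        have : a * (b * k - k * b) + (a * k - k * a) * b = a * b * k - k * (a * b) := by
          noncomm_ring
        rwa [this] at h3
      add_mem' := by
        intro a b ha hb
        have h3 := M.add_mem ha hb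
        have : a * k - k * a + (b * k - k * b) = (a + b) * k - k * (a + b) := by
          noncomm_ring
        rwa [this] at h3
      algebraMap_mem' := by
        intro r
        have : algebraMap ℂ E r * k - k * algebraMap ℂ E r = 0 := by
          rw [Algebra.commutes, sub_self]
        change algebraMap ℂ E r * k - k * algebraMap ℂ E r ∈ M
        rw [this]
        exact M.zero_mem }
  have hS : ∀ e, e ∈ S ↔ e * k - k * e ∈ M := fun e => Iff.rfl
  have hle : (⨆ t, D t : Subalgebra ℂ E) ≤ S := by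
    refine iSup_le fun t => ?_
    intro z hz
    rw [hS]
    by_cases hts : t = s
    · subst hts
      exact hcon z hz
    · have := hD.comm t s hts z hz k hks
      rw [this.eq, sub_self]
      exact M.zero_mem
  have hcl : IsClosed (S : Set E) :=
    (isClosed_of_isCoatom hM).preimage (f := fun b : E => b * k - k * b) (by fun_prop)
  intro e
  have : closure ((⨆ t, D t : Subalgebra ℂ E) : Set E) ⊆ S := closure_minimal hle hcl
  exact this (hD.dense e)

end Vale.Agent.P101
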