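import Vale.Agent.P101.Ideals

/-!
# P101: commuting generating families of subalgebras and the zero-product property
-/

namespace Vale.Agent.P101

variable {ι : Type*} {E : Type*} [NormedRing E] [NormedAlgebra ℂ E] [CompleteSpace E]

omit [CompleteSpace E] in
theorem smul_mem_ideal (M : TwoSidedIdeal E) (c : ℂ) {x : E} (hx : x ∈ M) : c • x ∈ M := by
  rw [← one_mul x, ← smul_mul_assoc]
  exact M.mul_mem_left _ _ hx

/-- `D` is a family of pairwise commuting unital subalgebras which together generate `E` as a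
Banach algebra. -/
structure CommGen (D : ι → Subalgebra ℂ E) : Prop where
  comm : ∀ s t, s ≠ t → ∀ x ∈ D s, ∀ y ∈ D t, Commute x y
  dense : Dense ((⨆ s, D s : Subalgebra ℂ E) : Set E)

/-- The subalgebra generated by the other members of the family. -/
def restAlg (D : ι → Subalgebra ℂ E) (s : ι) : Subalgebra ℂ E := ⨆ t : {t // t ≠ s}, D t

omit [CompleteSpace E] in
theorem CommGen.commute_rest {D : ι → Subalgebra ℂ E} (hD : CommGen D) {s : ι} {x r : E}
    (hx : x ∈ D s) (hr : r ∈ restAlg D s) : Commute x r := by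
  have : restAlg D s ≤ Subalgebra.centralizer ℂ (D s : Set E) := by
    refine iSup_le fun t => ?_
    intro y hy
    rw [Subalgebra.mem_centralizer_iff]
    intro z hz
    exact hD.comm s t t.2.symm z hz y hy
  have h := this hr
  rw [Subalgebra.mem_centralizer_iff] at h
  exact h x hx

/-- The zero-product property. -/
theorem CommGen.zp {D : ι → Subalgebra ℂ E} (hD : CommGen D) {M : TwoSidedIdeal E}
    (hM : IsCoatom M) {s : ι} {x y : E} (hx : x ∈ D s) (hy : ∀ d ∈ D s, Commute d y)
    (h : x * y ∈ M) : x ∈ M ∨ y ∈ M := by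
  apply mem_or_mem_of_isCoatom hM
  obtain ⟨f, hf⟩ : ∃ f : TensorProduct ℂ (restAlg D s) (D s) →ₐ[ℂ] E,
      ∀ (r : restAlg D s) (d : D s), f (r ⊗ₜ[ℂ] d) = (r : E) * d :=
    ⟨Algebra.TensorProduct.lift (restAlg D s).val (D s).val
      (fun r d => (hD.commute_rest d.2 r.2).symm),
      fun r d => Algebra.TensorProduct.lift_tmul _ _ _ _ _⟩
  have hle : (⨆ t, D t : Subalgebra ℂ E) ≤ f.range := by
    refine iSup_le fun t => ?_
    intro z hz
    by_cases hts : t = s
    · subst hts
      exact ⟨1 ⊗ₜ ⟨z, hz⟩, by simpa using hf 1 ⟨z, hz⟩⟩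
    · have : z ∈ restAlg D s := by
        have := le_iSup (fun t : {t // t ≠ s} => D t) ⟨t, hts⟩
        exact this hz
      exact ⟨⟨z, this⟩ ⊗ₜ 1, by simpa using hf ⟨z, this⟩ 1⟩
  have hcl : IsClosed {b : E | x * b * y ∈ M} :=
    (isClosed_of_isCoatom hM).preimage (f := fun b : E => x * b * y) (by fun_prop)
  have hw : ∀ w, x * f w * y ∈ M := by
    intro w
    induction w using TensorProduct.induction_on with
    | zero => simp [M.zero_mem]
    | tmul r d =>
      have e1 : x * (r : E) = r * x := hD.commute_rest hx r.2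
      have e2 : (d : E) * y = y * d := hy d d.2
      have : x * f (r ⊗ₜ[ℂ] d) * y = (r : E) * (x * y) * d := by
        rw [hf]
        calc x * ((r : E) * (d : E)) * y = (x * r) * (d * y) := by noncomm_ring
          _ = (r * x) * (y * d) := by rw [e1, e2]
          _ = (r : E) * (x * y) * d := by noncomm_ring
      rw [this]
      exact M.mul_mem_right _ _ (M.mul_mem_left _ _ h)
    | add w w' hw hw' =>
      rw [map_add, mul_add, add_mul]
      exact M.add_mem hw hw'
  have hsub : ((⨆ t, D t : Subalgebra ℂ E) : Set E) ⊆ {b : E | x * b * y ∈ M} := by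
    intro b hb
    obtain ⟨w, rfl⟩ := hle hb
    exact hw w
  intro b
  have : closure ((⨆ t, D t : Subalgebra ℂ E) : Set E) ⊆ {b : E | x * b * y ∈ M} :=
    closure_minimal hsub hcl
  exact this (hD.dense b)

omit [CompleteSpace E] in
theorem CommGen.commute_list {D : ι → Subalgebra ℂ E} (hD : CommGen D) {v : ι → E}
    (hv : ∀ s, v s ∈ D s) {s : ι} {d : E} (hd : d ∈ D s) (l : List ι) (hl : s ∉ l) :
    Commute d (l.map v).prod := by
  refine Commute.list_prod_right _ _ ?_
  intro y hy
  obtain ⟨t, ht, rfl⟩ := List.mem_map.1 hy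
  have hst : s ≠ t := by
    rintro rfl
    exact hl ht
  exact hD.comm s t hst d hd _ (hv t)

/-- The zero-product property for products of several factors. -/
theorem CommGen.zp_list {D : ι → Subalgebra ℂ E} (hD : CommGen D) {M : TwoSidedIdeal E}
    (hM : IsCoatom M) {v : ι → E} (hv : ∀ s, v s ∈ D s) (l : List ι) (hl : l.Nodup)
    (h : (l.map v).prod ∈ M) : ∃ s ∈ l, v s ∈ M := by
  induction l with
  | nil => exact absurd (by simpa using h) (one_notMem_of_isCoatom hM)
  | cons s l ih =>
    rw [List.nodup_cons] at hl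
    rw [List.map_cons, List.prod_cons] at h
    rcases hD.zp hM (hv s) (fun d hd => hD.commute_list hv hd l hl.1) h with h | h
    · exact ⟨s, by simp, h⟩
    · obtain ⟨t, ht, h⟩ := ih hl.2 h
      exact ⟨t, by simp [ht], h⟩

end Vale.Agent.P101
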